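import Vale.Agent.P110.Exist.Spec

/-!
The moduli and the quadratic coefficient vector.
-/

open Finset

namespace Vale.Agent.P110.Exist

namespace ArithAux

variable {D : ℕ}

theorem dot_eq (n y : Fin D → ℤ) : dot n y = n ⬝ᵥ y := rfl

/-- A vector orthogonal to `n` and to no other element of `S`. -/
theorem exists_perp (S : Finset (Fin D → ℤ)) (hprim : ∀ n ∈ S, ∃ y, dot n y = 1)
    (hneg : ∀ n ∈ S, -n ∉ S) (n : Fin D → ℤ) (hn : n ∈ S) :
    ∃ a : Fin D → ℤ, dot n a = 0 ∧ ∀ n' ∈ S, n ≠ n' → dot n' a ≠ 0 := by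
  classical
  have hnn : dot n n ≠ 0 := by
    intro h
    obtain ⟨y, hy⟩ := hprim n hn
    have : n = 0 := dotProduct_self_eq_zero.1 h
    subst this
    simp [dot] at hy
  have hw : ∀ n' ∈ S, n ≠ n' → ∃ i, dot n n * n' i - dot n' n * n i ≠ 0 := by
    intro n' hn' hne
    by_contra hcon
    push Not at hcon
    have heq : dot n n • n' = dot n' n • n := by
      funext i
      simp only [Pi.smul_apply, smul_eq_mul]
      linarith [hcon i]
    obtain ⟨y', hy'⟩ := hprim n' hn'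
    obtain ⟨y, hy⟩ := hprim n hn
    rw [dot_eq] at hy hy'
    have h1 : dot n n = dot n' n * (n ⬝ᵥ y') := by
      have := congrArg (fun z => z ⬝ᵥ y') heq
      rwa [smul_dotProduct, smul_dotProduct, hy', smul_eq_mul, smul_eq_mul, mul_one] at this
    have h2 : dot n n * (n' ⬝ᵥ y) = dot n' n := by
      have := congrArg (fun z => z ⬝ᵥ y) heq
      rwa [smul_dotProduct, smul_dotProduct, hy, smul_eq_mul, smul_eq_mul, mul_one] at this
    have h3 : (n ⬝ᵥ y') * (n' ⬝ᵥ y) = 1 := by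
      apply mul_left_cancel₀ hnn
      calc dot n n * ((n ⬝ᵥ y') * (n' ⬝ᵥ y))
          = (dot n n * (n' ⬝ᵥ y)) * (n ⬝ᵥ y') := by ring
        _ = dot n n * 1 := by rw [h2, mul_one, ← h1]
    have h4 : n' = (n' ⬝ᵥ y) • n := by
      funext i
      apply mul_left_cancel₀ hnn
      simp only [Pi.smul_apply, smul_eq_mul]
      rw [← mul_assoc, h2]
      linarith [hcon i]
    rcases Int.eq_one_or_neg_one_of_mul_eq_one' h3 with ⟨-, he⟩ | ⟨-, he⟩
    · exact hne (by rw [h4, he, one_smul])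
    · exact hneg n hn (by rw [h4, he, neg_one_smul] at hn'; exact hn')
  -- a point avoiding the finitely many hyperplanes, on the moment curve
  let P : (Fin D → ℤ) → Polynomial ℤ := fun n' =>
    ∑ i : Fin D, Polynomial.C (dot n n * n' i - dot n' n * n i) * Polynomial.X ^ (i : ℕ)
  have hP : ∀ n' ∈ S, n ≠ n' → P n' ≠ 0 := by
    intro n' hn' hne h0
    obtain ⟨i, hi⟩ := hw n' hn' hne
    apply hi
    have := congrArg (fun p => Polynomial.coeff p (i : ℕ)) h0
    simpa only [P, Polynomial.finsetSum_coeff, Polynomial.coeff_C_mul_X_pow, Fin.val_inj,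
      Finset.sum_ite_eq, Finset.mem_univ, if_true, Polynomial.coeff_zero] using this
  obtain ⟨t, ht⟩ := Infinite.exists_notMem_finset
    ((S.erase n).biUnion fun n' => (P n').roots.toFinset)
  let x : Fin D → ℤ := fun i => t ^ (i : ℕ)
  refine ⟨dot n n • x - dot n x • n, ?_, fun n' hn' hne h0 => ?_⟩
  · simp only [dot_eq, dotProduct_sub, dotProduct_smul, smul_eq_mul]
    ring
  · apply ht
    rw [mem_biUnion]
    refine ⟨n', mem_erase.2 ⟨fun h => hne h.symm, hn'⟩, ?_⟩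
    rw [Multiset.mem_toFinset, Polynomial.mem_roots (hP n' hn' hne)]
    simp only [Polynomial.IsRoot.def, P, Polynomial.eval_finsetSum, Polynomial.eval_mul,
      Polynomial.eval_C, Polynomial.eval_pow, Polynomial.eval_X]
    rw [← h0]
    simp only [dot, x, Pi.sub_apply, Pi.smul_apply, smul_eq_mul, mul_sub, sub_mul,
      Finset.sum_sub_distrib, Finset.mul_sum, Finset.sum_mul]
    congr 1
    · exact Finset.sum_congr rfl fun i _ => Finset.sum_congr rfl fun j _ => by ring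
    · rw [Finset.sum_comm]
      exact Finset.sum_congr rfl fun i _ => Finset.sum_congr rfl fun j _ => by ring

/-- Chinese remainder theorem for vectors. -/
theorem crt (S : Finset (Fin D → ℤ)) (Q : (Fin D → ℤ) → ℤ)
    (hQ : ∀ n ∈ S, ∀ n' ∈ S, n ≠ n' → IsCoprime (Q n) (Q n'))
    (z : (Fin D → ℤ) → (Fin D → ℤ)) :
    ∃ a : Fin D → ℤ, ∀ n ∈ S, ∀ v : Fin D → ℤ, dot v a ≡ dot v (z n) [ZMOD Q n] := by
  classical
  have hP : ∀ n, ∃ e : ℤ, n ∈ S → e ≡ 1 [ZMOD Q n] ∧ ∀ n' ∈ S, n' ≠ n → Q n' ∣ e := by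
    intro n
    by_cases hn : n ∈ S
    · have : IsCoprime (Q n) (∏ n' ∈ S.erase n, Q n') :=
        IsCoprime.prod_right fun n' hn' =>
          hQ n hn n' (mem_of_mem_erase hn') (ne_of_mem_erase hn').symm
      obtain ⟨u, w, huw⟩ := this
      refine ⟨w * ∏ n' ∈ S.erase n, Q n', fun _ => ⟨?_, fun n' hn' hne => ?_⟩⟩
      · rw [Int.modEq_iff_dvd]
        exact ⟨u, by linarith⟩
      · exact dvd_mul_of_dvd_right (Finset.dvd_prod_of_mem _ (mem_erase.2 ⟨hne, hn'⟩)) _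
    · exact ⟨0, fun h => absurd h hn⟩
  choose e he using hP
  refine ⟨∑ n ∈ S, e n • z n, fun n hn v => ?_⟩
  rw [dot_eq, dot_eq, dotProduct_sum, Int.modEq_iff_dvd]
  rw [← Finset.add_sum_erase S _ hn, dotProduct_smul, smul_eq_mul, sub_add_eq_sub_sub]
  apply dvd_sub
  · have := ((he n hn).1.mul_right (v ⬝ᵥ z n))
    rw [one_mul, Int.modEq_iff_dvd] at this
    exact this
  · refine Finset.dvd_sum fun n' hn' => ?_
    rw [dotProduct_smul, smul_eq_mul]
    exact dvd_mul_of_dvd_left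
      ((he n' (mem_of_mem_erase hn')).2 n hn (ne_of_mem_erase hn').symm) _

end ArithAux

open ArithAux in
theorem arithSpec : ArithSpec := by
  classical
  intro D S hprim hneg h hh c hc hinj
  have hperp : ∀ n, ∃ a : Fin D → ℤ, n ∈ S →
      dot n a = 0 ∧ ∀ n' ∈ S, n ≠ n' → dot n' a ≠ 0 := by
    intro n
    by_cases hn : n ∈ S
    · obtain ⟨a, ha⟩ := exists_perp S hprim hneg n hn
      exact ⟨a, fun _ => ha⟩
    · exact ⟨0, fun h => absurd h hn⟩
  choose z hz using hperp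
  choose y hy using hprim
  set T := (S ×ˢ S).filter fun p => p.1 ≠ p.2 with hT
  set M : ℕ := 2 * h * ∏ p ∈ T,
    ((dot p.2 (z p.1)).natAbs * ((c p.1 : ℤ) - c p.2).natAbs) with hM
  have hMpos : 0 < M := by
    refine Nat.mul_pos (by omega) (Finset.prod_pos fun p hp => ?_)
    simp only [hT, mem_filter, mem_product] at hp
    refine Nat.mul_pos (Int.natAbs_pos.2 ((hz p.1 hp.1.1).2 p.2 hp.1.2 hp.2)) (Int.natAbs_pos.2 ?_)
    rw [sub_ne_zero]
    exact_mod_cast fun he => hp.2 (hinj hp.1.1 hp.1.2 he)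
  let Q : (Fin D → ℤ) → ℕ := fun n => c n * M + 1
  have hQM : ∀ n, IsCoprime ((Q n : ℕ) : ℤ) (M : ℤ) :=
    fun n => ⟨1, -(c n : ℤ), by simp only [Q]; push_cast; ring⟩
  have hdvd : ∀ n ∈ S, ∀ n' ∈ S, n ≠ n' →
      dot n' (z n) ∣ (M : ℤ) ∧ ((c n : ℤ) - c n') ∣ (M : ℤ) := by
    intro n hn n' hn' hne
    have : (dot n' (z n)).natAbs * ((c n : ℤ) - c n').natAbs ∣ M :=
      dvd_mul_of_dvd_right (Finset.dvd_prod_of_mem
        (fun p : (Fin D → ℤ) × (Fin D → ℤ) =>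
          (dot p.2 (z p.1)).natAbs * ((c p.1 : ℤ) - c p.2).natAbs)
        (show (n, n') ∈ T by simp [hT, hn, hn', hne])) _
    exact ⟨Int.natAbs_dvd.1 (Int.natCast_dvd_natCast.2 (dvd_of_mul_right_dvd this)),
      Int.natAbs_dvd.1 (Int.natCast_dvd_natCast.2 (dvd_of_mul_left_dvd this))⟩
  have hcop : ∀ n ∈ S, ∀ n' ∈ S, n ≠ n' → IsCoprime ((Q n : ℕ) : ℤ) ((Q n' : ℕ) : ℤ) := by
    intro n hn n' hn' hne
    obtain ⟨u, v, huv⟩ :=
      IsCoprime.of_isCoprime_of_dvd_right (hQM n) (hdvd n hn n' hn' hne).2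
    refine ⟨u - v * (c n' : ℤ), v * c n, ?_⟩
    rw [← huv]
    simp only [Q]
    push_cast
    ring
  obtain ⟨a, ha⟩ := crt S (fun n => ((Q n : ℕ) : ℤ)) hcop z
  refine ⟨M, a, hMpos, fun n _ => ⟨?_, ?_⟩, fun n hn n' hn' hne => ?_, fun n hn => ?_,
    fun n hn n' hn' hne => ?_, fun r => ?_⟩
  · apply Nat.isCoprime_iff_coprime.1
    exact IsCoprime.of_isCoprime_of_dvd_right (hQM n)
      (by exact_mod_cast Dvd.dvd.mul_right (dvd_mul_left h 2) _)
  · refine ⟨c n * (h * ∏ p ∈ T,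
      ((dot p.2 (z p.1)).natAbs * ((c p.1 : ℤ) - c p.2).natAbs)), ?_⟩
    rw [hM]
    ring
  · exact Nat.isCoprime_iff_coprime.1 (hcop n hn n' hn' hne)
  · have := ha n hn n
    rw [(hz n hn).1] at this
    exact Int.modEq_zero_iff_dvd.1 this
  · have hcz : IsCoprime ((Q n : ℕ) : ℤ) (dot n' (z n)) :=
      IsCoprime.of_isCoprime_of_dvd_right (hQM n) (hdvd n hn n' hn' hne).1
    obtain ⟨u, v, huv⟩ := hcz
    obtain ⟨w, hw⟩ := Int.modEq_iff_dvd.1 (ha n hn n')
    refine IsCoprime.symm ⟨u + v * w, v, ?_⟩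
    rw [← huv]
    linear_combination (-v) * hw
  · obtain ⟨β, hβ⟩ := crt S (fun n => ((Q n : ℕ) : ℤ)) hcop
      (fun n => if hn : n ∈ S then r n • y n hn else 0)
    refine ⟨β, fun n hn => (hβ n hn n).trans ?_⟩
    rw [dif_pos hn, dot_eq, dotProduct_smul, ← dot_eq, hy n hn]
    simp

end Vale.Agent.P110.Exist
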