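import Vale.Agent.P110.Exist.Defs

/-!
Elementary lemmas on the shared definitions.
-/

open Real Finset

namespace Vale.Agent.P110.Exist

@[simp] lemma norm_e (t : ℝ) : ‖e t‖ = 1 := by
  simp only [e, Complex.norm_exp_ofReal_mul_I]

lemma e_add (s t : ℝ) : e (s + t) = e s * e t := by
  simp only [e, ← Complex.exp_add]
  congr 1
  push_cast
  ring

@[simp] lemma e_zero : e 0 = 1 := by simp [e]

lemma e_neg (t : ℝ) : e (-t) = (starRingEnd ℂ) (e t) := by
  simp only [e, ← Complex.exp_conj, map_mul, Complex.conj_I, Complex.conj_ofReal]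
  congr 1
  push_cast
  ring

lemma e_ne_zero (t : ℝ) : e t ≠ 0 := Complex.exp_ne_zero _

@[simp] lemma e_int (z : ℤ) : e (z : ℝ) = 1 := by
  rw [e, show ((2 * π * (z : ℝ) : ℝ) : ℂ) * Complex.I = (z : ℂ) * (2 * π * Complex.I) by
    push_cast; ring]
  exact Complex.exp_int_mul_two_pi_mul_I z

lemma e_add_int (t : ℝ) (z : ℤ) : e (t + z) = e t := by rw [e_add, e_int, mul_one]

lemma continuous_e : Continuous e := by unfold e; fun_prop

lemma norm_fc : ‖fc‖ = 1 := norm_e _

lemma fresnel_zero : fresnel 0 = 0 := by simp [fresnel]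

lemma fresnel_neg (y : ℝ) : fresnel (-y) = -fresnel y := by
  have h := intervalIntegral.integral_comp_neg (f := fun s : ℝ => e (s ^ 2 / 2)) (a := 0) (b := y)
  simp only [neg_sq, neg_zero] at h
  rw [fresnel, fresnel, intervalIntegral.integral_symm, ← h]

lemma fresnelRem_zero : fresnelRem 0 = 0 := by simp [fresnelRem, fresnel_zero]

lemma fresnelRem_neg (y : ℝ) : fresnelRem (-y) = -fresnelRem y := by
  simp only [fresnelRem, fresnel_neg, Real.sign_neg]
  push_cast
  ring

lemma exists_e_eq {w : ℂ} (hw : ‖w‖ = 1) : ∃ t : ℝ, e t = w := by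
  refine ⟨w.arg / (2 * π), ?_⟩
  rw [e, show (2 * π * (w.arg / (2 * π)) : ℝ) = w.arg by field_simp]
  have := Complex.norm_mul_exp_arg_mul_I w
  rw [hw] at this
  simpa using this

end Vale.Agent.P110.Exist
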