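import Vale.Agent.P110.Exist.Spec
import Vale.Agent.P110.Exist.Colouring.Moment

/-!
The entropy method: partial and full colourings.
-/

open Finset Real

namespace Vale.Agent.P110.Exist.Colouring

/-- `m (1 + log (n / m))`. -/
noncomputable def wt (n : ℕ) (x : ℝ) : ℝ := x * (1 + log (n / x))

lemma wt_mono {n : ℕ} {a b : ℝ} (ha : 0 ≤ a) (hab : a ≤ b) (hb : b ≤ n) : wt n a ≤ wt n b := by
  rcases ha.eq_or_lt with h | h
  · subst h
    rcases hab.eq_or_lt with h' | h'
    · subst h'; simp [wt]
    · simp only [wt, zero_mul]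
      have : 0 ≤ log (n / b) := log_nonneg (by rwa [le_div_iff₀ h', one_mul])
      positivity
  have hb0 : 0 < b := h.trans_le hab
  have hn : (0 : ℝ) < n := hb0.trans_le hb
  have h1 : log (n / a) = log (n / b) + log (b / a) := by
    rw [← log_mul (by positivity) (by positivity)]
    congr 1; field_simp
  have h2 : a * log (b / a) ≤ b - a := by
    have := mul_le_mul_of_nonneg_left (log_le_sub_one_of_pos (div_pos hb0 h)) h.le
    rwa [mul_sub, mul_div_cancel₀ _ h.ne', mul_one] at this
  have h3 : 0 ≤ log (n / b) := log_nonneg (by rwa [le_div_iff₀ hb0, one_mul])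
  simp only [wt, h1]
  nlinarith [mul_nonneg (sub_nonneg.2 hab) h3]

lemma wt_shrink {n : ℕ} {u : ℝ} (hu : 0 < u) (hn : u ≤ n) :
    wt n (7 / 8 * u) ≤ (999 / 1000) ^ 2 * wt n u := by
  have hn0 : (0 : ℝ) < n := hu.trans_le hn
  have h3 : 0 ≤ log (n / u) := log_nonneg (by rwa [le_div_iff₀ hu, one_mul])
  have h1 : log (n / (7 / 8 * u)) = log (n / u) + log (8 / 7) := by
    rw [← log_mul (by positivity) (by positivity)]
    congr 1; field_simp
  have h2 : log (8 / 7 : ℝ) ≤ 139 / 1000 := by
    have h := log_le_sub_one_of_pos (show (0 : ℝ) < √(8 / 7) by positivity)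
    rw [log_sqrt (by norm_num)] at h
    have : √(8 / 7 : ℝ) ≤ 10695 / 10000 := by
      rw [sqrt_le_left (by norm_num)]; norm_num
    linarith
  simp only [wt, h1]
  nlinarith [mul_nonneg hu.le h3, mul_le_mul_of_nonneg_left h2 hu.le]

/-- A partial colouring of any finite set. -/
theorem partialColour {α : Type*} [Fintype α] [DecidableEq α] {n : ℕ} (hα : 1 ≤ Fintype.card α)
    (hn : Fintype.card α ≤ n) (a : Fin n → α → ℝ) (ha : ∀ j k, |a j k| ≤ 1) :
    ∃ s : α → ℝ, (∀ k, s k = -1 ∨ s k = 0 ∨ s k = 1) ∧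
      (Fintype.card α : ℝ) / 8 ≤ #{k | s k ≠ 0} ∧
      ∀ j, |∑ k, a j k * s k| ≤ 8 * √(wt n (Fintype.card α)) := by
  set mN := Fintype.card α with hmN
  have hm : (1 : ℝ) ≤ mN := by exact_mod_cast hα
  have hm0 : (0 : ℝ) < mN := by linarith
  have hnm : (mN : ℝ) ≤ n := by exact_mod_cast hn
  have hn0 : (0 : ℝ) < n := by linarith
  set y := log ((n : ℝ) / mN) with hy
  have hy0 : 0 ≤ y := log_nonneg (by rwa [le_div_iff₀ hm0, one_mul])
  have hey : exp y = (n : ℝ) / mN := exp_log (by positivity)
  have hwt : wt n mN = mN * (1 + y) := rfl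
  have hroot : 1 ≤ √(wt n mN) := by
    rw [one_le_sqrt, hwt]; nlinarith
  rcases Nat.lt_or_ge mN 8 with hsm | hbig
  · obtain ⟨k0⟩ : Nonempty α := Fintype.card_pos_iff.1 hα
    refine ⟨fun k => if k = k0 then 1 else 0, fun k => ?_, ?_, fun j => ?_⟩
    · by_cases h : k = k0 <;> simp [h]
    · have h7 : (mN : ℝ) ≤ 8 := by exact_mod_cast hsm.le
      have : #{k | (if k = k0 then (1 : ℝ) else 0) ≠ 0} = 1 := by
        rw [card_eq_one]; exact ⟨k0, by ext k; simp⟩
      rw [this]; push_cast; linarith
    · simp only [mul_ite, mul_one, mul_zero, sum_ite_eq', mem_univ, if_true]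
      linarith [ha j k0]
  set Δ := 8 * √(wt n mN) with hΔ
  have hΔ0 : 0 < Δ := by rw [hΔ]; linarith
  have hΔ2 : Δ ^ 2 = 64 * (mN * (1 + y)) := by
    rw [hΔ, mul_pow, sq_sqrt (by rw [hwt]; positivity), hwt]; norm_num
  set l := 32 * (1 + y) with hl
  set W : (α → Bool) → ℝ := fun σ => ∑ j, |(round (rowSum a σ j / Δ) : ℝ)| with hW
  set w := 4 * (n : ℝ) * exp (-8 * (1 + y)) with hw
  have hw0 : 0 < w := by positivity
  have hrow : ∀ j, ∑ σ : α → Bool, |(round (rowSum a σ j / Δ) : ℝ)| ≤
      2 ^ mN * (2 * exp (-8 * (1 + y))) := by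
    intro j
    refine (sum_le_sum fun σ _ => abs_round_le _ l (by rw [hl]; linarith)).trans ?_
    rw [← mul_sum, sum_add_distrib]
    have e1 := sum_exp_rowSum a ha j (l / Δ)
    have e2 := sum_exp_rowSum a ha j (-(l / Δ))
    rw [← hmN] at e1 e2
    have hexp : (mN : ℝ) * (l / Δ) ^ 2 / 2 = 8 * (1 + y) := by
      rw [div_pow, hΔ2, hl]; field_simp; ring
    rw [hexp] at e1
    rw [neg_sq, hexp] at e2
    have c1 : ∀ σ : α → Bool, l * (rowSum a σ j / Δ) = l / Δ * rowSum a σ j := fun σ => by ring
    simp only [c1, ← neg_mul]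
    refine (mul_le_mul_of_nonneg_left (add_le_add e1 e2) (exp_pos _).le).trans_eq ?_
    rw [show -8 * (1 + y) = -l / 2 + 8 * (1 + y) by rw [hl]; ring, exp_add]
    ring
  have htot : ∑ σ, W σ ≤ 2 ^ mN * w / 2 := by
    rw [hW, sum_comm]
    refine (sum_le_sum fun j _ => hrow j).trans_eq ?_
    simp [hw]; ring
  set good : Finset (α → Bool) := univ.filter fun σ => W σ ≤ w with hgood
  have hgood2 : (2 : ℝ) ^ mN / 2 ≤ good.card := by
    have h2 : ((univ.filter fun σ => ¬ W σ ≤ w).card : ℝ) * w ≤ ∑ σ, W σ := by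
      rw [← nsmul_eq_mul]
      exact (card_nsmul_le_sum _ _ _ fun σ hσ => (not_le.1 (mem_filter.1 hσ).2).le).trans
        (sum_le_sum_of_subset_of_nonneg (filter_subset _ _)
          fun σ _ _ => sum_nonneg fun _ _ => abs_nonneg _)
    have h3 : (good.card : ℝ) + (univ.filter fun σ => ¬ W σ ≤ w).card = 2 ^ mN := by
      rw [hgood, ← Nat.cast_add, card_filter_add_card_filter_not, card_univ, Fintype.card_fun,
        Fintype.card_bool]
      simp [hmN]
    by_contra hc
    push Not at hc
    nlinarith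
  set T : (α → Bool) → (Fin n → ℤ) := fun σ j => round (rowSum a σ j / Δ) with hT
  have himg : ((good.image T).card : ℝ) ≤ exp ((mN : ℝ) / 10) := by
    refine (count_vectors _ ((mN : ℝ) / n / 50) w (by positivity) ?_ ?_).trans (exp_le_exp.2 ?_)
    · have : (mN : ℝ) / n ≤ 1 := by rwa [div_le_one hn0]
      linarith
    · simp only [mem_image, forall_exists_index, and_imp]
      rintro _ σ hσ rfl
      exact (mem_filter.1 hσ).2
    · have hlog : -log ((mN : ℝ) / n / 50) = log 50 + y := by
        rw [hy, ← log_inv, ← log_mul (by norm_num) (by positivity)]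
        congr 1; field_simp
      have hl50 : log (50 : ℝ) ≤ 21 / 5 := by
        have h1 := log_le_log (by norm_num) (show (50 : ℝ) ≤ 2 ^ 6 by norm_num)
        rw [log_pow] at h1
        push_cast at h1
        linarith [log_two_lt_d9]
      have hl50' : 0 ≤ log (50 : ℝ) := log_nonneg (by norm_num)
      have hwe : w = 4 * (mN : ℝ) * exp (-8) * exp (-7 * y) := by
        rw [hw, mul_assoc (4 * (mN : ℝ)), ← exp_add,
          show -8 * (1 + y) = (-8 + -7 * y) - y by ring, exp_sub, hey]
        field_simp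
      have h7 : exp (-7 * y) * (log 50 + y) ≤ 26 / 5 := by
        have h1 : exp (-7 * y) ≤ 1 / (1 + 7 * y) := by
          rw [show -7 * y = -(7 * y) by ring, exp_neg, ← one_div]
          exact one_div_le_one_div_of_le (by linarith) (by linarith [add_one_le_exp (7 * y)])
        refine (mul_le_mul_of_nonneg_right h1 (by linarith)).trans ?_
        rw [div_mul_eq_mul_div, div_le_iff₀ (by linarith)]
        nlinarith
      have h8 : exp (-8 : ℝ) ≤ 1 / 2000 := by
        rw [exp_neg, ← one_div]
        refine one_div_le_one_div_of_le (by norm_num) ?_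
        have h1 : exp (8 : ℝ) = exp 1 ^ 8 := by rw [← exp_nat_mul]; norm_num
        rw [h1]
        exact le_trans (by norm_num)
          (pow_le_pow_left₀ (by norm_num) exp_one_gt_d9.le 8)
      have h9 : 4 * ((mN : ℝ) / n / 50) * (Fintype.card (Fin n) : ℝ) = 2 * mN / 25 := by
        rw [Fintype.card_fin]; field_simp; ring
      rw [h9, hlog, hwe, mul_assoc]
      have h10 : 4 * (mN : ℝ) * exp (-8) * (exp (-7 * y) * (log 50 + y)) ≤
          4 * mN * (1 / 2000) * (26 / 5) := by
        gcongr
      linarith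
  obtain ⟨σ, hσ, σ', hσ', hTe, hd⟩ : ∃ σ ∈ good, ∃ σ' ∈ good, T σ = T σ' ∧
      (mN : ℝ) / 8 < #{k | σ k ≠ σ' k} := by
    by_contra hno
    push Not at hno
    set ball := (univ : Finset (Finset α)).filter fun s => (s.card : ℝ) ≤ 1 / 8 * (mN : ℝ)
    have hb : (ball.card : ℝ) ≤ exp (mN * (1 / 8 + 1 / 8 * -log (1 / 8))) :=
      ball_count (by norm_num) (by norm_num) (by norm_num)
    have hfib : ∀ b ∈ good.image T, #{σ ∈ good | T σ = b} ≤ ball.card := by
      intro b hb'
      obtain ⟨σ₀, h0, rfl⟩ := mem_image.1 hb'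
      refine card_le_card_of_injOn (fun σ => univ.filter fun k => σ₀ k ≠ σ k) ?_ ?_
      · intro σ hσ
        obtain ⟨hσ, hTσ⟩ := mem_filter.1 hσ
        refine mem_filter.2 ⟨mem_univ _, ?_⟩
        have := hno σ₀ h0 σ hσ hTσ.symm
        linarith
      · intro σ₁ _ σ₂ _ h
        funext k
        have := Finset.ext_iff.1 h k
        simp only [mem_filter, mem_univ, true_and] at this
        revert this
        cases σ₀ k <;> cases σ₁ k <;> cases σ₂ k <;> simp
    have hc : (good.card : ℝ) ≤ ball.card * (good.image T).card := by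
      exact_mod_cast card_le_mul_card_image good ball.card hfib
    have h2 : (2 : ℝ) ^ mN / 2 ≤
        exp (mN * (1 / 8 + 1 / 8 * -log (1 / 8)) + (mN : ℝ) / 10) := by
      rw [exp_add]
      exact hgood2.trans (hc.trans (mul_le_mul hb himg (by positivity) (by positivity)))
    have h3 := log_le_log (by positivity) h2
    rw [log_exp, log_div (by positivity) (by norm_num), log_pow] at h3
    have h8 : log (1 / 8 : ℝ) = -(3 * log 2) := by
      rw [one_div, log_inv, show (8 : ℝ) = 2 ^ 3 by norm_num, log_pow]; norm_num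
    rw [h8] at h3
    have hb8 : (8 : ℝ) ≤ mN := by exact_mod_cast hbig
    nlinarith [log_two_gt_d9, log_two_lt_d9]
  refine ⟨fun k => (sgn (σ k) - sgn (σ' k)) / 2, fun k => ?_, ?_, fun j => ?_⟩
  · show (sgn (σ k) - sgn (σ' k)) / 2 = -1 ∨ _
    cases h1 : σ k <;> cases h2 : σ' k <;> simp [sgn, h1, h2] <;> norm_num
  · have he : ∀ k, ((sgn (σ k) - sgn (σ' k)) / 2 ≠ 0) ↔ σ k ≠ σ' k := fun k => by
      cases σ k <;> cases σ' k <;> norm_num [sgn]
    rw [filter_congr fun k _ => he k]
    exact hd.le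
  · have hj : round (rowSum a σ j / Δ) = round (rowSum a σ' j / Δ) := congrFun hTe j
    have h1 := abs_sub_round (rowSum a σ j / Δ)
    have h2 := abs_sub_round (rowSum a σ' j / Δ)
    rw [hj] at h1
    have h3 : |rowSum a σ j / Δ - rowSum a σ' j / Δ| ≤ 1 := by
      rw [abs_le] at h1 h2 ⊢
      constructor <;> linarith
    rw [← sub_div, abs_div, abs_of_pos hΔ0, div_le_one hΔ0] at h3
    have h4 : ∑ k, a j k * ((sgn (σ k) - sgn (σ' k)) / 2) =
        (rowSum a σ j - rowSum a σ' j) / 2 := by
      simp only [rowSum, ← sum_sub_distrib, sum_div]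
      exact sum_congr rfl fun k _ => by ring
    rw [h4, abs_div, abs_two]
    linarith

/-- A full colouring of a subset, by iteration. -/
theorem colourOn {m n : ℕ} (hmn : m ≤ n) (a : Fin n → Fin m → ℝ) (ha : ∀ j k, |a j k| ≤ 1)
    (U : Finset (Fin m)) :
    ∃ s : Fin m → ℝ, (∀ k ∈ U, s k = -1 ∨ s k = 1) ∧ (∀ k ∉ U, s k = 0) ∧
      ∀ j, |∑ k, a j k * s k| ≤ 10000 * √(wt n U.card) := by
  induction U using Finset.strongInduction with
  | H U ih =>
    rcases U.eq_empty_or_nonempty with rfl | hne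
    · exact ⟨fun _ => 0, by simp, by simp, fun j => by simp⟩
    have hcU : U.card ≤ n := (card_le_univ U).trans (by simpa using hmn)
    obtain ⟨s₁, hs, hsupp, hd⟩ :=
      partialColour (α := U) (by simpa using hne.card_pos) (by simpa using hcU)
        (fun j k => a j k) (fun j k => ha j k)
    simp only [Fintype.card_coe] at hsupp hd
    set s' : Fin m → ℝ := fun k => if h : k ∈ U then s₁ ⟨k, h⟩ else 0 with hs'
    set U' := U.filter fun k => s' k = 0 with hU'
    have hsum : (U'.card : ℝ) + #{k : U | s₁ k ≠ 0} = U.card := by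
      have h1 : #{k : U | s₁ k ≠ 0} = (U.filter fun k => ¬ s' k = 0).card := by
        refine card_bij (fun k _ => (k : Fin m)) ?_ (fun _ _ _ _ h => Subtype.ext h) ?_
        · intro k hk
          simpa [hs', k.2] using hk
        · intro k hk
          obtain ⟨hk, hk'⟩ := mem_filter.1 hk
          exact ⟨⟨k, hk⟩, by simpa [hs', hk] using hk', rfl⟩
      rw [h1, hU', ← Nat.cast_add, card_filter_add_card_filter_not]
    have hlt : U' ⊂ U := by
      refine ⟨filter_subset _ _, fun h => ?_⟩
      have h2 : U.card ≤ U'.card := card_le_card h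
      have h3 : (0 : ℝ) < U.card := by exact_mod_cast hne.card_pos
      have h4 : (U.card : ℝ) ≤ U'.card := by exact_mod_cast h2
      linarith
    obtain ⟨t, ht, ht0, htd⟩ := ih U' hlt
    refine ⟨fun k => s' k + t k, fun k hk => ?_, fun k hk => ?_, fun j => ?_⟩
    · show s' k + t k = -1 ∨ s' k + t k = 1
      by_cases h : s' k = 0
      · rw [h, zero_add]; exact ht k (mem_filter.2 ⟨hk, h⟩)
      · rw [ht0 k (fun hc => h (mem_filter.1 hc).2), add_zero]
        simp only [hs', dif_pos hk] at h ⊢
        rcases hs ⟨k, hk⟩ with h' | h' | h'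
        · exact Or.inl h'
        · exact absurd h' h
        · exact Or.inr h'
    · show s' k + t k = 0
      rw [ht0 k (fun hc => hk (mem_filter.1 hc).1), add_zero]
      simp [hs', hk]
    · have e1 : ∑ k, a j k * s' k = ∑ k : U, a j k * s₁ k := by
        rw [← sum_subset (subset_univ U) (fun k _ hk => by simp [hs', hk]), ← sum_coe_sort U]
        exact sum_congr rfl fun k _ => by simp [hs']
      simp only [mul_add, sum_add_distrib]
      refine (abs_add_le _ _).trans ?_
      rw [e1]
      refine (add_le_add (hd j) (htd j)).trans ?_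
      have hu : (0 : ℝ) < U.card := by exact_mod_cast hne.card_pos
      have hun : (U.card : ℝ) ≤ n := by exact_mod_cast hcU
      have h5 : √(wt n U'.card) ≤ 999 / 1000 * √(wt n U.card) := by
        rw [← sqrt_sq (show (0 : ℝ) ≤ 999 / 1000 by norm_num), ← sqrt_mul (by positivity)]
        exact sqrt_le_sqrt ((wt_mono (by positivity) (by linarith) (by linarith)).trans
          (wt_shrink hu hun))
      linarith [sqrt_nonneg (wt n U.card)]

end Vale.Agent.P110.Exist.Colouring

namespace Vale.Agent.P110.Exist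

theorem partialColour : PartialColourSpec :=
  ⟨8, by norm_num, fun m n hm hmn a ha => by
    simpa [Colouring.wt] using
      Colouring.partialColour (α := Fin m) (by simpa using hm) (by simpa using hmn) a ha⟩

theorem colour : ColourSpec :=
  ⟨10000, by norm_num, fun m n _ hmn a ha => by
    obtain ⟨s, hs, -, hd⟩ := Colouring.colourOn hmn a ha univ
    exact ⟨s, fun k => hs k (mem_univ k), fun j => by simpa [Colouring.wt] using hd j⟩⟩

end Vale.Agent.P110.Exist
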