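import Mathlib

/-!
Shared definitions for the construction of ultraflat polynomials with real sign coefficients.
-/

open Real Finset

namespace Vale.Agent.P110.Exist

/-- `e t = exp (2 π i t)`. -/
noncomputable def e (t : ℝ) : ℂ := Complex.exp ((2 * π * t : ℝ) * Complex.I)

/-- The trigonometric polynomial with real coefficients `x`. -/
noncomputable def trig {N : ℕ} (x : Fin N → ℝ) (t : ℝ) : ℂ :=
  ∑ k, (x k : ℂ) * e ((k : ℕ) * t)

/-- Integer inner product. -/
def dot {D : ℕ} (n y : Fin D → ℤ) : ℤ := ∑ i, n i * y i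

/-- The Fresnel integral `∫₀^y e(s²/2) ds`. -/
noncomputable def fresnel (y : ℝ) : ℂ := ∫ s in (0 : ℝ)..y, e (s ^ 2 / 2)

/-- The constant `e(1/8)`, the total Fresnel integral. -/
noncomputable def fc : ℂ := e (1 / 8)

/-- `E(y) - sgn(y) C₀/2`. -/
noncomputable def fresnelRem (y : ℝ) : ℂ := fresnel y - (Real.sign y : ℂ) * fc / 2

/-- One side of a junction of the amplitude staircase. -/
noncomputable def junction (A z : ℝ) : ℂ :=
  (A : ℂ) * e (-(A * z) ^ 2 / 2) * fresnelRem (A * z)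

/-- A chirp path: the knots of a piecewise linear frequency `κ` on `[0, 1/2]`. -/
structure Path where
  J : ℕ
  t : ℕ → ℝ
  kap : ℕ → ℝ
  t_zero : t 0 = 0
  t_last : t J = 1 / 2
  t_lt : ∀ i < J, t i < t (i + 1)
  kap_ne : ∀ i < J, kap i ≠ kap (i + 1)

namespace Path

/-- Inverse slope of segment `i`. -/
noncomputable def sigma (P : Path) (i : ℕ) : ℝ :=
  (P.t (i + 1) - P.t i) / (P.kap (i + 1) - P.kap i)

/-- Phase (divided by `N`) at knot `i`. -/
noncomputable def phi (P : Path) (i : ℕ) : ℝ :=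
  ∑ l ∈ range i, (P.kap l + P.kap (l + 1)) / 2 * (P.t (l + 1) - P.t l)

/-- `√N ∫` over segment `i` of `e(NΦ(t) - kt)`. -/
noncomputable def seg (P : Path) (N : ℕ) (i : ℕ) (k : ℤ) : ℂ :=
  let s := |P.sigma i|
  let c := (k : ℝ) / N
  (√s : ℂ) * e (N * P.phi i - k * P.t i - P.sigma i * N * (P.kap i - c) ^ 2 / 2) *
    (if 0 < P.sigma i then
      fresnel (√(s * N) * (P.kap (i + 1) - c)) - fresnel (√(s * N) * (P.kap i - c))
    else
      (starRingEnd ℂ) (fresnel (√(s * N) * (c - P.kap (i + 1))) -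
        fresnel (√(s * N) * (c - P.kap i))))

/-- The real Fourier coefficients of `√N F`, `F(t) = e(NΦ(t))` continued by `F(-t) = conj F(t)`. -/
noncomputable def coef (P : Path) (N : ℕ) (k : ℤ) : ℝ :=
  2 * (∑ i ∈ range P.J, P.seg N i k).re

end Path

/-- The quadratic exponential sum with modulus `h * q0`. -/
noncomputable def gauss (h q0 : ℕ) (A B b u : ℤ) : ℂ :=
  (∑ k ∈ range (h * q0), e ((A * (k : ℝ) ^ 2 + B * k) / q0 + b * (k : ℝ) / h
    - u * (k : ℝ) / (h * q0 : ℕ))) / (h * q0 : ℕ)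

end Vale.Agent.P110.Exist
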