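import Vale.Agent.P110.Exist.Spec
import Vale.Agent.P110.Exist.Basic

/-!
The Fresnel integral: its total value `e(1/8)/2` on each side, the asymptotic expansion of the
remainder and the regularity of a junction of the amplitude staircase.
-/

open Real MeasureTheory Filter Topology intervalIntegral
open scoped ComplexConjugate

namespace Vale.Agent.P110.Exist.Fres

/-- The integrand `exp (-b x²)`. -/
noncomputable def gs (b : ℂ) (x : ℝ) : ℂ := Complex.exp (-b * (x : ℂ) ^ 2)

/-- The parameter of the Fresnel integral. -/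
noncomputable def b₀ : ℂ := -((π : ℂ) * Complex.I)

lemma gs_b₀ (x : ℝ) : gs b₀ x = e (x ^ 2 / 2) := by
  simp only [gs, b₀, e]
  congr 1
  push_cast
  ring

lemma norm_b₀ : ‖b₀‖ = π := by simp [b₀, abs_of_pos pi_pos]

lemma norm_gs_le {b : ℂ} (hb : 0 ≤ b.re) (x : ℝ) : ‖gs b x‖ ≤ 1 := by
  rw [gs, Complex.norm_exp, Real.exp_le_one_iff]
  have : (-b * (x : ℂ) ^ 2).re = -b.re * x ^ 2 := by
    rw [← Complex.ofReal_pow, Complex.re_mul_ofReal, Complex.neg_re]
  rw [this]
  nlinarith [sq_nonneg x]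

lemma continuous_gs (b : ℂ) : Continuous (gs b) := by unfold gs; fun_prop

lemma hasDerivAt_gs (b : ℂ) (x : ℝ) : HasDerivAt (gs b) (-2 * b * x * gs b x) x := by
  have h1 : HasDerivAt (fun x : ℝ => (x : ℂ)) 1 x := Complex.ofRealCLM.hasDerivAt
  exact ((h1.fun_pow 2).const_mul (-b)).cexp.congr_deriv (by simp [gs]; ring)

lemma continuousOn_div_pow (b : ℂ) (k : ℕ) {a y : ℝ} (ha : 0 < a) :
    ContinuousOn (fun x : ℝ => gs b x / (x : ℂ) ^ k) (Set.Icc a y) :=
  (continuous_gs b).continuousOn.div (by fun_prop) fun _ hx =>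
    pow_ne_zero k (Complex.ofReal_ne_zero.2 (ha.trans_le hx.1).ne')

/-- Integration by parts against `gs b`. -/
lemma parts (b : ℂ) (k : ℕ) {a y : ℝ} (ha : 0 < a) (hay : a ≤ y) :
    2 * b * ∫ x in a..y, gs b x / (x : ℂ) ^ k =
      gs b a / (a : ℂ) ^ (k + 1) - gs b y / (y : ℂ) ^ (k + 1) -
        ((k : ℂ) + 1) * ∫ x in a..y, gs b x / (x : ℂ) ^ (k + 2) := by
  have hc := fun j => (continuousOn_div_pow b j ha (y := y)).intervalIntegrable_of_Icc (μ := volume) hay
  have hd : ∀ x ∈ Set.uIcc a y, HasDerivAt (fun x : ℝ => gs b x / (x : ℂ) ^ (k + 1))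
      (-2 * b * (gs b x / (x : ℂ) ^ k) - ((k : ℂ) + 1) * (gs b x / (x : ℂ) ^ (k + 2))) x := by
    intro x hx
    rw [Set.uIcc_of_le hay] at hx
    have hx0 : (x : ℂ) ≠ 0 := Complex.ofReal_ne_zero.2 (ha.trans_le hx.1).ne'
    have h1 : HasDerivAt (fun x : ℝ => (x : ℂ)) 1 x := Complex.ofRealCLM.hasDerivAt
    refine ((hasDerivAt_gs b x).fun_div (h1.fun_pow (k + 1)) (pow_ne_zero _ hx0)).congr_deriv ?_
    simp only [Nat.add_sub_cancel, mul_one]
    push_cast
    field_simp
    ring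
  have h := integral_eq_sub_of_hasDerivAt hd (((hc k).const_mul _).sub ((hc (k + 2)).const_mul _))
  rw [intervalIntegral.integral_sub ((hc k).const_mul _) ((hc (k + 2)).const_mul _),
    intervalIntegral.integral_const_mul, intervalIntegral.integral_const_mul] at h
  linear_combination -h

/-- The tail of a weighted integral. -/
lemma norm_int_div_pow_le {b : ℂ} (hb : 0 ≤ b.re) (k : ℕ) {a y : ℝ} (ha : 0 < a) (hay : a ≤ y) :
    ((k : ℝ) + 1) * ‖∫ x in a..y, gs b x / (x : ℂ) ^ (k + 2)‖ ≤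
      1 / a ^ (k + 1) - 1 / y ^ (k + 1) := by
  have hi : IntervalIntegrable (fun x : ℝ => 1 / x ^ (k + 2)) volume a y :=
    ((continuousOn_const.div (by fun_prop) fun x hx =>
      pow_ne_zero _ (ha.trans_le hx.1).ne')).intervalIntegrable_of_Icc hay
  have hd : ∀ x ∈ Set.uIcc a y, HasDerivAt (fun x : ℝ => -(1 / x ^ (k + 1)))
      (((k : ℝ) + 1) * (1 / x ^ (k + 2))) x := by
    intro x hx
    rw [Set.uIcc_of_le hay] at hx
    have hx0 : x ≠ 0 := (ha.trans_le hx.1).ne'
    refine (((hasDerivAt_const x (1 : ℝ)).fun_div ((hasDerivAt_id x).fun_pow (k + 1))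
      (pow_ne_zero _ hx0)).neg).congr_deriv ?_
    simp only [id, Nat.add_sub_cancel, mul_one]
    push_cast
    field_simp
    ring
  have h := integral_eq_sub_of_hasDerivAt hd (hi.const_mul _)
  rw [intervalIntegral.integral_const_mul] at h
  refine (mul_le_mul_of_nonneg_left (intervalIntegral.norm_integral_le_of_norm_le hay
    (ae_of_all _ fun x hx => ?_) hi) (by positivity)).trans (le_of_eq (by linarith))
  rw [norm_div, norm_pow, Complex.norm_real, norm_eq_abs, abs_of_pos (ha.trans hx.1)]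
  exact div_le_div_of_nonneg_right (norm_gs_le hb x) (pow_nonneg (ha.trans hx.1).le _)

/-- The tail is at most `1/(|b| a)`. -/
lemma norm_tail_le {b : ℂ} (hb : 0 ≤ b.re) {a y : ℝ} (ha : 0 < a) (hay : a ≤ y) :
    2 * ‖b‖ * ‖∫ x in a..y, gs b x‖ ≤ 2 / a := by
  have h := parts b 0 ha hay
  simp only [pow_zero, div_one, Nat.cast_zero, zero_add, pow_one, one_mul] at h
  have h2 := norm_int_div_pow_le hb 0 ha hay
  simp only [Nat.cast_zero, zero_add, pow_one, one_mul] at h2
  have hy : 0 < y := ha.trans_le hay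
  have ha' : ‖gs b a / (a : ℂ)‖ ≤ 1 / a := by
    rw [norm_div, Complex.norm_real, norm_eq_abs, abs_of_pos ha]
    exact div_le_div_of_nonneg_right (norm_gs_le hb a) ha.le
  have hy' : ‖gs b y / (y : ℂ)‖ ≤ 1 / y := by
    rw [norm_div, Complex.norm_real, norm_eq_abs, abs_of_pos hy]
    exact div_le_div_of_nonneg_right (norm_gs_le hb y) hy.le
  calc 2 * ‖b‖ * ‖∫ x in a..y, gs b x‖ = ‖2 * b * ∫ x in a..y, gs b x‖ := by simp
    _ ≤ ‖gs b a / (a : ℂ)‖ + ‖gs b y / (y : ℂ)‖ + ‖∫ x in a..y, gs b x / (x : ℂ) ^ 2‖ := by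
      rw [h]
      exact (norm_sub_le _ _).trans (add_le_add (norm_sub_le _ _) le_rfl)
    _ ≤ _ := by rw [show 2 / a = 1 / a + 1 / a by ring]; linarith

/-- Two terms of the expansion of the tail. -/
lemma norm_tail_sub_le {a y : ℝ} (ha : 0 < a) (hay : a ≤ y) :
    ‖(∫ x in a..y, gs b₀ x) - gs b₀ a / (2 * b₀ * a)‖ ≤ 1 / (2 * π * y) + 1 / a ^ 3 := by
  have hb : 0 ≤ b₀.re := by simp [b₀]
  have hπ := pi_gt_three
  have hy : 0 < y := ha.trans_le hay
  have h0 := parts b₀ 0 ha hay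
  have h2 := parts b₀ 2 ha hay
  have h4 := norm_int_div_pow_le hb 2 ha hay
  simp only [pow_zero, div_one, Nat.cast_zero, zero_add, pow_one, one_mul] at h0
  norm_num at h2 h4
  set I0 := ∫ x in a..y, gs b₀ x
  set I2 := ∫ x in a..y, gs b₀ x / (x : ℂ) ^ 2
  set I4 := ∫ x in a..y, gs b₀ x / (x : ℂ) ^ 4
  have hb0 : b₀ ≠ 0 := norm_ne_zero_iff.1 (by rw [norm_b₀]; exact pi_ne_zero)
  have ha3 : ‖gs b₀ a / (a : ℂ) ^ 3‖ ≤ 1 / a ^ 3 := by
    rw [norm_div, norm_pow, Complex.norm_real, norm_eq_abs, abs_of_pos ha]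
    exact div_le_div_of_nonneg_right (norm_gs_le hb a) (by positivity)
  have hy3 : ‖gs b₀ y / (y : ℂ) ^ 3‖ ≤ 1 / y ^ 3 := by
    rw [norm_div, norm_pow, Complex.norm_real, norm_eq_abs, abs_of_pos hy]
    exact div_le_div_of_nonneg_right (norm_gs_le hb y) (by positivity)
  have hI2 : 2 * π * ‖I2‖ ≤ 2 / a ^ 3 := by
    calc 2 * π * ‖I2‖ = ‖2 * b₀ * I2‖ := by simp [norm_b₀]
      _ ≤ ‖gs b₀ a / (a : ℂ) ^ 3‖ + ‖gs b₀ y / (y : ℂ) ^ 3‖ + ‖3 * I4‖ := by
        rw [h2]
        exact (norm_sub_le _ _).trans (add_le_add (norm_sub_le _ _) le_rfl)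
      _ ≤ _ := by
        rw [norm_mul, Complex.norm_ofNat, show 2 / a ^ 3 = 1 / a ^ 3 + 1 / a ^ 3 by ring]
        simp only [one_div] at *
        linarith
  have hy1 : ‖gs b₀ y / (y : ℂ)‖ ≤ 1 / y := by
    rw [norm_div, Complex.norm_real, norm_eq_abs, abs_of_pos hy]
    exact div_le_div_of_nonneg_right (norm_gs_le hb y) hy.le
  have e1 : 2 * b₀ * (I0 - gs b₀ a / (2 * b₀ * a)) = -(gs b₀ y / (y : ℂ) + I2) := by
    have hac : (a : ℂ) ≠ 0 := Complex.ofReal_ne_zero.2 ha.ne'
    rw [mul_sub, h0]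
    field_simp
    ring
  have h5 : 2 * π * ‖I0 - gs b₀ a / (2 * b₀ * a)‖ ≤ 1 / y + ‖I2‖ := by
    calc 2 * π * ‖I0 - gs b₀ a / (2 * b₀ * a)‖
        = ‖2 * b₀ * (I0 - gs b₀ a / (2 * b₀ * a))‖ := by simp [norm_b₀]
      _ ≤ _ := by rw [e1, norm_neg]; exact (norm_add_le _ _).trans (add_le_add hy1 le_rfl)
  have h6 : ‖I0 - gs b₀ a / (2 * b₀ * a)‖ ≤ (1 / y + ‖I2‖) / (2 * π) := by
    rw [le_div_iff₀ (by positivity)]; linarith
  refine h6.trans ?_
  rw [add_div, div_div, mul_comm y]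
  refine add_le_add le_rfl ?_
  rw [div_le_iff₀ (by positivity)]
  have : (0 : ℝ) < 1 / a ^ 3 := by positivity
  have h7 : 2 / a ^ 3 = 2 * (1 / a ^ 3) := by ring
  nlinarith [norm_nonneg I2]

lemma fresnel_eq (y : ℝ) : fresnel y = ∫ x in (0 : ℝ)..y, gs b₀ x := by
  simp only [fresnel, gs_b₀]

/-- The value of the Gaussian integral at the boundary parameter. -/
lemma total_eq : ((π : ℂ) / b₀) ^ (1 / 2 : ℂ) = fc := by
  have hb : (π : ℂ) / b₀ = Complex.I := by
    rw [b₀, div_neg, div_mul_eq_div_div, div_self (Complex.ofReal_ne_zero.2 pi_ne_zero), one_div,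
      Complex.inv_I, neg_neg]
  rw [hb, Complex.cpow_def_of_ne_zero Complex.I_ne_zero, Complex.log_I, fc, e]
  congr 1
  push_cast
  ring

/-- **The total integral**: the Abel limit of the Gaussian integral. -/
lemma norm_fresnel_sub_le {a : ℝ} (ha : 0 < a) : ‖fresnel a - fc / 2‖ ≤ 1 / (π * a) := by
  have hb : ∀ ε : ℝ, 0 < ε →
      ‖(∫ x in (0 : ℝ)..a, gs (ε + b₀) x) - ((π : ℂ) / (ε + b₀)) ^ (1 / 2 : ℂ) / 2‖ ≤
        1 / (π * a) := fun ε hε => by
    have hre : 0 < ((ε : ℂ) + b₀).re := by simp [b₀, hε]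
    have hn : π ≤ ‖(ε : ℂ) + b₀‖ := by
      refine le_trans (le_of_eq ?_) (Complex.abs_im_le_norm _)
      simp [b₀, abs_of_pos pi_pos]
    have hlim := intervalIntegral_tendsto_integral_Ioi (f := gs (ε + b₀)) (0 : ℝ) (b := id)
      (integrable_cexp_neg_mul_sq hre).integrableOn tendsto_id
    have hG : (∫ x in Set.Ioi (0 : ℝ), gs (ε + b₀) x) =
        ((π : ℂ) / (ε + b₀)) ^ (1 / 2 : ℂ) / 2 := integral_gaussian_complex_Ioi hre
    rw [hG] at hlim
    refine le_of_tendsto ((tendsto_const_nhds.sub hlim).norm) ?_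
    filter_upwards [eventually_ge_atTop a] with y hy
    rw [id, norm_sub_rev, intervalIntegral.integral_interval_sub_left
      ((continuous_gs _).intervalIntegrable _ _) ((continuous_gs _).intervalIntegrable _ _),
      le_div_iff₀ (by positivity)]
    have h := norm_tail_le hre.le ha hy
    rw [le_div_iff₀ ha] at h
    nlinarith [mul_le_mul_of_nonneg_right hn
      (mul_nonneg (norm_nonneg (∫ x in a..y, gs (ε + b₀) x)) ha.le)]
  have h1 : Tendsto (fun ε : ℝ => ∫ x in (0 : ℝ)..a, gs (ε + b₀) x) (𝓝[>] 0)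
      (𝓝 (fresnel a)) := by
    have hc : Continuous fun ε : ℝ => ∫ x in (0 : ℝ)..a, gs (ε + b₀) x :=
      intervalIntegral.continuous_parametric_intervalIntegral_of_continuous' (by
        simp only [gs, Function.uncurry_def]; fun_prop) _ _
    simpa [fresnel_eq] using hc.continuousWithinAt (s := Set.Ioi (0 : ℝ)) (x := 0) |>.tendsto
  have h2 : Tendsto (fun ε : ℝ => ((π : ℂ) / (ε + b₀)) ^ (1 / 2 : ℂ) / 2) (𝓝[>] 0)
      (𝓝 (fc / 2)) := by
    rw [← total_eq]
    refine Tendsto.div_const (Tendsto.cpow (tendsto_const_nhds.div ?_ ?_) tendsto_const_nhds ?_) _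
    · refine Tendsto.mono_left ?_ nhdsWithin_le_nhds
      exact (Continuous.tendsto' (by fun_prop) _ _ (by simp))
    · exact norm_ne_zero_iff.1 (by rw [norm_b₀]; exact pi_ne_zero)
    · refine Or.inr ?_
      simp [b₀, Complex.div_im, Complex.normSq, pi_ne_zero]
  refine le_of_tendsto (h1.sub h2).norm ?_
  filter_upwards [self_mem_nhdsWithin] with ε hε using hb ε hε

lemma fresnelRem_of_pos {y : ℝ} (hy : 0 < y) : fresnelRem y = fresnel y - fc / 2 := by
  simp [fresnelRem, Real.sign_of_pos hy]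

lemma norm_fresnelRem_abs (y : ℝ) : ‖fresnelRem y‖ = ‖fresnelRem |y|‖ := by
  rcases abs_cases y with ⟨h, -⟩ | ⟨h, -⟩
  · rw [h]
  · rw [h, fresnelRem_neg, norm_neg]

lemma rem_le (y : ℝ) : ‖fresnelRem y‖ ≤ 3 / (1 + |y|) := by
  rw [norm_fresnelRem_abs, le_div_iff₀ (by positivity)]
  rcases (abs_nonneg y).eq_or_lt with h | h
  · rw [← h, fresnelRem_zero]; simp
  · have hπ := pi_gt_three
    rw [fresnelRem_of_pos h]
    rcases le_total |y| 1 with h1 | h1
    · have h2 : ‖fresnel |y|‖ ≤ 1 := by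
        rw [fresnel_eq]
        refine (intervalIntegral.norm_integral_le_of_norm_le_const (C := 1) fun x _ =>
          norm_gs_le (by simp [b₀]) x).trans ?_
        simpa using h1
      have h3 : ‖fresnel |y| - fc / 2‖ ≤ 3 / 2 := by
        refine (norm_sub_le _ _).trans ?_
        rw [norm_div, norm_fc, Complex.norm_ofNat]
        linarith
      nlinarith [norm_nonneg (fresnel |y| - fc / 2)]
    · have h2 := norm_fresnel_sub_le h
      rw [le_div_iff₀ (by positivity)] at h2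
      nlinarith [norm_nonneg (fresnel |y| - fc / 2),
        mul_nonneg (norm_nonneg (fresnel |y| - fc / 2)) h.le]

lemma rem_expansion (y : ℝ) (hy : y ≠ 0) :
    ‖fresnelRem y - e (y ^ 2 / 2) / ((2 * π * y : ℝ) * Complex.I)‖ ≤ 1 / |y| ^ 3 := by
  have key : ∀ y : ℝ, 0 < y →
      ‖fresnelRem y - e (y ^ 2 / 2) / ((2 * π * y : ℝ) * Complex.I)‖ ≤ 1 / y ^ 3 := fun y hy => by
    have hlim : Tendsto (fun Y : ℝ => 1 / (π * Y) + (1 / (2 * π * Y) + 1 / y ^ 3)) atTop
        (𝓝 (1 / y ^ 3)) := by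
      have h : ∀ c : ℝ, 0 < c → Tendsto (fun Y : ℝ => 1 / (c * Y)) atTop (𝓝 0) := fun c hc =>
        tendsto_const_nhds.div_atTop (tendsto_id.const_mul_atTop hc)
      simpa only [zero_add] using (h π pi_pos).add ((h (2 * π) (by positivity)).add_const (1 / y ^ 3))
    refine ge_of_tendsto hlim ?_
    filter_upwards [eventually_ge_atTop y] with Y hY
    have h1 := norm_fresnel_sub_le (hy.trans_le hY)
    have h2 := norm_tail_sub_le hy hY
    rw [norm_sub_rev] at h2
    refine le_trans ?_ (add_le_add h1 h2)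
    refine le_trans (le_of_eq ?_) (norm_add_le _ _)
    congr 1
    have hsplit : (∫ x in (0 : ℝ)..Y, gs b₀ x) - ∫ x in (0 : ℝ)..y, gs b₀ x =
        ∫ x in y..Y, gs b₀ x := intervalIntegral.integral_interval_sub_left
      ((continuous_gs _).intervalIntegrable _ _) ((continuous_gs _).intervalIntegrable _ _)
    rw [← hsplit, fresnelRem_of_pos hy, fresnel_eq, fresnel_eq, gs_b₀, b₀]
    have e1 : (((2 * π * y : ℝ) : ℂ) * Complex.I) = -(2 * -((π : ℂ) * Complex.I) * y) := by
      push_cast; ring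
    rw [e1, div_neg]
    ring
  rcases hy.lt_or_gt with h | h
  · have h2 := key (-y) (by linarith)
    rw [abs_of_neg h]
    refine le_trans (le_of_eq ?_) h2
    rw [fresnelRem_neg, show (2 * π * -y : ℝ) = -(2 * π * y) by ring, neg_sq, Complex.ofReal_neg,
      neg_mul, div_neg, sub_neg_eq_add, ← norm_neg (fresnelRem y - _), neg_sub', sub_neg_eq_add]
  · rw [abs_of_pos h]; exact key y h

lemma fresnel_le (y : ℝ) : ‖fresnel y‖ ≤ 4 := by
  have h1 : ‖fresnelRem y‖ ≤ 3 := by
    refine (rem_le y).trans (div_le_self (by norm_num) ?_)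
    linarith [abs_nonneg y]
  have h2 : fresnel y = fresnelRem y + (Real.sign y : ℂ) * fc / 2 := by
    rw [fresnelRem]; ring
  rw [h2]
  refine (norm_add_le _ _).trans ?_
  rcases Real.sign_apply_eq y with h | h | h <;> simp [h, norm_fc] <;> linarith

lemma junction_le {A : ℝ} (hA : 0 ≤ A) (z : ℝ) :
    ‖junction A z‖ ≤ A * (3 / (1 + |A * z|)) := by
  rw [junction, norm_mul, norm_mul, Complex.norm_real, norm_eq_abs, abs_of_nonneg hA, norm_e,
    mul_one]
  exact mul_le_mul_of_nonneg_left (rem_le _) hA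

lemma junction_far {A z : ℝ} (hA : 0 ≤ A) (hz : z ≠ 0) : ‖junction A z‖ ≤ 3 / |z| := by
  refine (junction_le hA z).trans ?_
  rw [mul_div_assoc', div_le_div_iff₀ (by positivity) (abs_pos.2 hz), abs_mul, abs_of_nonneg hA]
  nlinarith [mul_nonneg hA (abs_nonneg z)]

/-- The derivative of a junction in the amplitude. -/
lemma norm_junction_sub_le {z A A' : ℝ} (hA : 0 < A) (hA' : 0 < A') :
    ‖junction A' z - junction A z‖ ≤ 30 * ‖A' - A‖ := by
  rcases eq_or_ne z 0 with rfl | hz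
  · simp [junction, fresnelRem_zero]
  set s : ℂ := (Real.sign z : ℂ) * fc / 2
  have hsign : ∀ B : ℝ, 0 < B → Real.sign (B * z) = Real.sign z := fun B hB => by
    rcases hz.lt_or_gt with h | h
    · rw [Real.sign_of_neg h, Real.sign_of_neg (mul_neg_of_pos_of_neg hB h)]
    · rw [Real.sign_of_pos h, Real.sign_of_pos (mul_pos hB h)]
  set F : ℝ → ℂ := fun B => (B : ℂ) * gs (-b₀) (B * z) * (fresnel (B * z) - s)
  have he : ∀ y : ℝ, e (-y ^ 2 / 2) = gs (-b₀) y := fun y => by
    simp only [gs, b₀, e]; congr 1; push_cast; ring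
  have hF : ∀ B : ℝ, 0 < B → junction B z = F B := fun B hB => by
    simp only [junction, F, s, fresnelRem, hsign B hB, he]
  rw [hF A hA, hF A' hA']
  refine Convex.norm_image_sub_le_of_norm_hasDerivWithin_le (f := F) (f' := fun B : ℝ =>
    gs (-b₀) (B * z) * (fresnel (B * z) - s) + (B : ℂ) * (gs (-b₀) (B * z) *
      (2 * b₀ * (B * z : ℝ) * z) * (fresnel (B * z) - s) + gs (-b₀) (B * z) *
        (gs b₀ (B * z) * z))) (fun B hB => ?_) (fun B hB => ?_) (convex_Ioi (0 : ℝ)) hA hA'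
  · have h0 : HasDerivAt (fun B : ℝ => B * z) z B := hasDerivAt_mul_const z
    have h1 : HasDerivAt (fun B : ℝ => gs (-b₀) (B * z))
        (gs (-b₀) (B * z) * (2 * b₀ * (B * z : ℝ) * z)) B :=
      by
      have h := (hasDerivAt_gs (-b₀) (B * z)).scomp B h0
      exact h.congr_deriv (by rw [Complex.real_smul]; ring)
    have h2 : HasDerivAt (fun B : ℝ => fresnel (B * z) - s) (gs b₀ (B * z) * z) B := by
      have := ((continuous_gs b₀).integral_hasStrictDerivAt 0 (B * z)).hasDerivAt.scomp B h0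
      refine ((this.congr_deriv ?_).congr_of_eventuallyEq ?_).sub_const s
      · rw [Complex.real_smul]; ring
      · exact .of_forall fun B => fresnel_eq _
    have h3 : HasDerivAt (fun B : ℝ => (B : ℂ)) 1 B := Complex.ofRealCLM.hasDerivAt
    exact ((h3.mul h1).mul h2).congr_deriv (by simp; ring) |>.hasDerivWithinAt
  · have hB0 : (0 : ℝ) < B := hB
    set y := B * z with hy'
    have hy : y ≠ 0 := mul_ne_zero hB0.ne' hz
    set R := fresnel y - s
    have hR : fresnelRem y = R := by simp only [R, s, fresnelRem, hy', hsign B hB0]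
    have hinv : gs (-b₀) y * gs b₀ y = 1 := by simp [gs, ← Complex.exp_add]
    have hg : ‖gs (-b₀) y‖ = 1 := by rw [← he, norm_e]
    have e1 : gs (-b₀) y * R + (B : ℂ) * (gs (-b₀) y * (2 * b₀ * (y : ℂ) * z) * R +
        gs (-b₀) y * (gs b₀ y * z)) =
        gs (-b₀) y * R + (y : ℂ) * (2 * b₀ * y * gs (-b₀) y * R + 1) := by
      simp only [hy', Complex.ofReal_mul] at hinv ⊢
      linear_combination (B : ℂ) * (z : ℂ) * hinv
    rw [e1]
    refine (norm_add_le _ _).trans ?_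
    have h1 : ‖gs (-b₀) y * R‖ ≤ 3 := by
      rw [norm_mul, hg, one_mul, ← hR]
      refine (rem_le y).trans (div_le_self (by norm_num) ?_)
      linarith [abs_nonneg y]
    rcases le_total |y| 1 with hy1 | hy1
    · have h2 : ‖(y : ℂ) * (2 * b₀ * y * gs (-b₀) y * R + 1)‖ ≤ 1 * (2 * 4 * 1 * 3 + 1) := by
        rw [norm_mul, Complex.norm_real, norm_eq_abs]
        refine mul_le_mul hy1 ((norm_add_le _ _).trans ?_) (norm_nonneg _) zero_le_one
        rw [norm_one, mul_assoc _ (gs (-b₀) y) R, norm_mul, norm_mul, norm_mul, Complex.norm_ofNat,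
          norm_b₀, Complex.norm_real, norm_eq_abs]
        gcongr
        exact pi_le_four
      linarith
    · have h4 := rem_expansion y hy
      have hyc : (y : ℂ) ≠ 0 := Complex.ofReal_ne_zero.2 hy
      have hb0 : b₀ ≠ 0 := norm_ne_zero_iff.1 (by rw [norm_b₀]; exact pi_ne_zero)
      have e2 : 2 * b₀ * y * gs (-b₀) y * R + 1 = 2 * b₀ * y * gs (-b₀) y *
          (fresnelRem y - e (y ^ 2 / 2) / ((2 * π * y : ℝ) * Complex.I)) := by
        rw [hR, ← gs_b₀, show (((2 * π * y : ℝ) : ℂ) * Complex.I) = -(2 * b₀ * y) by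
          simp only [b₀]; push_cast; ring]
        field_simp
        linear_combination (-1 : ℂ) * hinv
      have h2 : ‖(y : ℂ) * (2 * b₀ * y * gs (-b₀) y * R + 1)‖ ≤ 8 := by
        rw [e2]
        simp only [norm_mul, Complex.norm_ofNat, norm_b₀, hg, Complex.norm_real, norm_eq_abs,
          mul_one]
        calc |y| * (2 * π * |y| * ‖fresnelRem y - e (y ^ 2 / 2) / ((2 * π * y : ℝ) * Complex.I)‖)
            ≤ |y| * (2 * 4 * |y| * (1 / |y| ^ 3)) := by
              gcongr; exact pi_le_four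
          _ = 8 / |y| := by field_simp; ring
          _ ≤ 8 := div_le_self (by norm_num) hy1
      linarith

lemma junction_sub {A A' z : ℝ} (hA : A ∈ Set.Icc (0 : ℝ) 1) (hA' : A' ∈ Set.Icc (0 : ℝ) 1) :
    ‖junction A z - junction A' z‖ ≤ 30 * √|A - A'| := by
  have hle : |A - A'| ≤ √|A - A'| := Real.le_sqrt_of_sq_le (by
    have : |A - A'| ≤ 1 := abs_le.2 ⟨by linarith [hA.1, hA'.2], by linarith [hA.2, hA'.1]⟩
    nlinarith [abs_nonneg (A - A')])
  have h0 : ∀ B : ℝ, 0 ≤ B → ‖junction B z‖ ≤ 30 * |B| := fun B hB => by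
    refine (junction_le hB z).trans ?_
    have : 3 / (1 + |B * z|) ≤ 3 := div_le_self (by norm_num) (by linarith [abs_nonneg (B * z)])
    rw [abs_of_nonneg hB]
    nlinarith
  refine le_trans ?_ (mul_le_mul_of_nonneg_left hle (by norm_num))
  rcases hA.1.eq_or_lt with h | h
  · subst h
    have : junction 0 z = 0 := by simp [junction]
    rw [this, zero_sub, norm_neg, zero_sub, abs_neg]
    exact h0 _ hA'.1
  rcases hA'.1.eq_or_lt with h' | h'
  · subst h'
    have : junction 0 z = 0 := by simp [junction]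
    rw [this, sub_zero, sub_zero]
    exact h0 _ hA.1
  rw [← norm_eq_abs]
  exact norm_junction_sub_le h' h

end Fres

open Fres

/-- **B4. The Fresnel integral.** -/
theorem fresnel_spec : FresnelSpec := by
  refine ⟨30, by norm_num, fun y => (fresnel_le y).trans (by norm_num), fun y => ?_,
    fun y hy => ?_, fun A A' z hA hA' => junction_sub hA hA',
    fun A z hA hz => (junction_far hA.1 hz).trans ?_⟩
  · exact (rem_le y).trans (by gcongr; norm_num)
  · exact (rem_expansion y hy).trans (by gcongr; norm_num)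
  · gcongr; norm_num

end Vale.Agent.P110.Exist
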