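import Vale.Agent.P110.Exist.Spec

/-!
The quadratic exponential sum: magnitude, support and inversion.
-/

open Finset
open scoped ComplexConjugate

namespace Vale.Agent.P110.Exist

namespace GaussSum

variable {q : ℕ} [NeZero q]

theorem sum_range_cast {β : Type*} [AddCommMonoid β] (F : ZMod q → β) :
    ∑ k ∈ range q, F (k : ZMod q) = ∑ x : ZMod q, F x :=
  Finset.sum_nbij' (fun k => (k : ZMod q)) (fun x => x.val) (by simp)
    (fun x _ => by simpa using ZMod.val_lt x)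
    (fun k hk => by simpa using ZMod.val_cast_of_lt (by simpa using hk))
    (fun x _ => ZMod.natCast_zmod_val x) (fun _ _ => rfl)

theorem e_div (j : ℤ) : e ((j : ℝ) / q) = ZMod.stdAddChar (j : ZMod q) := by
  rw [ZMod.stdAddChar_coe, e]
  congr 1
  push_cast
  ring

theorem conj_std (x : ZMod q) :
    conj (ZMod.stdAddChar x : ℂ) = ZMod.stdAddChar (-x) := by
  rw [ZMod.stdAddChar_apply, ZMod.stdAddChar_apply, AddChar.map_neg_eq_inv,
    Circle.coe_inv_eq_conj]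

/-- `|∑ ψ(α x² + β x)|²` collapses to the kernel of `2α`. -/
theorem sum_mul_conj (α β : ZMod q) :
    (∑ x : ZMod q, (ZMod.stdAddChar (α * x ^ 2 + β * x) : ℂ)) *
        conj (∑ x : ZMod q, (ZMod.stdAddChar (α * x ^ 2 + β * x) : ℂ)) =
      (q : ℂ) * ∑ j : ZMod q,
        if 2 * α * j = 0 then (ZMod.stdAddChar (α * j ^ 2 + β * j) : ℂ) else 0 := by
  rw [map_sum, Finset.sum_mul_sum]
  simp_rw [conj_std, ← AddChar.map_add_eq_mul]
  rw [Finset.sum_comm]
  have h1 : ∀ y : ZMod q,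
      ∑ x : ZMod q, (ZMod.stdAddChar (α * x ^ 2 + β * x + -(α * y ^ 2 + β * y)) : ℂ) =
        ∑ j : ZMod q, (ZMod.stdAddChar (α * j ^ 2 + β * j) : ℂ) *
          ZMod.stdAddChar (y * (2 * α * j)) := by
    intro y
    refine (Equiv.sum_comp (Equiv.addLeft y) _).symm.trans (Finset.sum_congr rfl fun j _ => ?_)
    rw [← AddChar.map_add_eq_mul]
    congr 1
    simp only [Equiv.coe_addLeft]
    ring
  simp_rw [h1]
  rw [Finset.sum_comm, Finset.mul_sum]
  refine Finset.sum_congr rfl fun j _ => ?_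
  rw [← Finset.mul_sum, AddChar.sum_mulShift _ (ZMod.isPrimitive_stdAddChar q), ZMod.card]
  split_ifs <;> simp [mul_comm]

theorem sum_range_dvd {β : Type*} [AddCommMonoid β] (d P : ℕ) (hd : 0 < d) (F : ℕ → β) :
    (∑ j ∈ range (d * P), if d ∣ j then F j else 0) = ∑ i ∈ range P, F (d * i) := by
  rw [← Finset.sum_filter]
  symm
  refine Finset.sum_nbij' (fun i => d * i) (fun j => j / d) ?_ ?_ ?_ ?_ (fun _ _ => rfl)
  · intro i hi
    simp only [mem_range] at hi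
    simp [Nat.mul_lt_mul_left hd, hi]
  · intro j hj
    simp only [mem_filter, mem_range] at hj
    simpa using (Nat.div_lt_iff_lt_mul hd).2 (by rw [Nat.mul_comm P d]; exact hj.1)
  · intro i _
    exact Nat.mul_div_cancel_left _ hd
  · intro j hj
    simp only [mem_filter] at hj
    exact Nat.mul_div_cancel' hj.2

theorem gauss_eq (h q0 : ℕ) [NeZero (h * q0)] (A B b u : ℤ) :
    gauss h q0 A B b u =
      (∑ x : ZMod (h * q0), (ZMod.stdAddChar
        ((((h : ℤ) * A : ℤ) : ZMod (h * q0)) * x ^ 2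
          + (((h : ℤ) * B + (q0 : ℤ) * b - u : ℤ) : ZMod (h * q0)) * x) : ℂ))
        / (h * q0 : ℕ) := by
  have hh : (h : ℝ) ≠ 0 := by
    exact_mod_cast left_ne_zero_of_mul (NeZero.ne (h * q0))
  have hq0 : (q0 : ℝ) ≠ 0 := by
    exact_mod_cast right_ne_zero_of_mul (NeZero.ne (h * q0))
  unfold gauss
  congr 1
  rw [← sum_range_cast]
  refine Finset.sum_congr rfl fun k _ => ?_
  have hr : ((A * (k : ℝ) ^ 2 + B * k) / q0 + b * (k : ℝ) / h - u * (k : ℝ) / (h * q0 : ℕ))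
      = (((h : ℤ) * A * (k : ℤ) ^ 2 + ((h : ℤ) * B + (q0 : ℤ) * b - u) * k : ℤ) : ℝ)
        / (h * q0 : ℕ) := by
    push_cast
    field_simp
    ring
  rw [hr, e_div]
  push_cast
  rfl

theorem norm_sq_gauss (h q0 Q : ℕ) (A B b u : ℤ) (hh : 0 < h) (hq0 : 0 < q0) (hQ : Q ∣ q0)
    (hA : (Q : ℤ) ∣ A) (hc : IsCoprime (2 * (A / (Q : ℤ))) ((q0 / Q : ℕ) : ℤ)) :
    ‖gauss h q0 A B b u‖ ^ 2 =
      if u ≡ (h : ℤ) * B + (q0 : ℤ) * b [ZMOD ((h * Q : ℕ) : ℤ)] then (Q : ℝ) / q0 else 0 := by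
  have hQ0 : 0 < Q := Nat.pos_of_dvd_of_pos hQ hq0
  have : NeZero (h * q0) := ⟨(Nat.mul_pos hh hq0).ne'⟩
  have : NeZero (h * Q) := ⟨(Nat.mul_pos hh hQ0).ne'⟩
  obtain ⟨d, hd⟩ := hQ
  obtain ⟨A', rfl⟩ := hA
  have hdQ : q0 / Q = d := by rw [hd, Nat.mul_div_cancel_left _ hQ0]
  rw [hdQ, Int.mul_ediv_cancel_left _ (by exact_mod_cast hQ0.ne')] at hc
  have hd0 : 0 < d := by
    rcases Nat.eq_zero_or_pos d with h0 | h0
    · simp [hd, h0] at hq0
    · exact h0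
  set a1 : ℤ := (h : ℤ) * B + (q0 : ℤ) * b - u with ha1
  have hkey := sum_mul_conj (((h : ℤ) * ((Q : ℤ) * A') : ℤ) : ZMod (h * q0))
    ((a1 : ℤ) : ZMod (h * q0))
  have hker : (∑ j : ZMod (h * q0),
      if 2 * (((h : ℤ) * ((Q : ℤ) * A') : ℤ) : ZMod (h * q0)) * j = 0 then
        (ZMod.stdAddChar ((((h : ℤ) * ((Q : ℤ) * A') : ℤ) : ZMod (h * q0)) * j ^ 2
          + ((a1 : ℤ) : ZMod (h * q0)) * j) : ℂ) else 0) =
      if ((h * Q : ℕ) : ℤ) ∣ a1 then ((h * Q : ℕ) : ℂ) else 0 := by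
    rw [← sum_range_cast]
    have hcond : ∀ k : ℕ, (2 * (((h : ℤ) * ((Q : ℤ) * A') : ℤ) : ZMod (h * q0)) * (k : ZMod (h * q0))
        = 0) ↔ d ∣ k := by
      intro k
      have : 2 * (((h : ℤ) * ((Q : ℤ) * A') : ℤ) : ZMod (h * q0)) * (k : ZMod (h * q0))
          = ((((h : ℤ) * Q) * ((2 * A') * k) : ℤ) : ZMod (h * q0)) := by
        push_cast; ring
      rw [this, ZMod.intCast_zmod_eq_zero_iff_dvd]
      have hq : ((h * q0 : ℕ) : ℤ) = ((h : ℤ) * Q) * d := by rw [hd]; push_cast; ring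
      rw [hq, mul_dvd_mul_iff_left (by positivity)]
      constructor
      · intro hk
        exact_mod_cast hc.symm.dvd_of_dvd_mul_left hk
      · intro hk
        exact dvd_mul_of_dvd_right (by exact_mod_cast hk) _
    simp only [hcond]
    rw [show range (h * q0) = range (d * (h * Q)) by rw [hd]; congr 1; ring,
      sum_range_dvd d (h * Q) hd0]
    have hterm : ∀ i : ℕ, (ZMod.stdAddChar ((((h : ℤ) * ((Q : ℤ) * A') : ℤ) : ZMod (h * q0))
          * ((d * i : ℕ) : ZMod (h * q0)) ^ 2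
          + ((a1 : ℤ) : ZMod (h * q0)) * ((d * i : ℕ) : ZMod (h * q0))) : ℂ)
        = ZMod.stdAddChar ((i : ZMod (h * Q)) * (a1 : ZMod (h * Q))) := by
      intro i
      have h0 : (((h : ℤ) * ((Q : ℤ) * A') : ℤ) : ZMod (h * q0))
          * ((d * i : ℕ) : ZMod (h * q0)) ^ 2 = 0 := by
        have : (((h : ℤ) * ((Q : ℤ) * A') : ℤ) : ZMod (h * q0))
            * ((d * i : ℕ) : ZMod (h * q0)) ^ 2
            = ((((h * q0 : ℕ) : ℤ) * (A' * d * (i : ℤ) ^ 2) : ℤ) : ZMod (h * q0)) := by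
          rw [hd]
          push_cast
          ring
        rw [this, ZMod.intCast_zmod_eq_zero_iff_dvd]
        exact dvd_mul_right _ _
      rw [h0, zero_add]
      have e1 := e_div (q := h * q0) (a1 * (d * i : ℕ))
      have e2 := e_div (q := h * Q) (i * a1)
      push_cast at e1 e2 ⊢
      rw [← e1, ← e2]
      congr 1
      have : (h : ℝ) ≠ 0 := by exact_mod_cast hh.ne'
      have : (Q : ℝ) ≠ 0 := by exact_mod_cast hQ0.ne'
      have : (d : ℝ) ≠ 0 := by exact_mod_cast hd0.ne'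
      rw [hd]
      push_cast
      field_simp
    rw [Finset.sum_congr rfl fun i _ => hterm i,
      sum_range_cast (fun x : ZMod (h * Q) => (ZMod.stdAddChar (x * (a1 : ZMod (h * Q))) : ℂ)),
      AddChar.sum_mulShift _ (ZMod.isPrimitive_stdAddChar _), ZMod.card]
    simp only [ZMod.intCast_zmod_eq_zero_iff_dvd]
    split_ifs <;> simp
  rw [hker] at hkey
  have hnorm : ((‖gauss h q0 ((Q : ℤ) * A') B b u‖ ^ 2 : ℝ) : ℂ) =
      (((h * q0 : ℕ) : ℂ) * if ((h * Q : ℕ) : ℤ) ∣ a1 then ((h * Q : ℕ) : ℂ) else 0) /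
        ((h * q0 : ℕ) : ℂ) ^ 2 := by
    rw [← hkey, ← Complex.normSq_eq_norm_sq, ← Complex.mul_conj, gauss_eq, map_div₀,
      Complex.conj_natCast, ← ha1]
    rw [div_mul_div_comm, sq]
  have hiff : (((h * Q : ℕ) : ℤ) ∣ a1) ↔
      u ≡ (h : ℤ) * B + (q0 : ℤ) * b [ZMOD ((h * Q : ℕ) : ℤ)] := Int.modEq_iff_dvd.symm
  apply Complex.ofReal_injective
  rw [hnorm]
  have hqC : ((h * q0 : ℕ) : ℂ) ≠ 0 := Nat.cast_ne_zero.2 (NeZero.ne _)
  have hhC : (h : ℂ) ≠ 0 := Nat.cast_ne_zero.2 hh.ne'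
  simp only [hiff]
  split_ifs
  · rw [sq, mul_div_mul_left _ _ hqC]
    push_cast
    rw [mul_div_mul_left _ _ hhC]
  · simp

theorem sum_gauss (h q0 : ℕ) (A B b : ℤ) (hh : 0 < h) (hq0 : 0 < q0) (k : ℤ) :
    ∑ u ∈ range (h * q0), gauss h q0 A B b u * e ((u : ℝ) * k / (h * q0 : ℕ)) =
      e ((A * (k : ℝ) ^ 2 + B * k) / q0 + b * (k : ℝ) / h) := by
  have : NeZero (h * q0) := ⟨(Nat.mul_pos hh hq0).ne'⟩
  set q := h * q0 with hq
  set α : ZMod q := (((h : ℤ) * A : ℤ) : ZMod q) with hα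
  set β : ZMod q := (((h : ℤ) * B + (q0 : ℤ) * b : ℤ) : ZMod q) with hβ
  have hg : ∀ u : ℕ, gauss h q0 A B b u =
      (∑ x : ZMod q, (ZMod.stdAddChar (α * x ^ 2 + (β - (u : ZMod q)) * x) : ℂ)) / (q : ℂ) := by
    intro u
    rw [gauss_eq]
    simp [hα, hβ, hq]
    rfl
  have he : ∀ u : ℕ, e ((u : ℝ) * k / (q : ℕ)) =
      (ZMod.stdAddChar ((u : ZMod q) * (k : ZMod q)) : ℂ) := by
    intro u
    have := e_div (q := q) ((u : ℤ) * k)
    push_cast at this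
    exact this
  simp_rw [hg, he]
  rw [sum_range_cast (fun y : ZMod q =>
    (∑ x : ZMod q, (ZMod.stdAddChar (α * x ^ 2 + (β - y) * x) : ℂ)) / (q : ℂ) *
      ZMod.stdAddChar (y * (k : ZMod q)))]
  simp_rw [div_mul_eq_mul_div, ← Finset.sum_div, Finset.sum_mul, ← AddChar.map_add_eq_mul]
  rw [Finset.sum_comm]
  have hx : ∀ x : ZMod q, ∑ y : ZMod q,
      (ZMod.stdAddChar (α * x ^ 2 + (β - y) * x + y * (k : ZMod q)) : ℂ) =
      ZMod.stdAddChar (α * x ^ 2 + β * x) * if (k : ZMod q) - x = 0 then (q : ℂ) else 0 := by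
    intro x
    have : ∀ y : ZMod q,
        (ZMod.stdAddChar (α * x ^ 2 + (β - y) * x + y * (k : ZMod q)) : ℂ) =
        ZMod.stdAddChar (α * x ^ 2 + β * x) * ZMod.stdAddChar (y * ((k : ZMod q) - x)) := by
      intro y
      rw [← AddChar.map_add_eq_mul]
      congr 1
      ring
    simp_rw [this, ← Finset.mul_sum]
    rw [AddChar.sum_mulShift _ (ZMod.isPrimitive_stdAddChar q), ZMod.card]
    simp
  simp_rw [hx, sub_eq_zero, mul_ite, mul_zero, Finset.sum_ite_eq, Finset.mem_univ, if_true]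
  rw [mul_div_assoc, div_self (Nat.cast_ne_zero.2 (NeZero.ne q)), mul_one]
  have hr : ((A * (k : ℝ) ^ 2 + B * k) / q0 + b * (k : ℝ) / h) =
      (((h : ℤ) * A * k ^ 2 + ((h : ℤ) * B + (q0 : ℤ) * b) * k : ℤ) : ℝ) / (q : ℕ) := by
    have : (h : ℝ) ≠ 0 := by exact_mod_cast hh.ne'
    have : (q0 : ℝ) ≠ 0 := by exact_mod_cast hq0.ne'
    rw [hq]
    push_cast
    field_simp
    ring
  rw [hr, e_div, hα, hβ]
  push_cast
  rfl

end GaussSum

theorem gaussSpec : GaussSpec := by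
  intro h q0 Q A B b hh hq0 hQ hA hc
  exact ⟨fun u => GaussSum.norm_sq_gauss h q0 Q A B b u hh hq0 hQ hA hc,
    fun k => GaussSum.sum_gauss h q0 A B b hh hq0 k⟩

end Vale.Agent.P110.Exist
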