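import Vale.Agent.P110.Exist.Spec

/-!
Rounding and bounded flat coefficients give ultraflat Littlewood polynomials.
-/

open Real Finset

namespace Vale.Agent.P110.Exist.Main

/-- A point of the unit circle is `e t` for some real `t`. -/
lemma exists_e_eq {z : ℂ} (hz : ‖z‖ = 1) : ∃ t : ℝ, e t = z := by
  refine ⟨Complex.arg z / (2 * π), ?_⟩
  have hπ : (2 * π : ℝ) ≠ 0 := by positivity
  have h := Complex.norm_mul_exp_arg_mul_I z
  rw [hz, Complex.ofReal_one, one_mul] at h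
  simp only [e]
  rw [mul_div_cancel₀ _ hπ]
  exact h

/-- Powers of `e t`. -/
lemma e_pow (t : ℝ) (k : ℕ) : e t ^ k = e ((k : ℝ) * t) := by
  simp only [e]
  rw [← Complex.exp_nat_mul]
  congr 1
  push_cast
  ring

/-- The power series form of `trig`. -/
lemma trig_eq {N : ℕ} (s : Fin N → ℝ) (t : ℝ) :
    ∑ k, (s k : ℂ) * e t ^ (k : ℕ) = trig s t := by
  simp only [trig, e_pow]

/-- Rounding and bounded flat coefficients give the final statement. -/
theorem ultraflat_of_specs (hR : RoundingSpec) (hB : BoundedFlatSpec) : UltraflatSpec := by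
  intro c hc N0
  obtain ⟨η, hη, N1, hround⟩ := hR (c / 2) (by linarith)
  obtain ⟨N, hN, x, hx, hslack, hflat⟩ :=
    hB (min (c / 2) η) (lt_min (by linarith) hη) (max N0 N1)
  have hN0 : N0 ≤ N := le_trans (le_max_left _ _) hN
  have hN1 : N1 ≤ N := le_trans (le_max_right _ _) hN
  obtain ⟨s, hs, herr⟩ := hround N hN1 x hx
    (hslack.trans (mul_le_mul_of_nonneg_right (min_le_right _ _) (Nat.cast_nonneg N)))
  refine ⟨N, hN0, s, hs, fun z hz => ?_⟩
  obtain ⟨t, rfl⟩ := exists_e_eq hz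
  rw [trig_eq]
  have h1 := abs_le.1 ((hflat t).trans
    (mul_le_mul_of_nonneg_right (min_le_left _ _) (Real.sqrt_nonneg _)))
  have h2 := abs_le.1 ((abs_norm_sub_norm_le (trig s t) (trig x t)).trans (herr t))
  constructor <;> linarith [h1.1, h1.2, h2.1, h2.2]

/-- The final statement with every definition unfolded: alternative (i) of the question. -/
theorem explicit_of_specs (hR : RoundingSpec) (hB : BoundedFlatSpec) :
    ∀ c : ℝ, 0 < c → ∀ N0 : ℕ, ∃ N : ℕ, N0 ≤ N ∧ ∃ s : Fin N → ℝ,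
      (∀ k, s k = -1 ∨ s k = 1) ∧ ∀ z : ℂ, ‖z‖ = 1 →
        (1 - c) * Real.sqrt N ≤ ‖∑ k, (s k : ℂ) * z ^ (k : ℕ)‖ ∧
          ‖∑ k, (s k : ℂ) * z ^ (k : ℕ)‖ ≤ (1 + c) * Real.sqrt N :=
  ultraflat_of_specs hR hB

end Vale.Agent.P110.Exist.Main
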