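import Vale.Agent.P110.Exist.Spec

/-!
The Fourier coefficients of a chirp path: closed form, absolute summability, Fourier inversion
and the bound on the coefficients outside the frequency range of the path.
-/

open Real Finset MeasureTheory
open scoped ComplexConjugate

namespace Vale.Agent.P110.Exist.PathPf

lemma e_def (t : ℝ) : e t = Complex.exp ((2 * π * t : ℝ) * Complex.I) := rfl

lemma e_add (a b : ℝ) : e (a + b) = e a * e b := by
  simp only [e_def, ← Complex.exp_add]
  congr 1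
  push_cast
  ring

lemma norm_e (a : ℝ) : ‖e a‖ = 1 := by rw [e_def, Complex.norm_exp_ofReal_mul_I]

lemma e_zero : e 0 = 1 := by simp [e_def]

lemma conj_e (a : ℝ) : conj (e a) = e (-a) := by
  simp only [e_def, ← Complex.exp_conj, map_mul, Complex.conj_I, Complex.conj_ofReal]
  congr 1
  push_cast
  ring

lemma e_int (z : ℤ) : e z = 1 := by
  rw [e_def, Complex.exp_eq_one_iff]
  refine ⟨z, ?_⟩
  push_cast
  ring

lemma e_congr {a b : ℝ} (z : ℤ) (h : a = b + z) : e a = e b := by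
  rw [h, e_add, e_int, mul_one]

lemma e_eq_real {a : ℝ} {z : ℤ} (h : 2 * a = z) : conj (e a) = e a := by
  rw [conj_e]
  exact e_congr (-z) (by push_cast; linarith)

@[fun_prop]
lemma continuous_e : Continuous e := by unfold e; fun_prop

lemma fresnel_sub (a b : ℝ) : fresnel b - fresnel a = ∫ s in a..b, e (s ^ 2 / 2) := by
  unfold fresnel
  rw [intervalIntegral.integral_interval_sub_left] <;>
    exact (by fun_prop : Continuous fun s : ℝ => e (s ^ 2 / 2)).intervalIntegrable _ _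

lemma conj_fresnel_sub (a b : ℝ) :
    conj (fresnel b - fresnel a) = ∫ s in a..b, e (-(s ^ 2 / 2)) := by
  rw [fresnel_sub, ← intervalIntegral.intervalIntegral_conj]
  simp only [conj_e]

/-- Integer sum of a decreasing cube. -/
lemma cube_sum {a h : ℝ} (ha : 0 < a) (hh : 0 < h) (n : ℕ) :
    ∑ m ∈ range n, (a + (m : ℝ) * h)⁻¹ ^ 3 ≤ a⁻¹ ^ 3 + a⁻¹ ^ 2 / (2 * h) := by
  have step : ∀ m : ℕ, (a + ((m + 1 : ℕ) : ℝ) * h)⁻¹ ^ 3 ≤
      ((a + (m : ℝ) * h)⁻¹ ^ 2 - (a + ((m + 1 : ℕ) : ℝ) * h)⁻¹ ^ 2) / (2 * h) := by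
    intro m
    set u := a + (m : ℝ) * h with hu
    have u0 : 0 < u := by positivity
    have e1 : a + ((m + 1 : ℕ) : ℝ) * h = u + h := by push_cast [hu]; ring
    rw [e1, le_div_iff₀ (by positivity)]
    rw [inv_pow, inv_pow, inv_pow, inv_sub_inv (by positivity) (by positivity)]
    field_simp
    nlinarith [mul_pos u0 hh, mul_pos hh hh, mul_pos (mul_pos u0 hh) hh]
  have key : ∀ n : ℕ, ∑ m ∈ range (n + 1), (a + (m : ℝ) * h)⁻¹ ^ 3 ≤
      a⁻¹ ^ 3 + (a⁻¹ ^ 2 - (a + (n : ℝ) * h)⁻¹ ^ 2) / (2 * h) := by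
    intro n
    induction n with
    | zero => simp
    | succ n ih =>
      rw [sum_range_succ]
      refine (add_le_add ih (step n)).trans (le_of_eq ?_)
      ring
  cases n with
  | zero => simp; positivity
  | succ n =>
    refine (key n).trans ?_
    gcongr
    have : 0 ≤ (a + (n : ℝ) * h)⁻¹ ^ 2 := by positivity
    linarith

variable (P : Path) (N : ℕ)

lemma dt_pos {i : ℕ} (hi : i < P.J) : 0 < P.t (i + 1) - P.t i := sub_pos.2 (P.t_lt i hi)

lemma J_pos : 0 < P.J := by
  by_contra h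
  have h0 : P.J = 0 := by omega
  have := P.t_last
  rw [h0, P.t_zero] at this
  norm_num at this

lemma sigma_ne {i : ℕ} (hi : i < P.J) : P.sigma i ≠ 0 :=
  div_ne_zero (dt_pos P hi).ne' (sub_ne_zero.2 (P.kap_ne i hi).symm)

lemma sigma_mul {i : ℕ} (hi : i < P.J) :
    P.sigma i * (P.kap (i + 1) - P.kap i) = P.t (i + 1) - P.t i :=
  div_mul_cancel₀ _ (sub_ne_zero.2 (P.kap_ne i hi).symm)

lemma t_mono {i j : ℕ} (hij : i ≤ j) (hj : j ≤ P.J) : P.t i ≤ P.t j := by
  induction j, hij using Nat.le_induction with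
  | base => exact le_rfl
  | succ j _ ih => exact (ih (by omega)).trans (P.t_lt j (by omega)).le

/-- The phase gained on segment `i` after time `u`. -/
noncomputable def gain (i : ℕ) (u : ℝ) : ℝ := P.kap i * u + u ^ 2 / (2 * P.sigma i)

lemma gain_full {i : ℕ} (hi : i < P.J) :
    gain P i (P.t (i + 1) - P.t i) =
      (P.kap i + P.kap (i + 1)) / 2 * (P.t (i + 1) - P.t i) := by
  have h := sigma_mul P hi
  have hs := sigma_ne P hi
  rw [gain, ← h]
  field_simp
  ring

/-- The phase as a continuous function on the line. -/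
noncomputable def phase (x : ℝ) : ℝ :=
  ∑ i ∈ range P.J, gain P i (max 0 (min (x - P.t i) (P.t (i + 1) - P.t i)))

@[fun_prop]
lemma continuous_phase : Continuous (phase P) := by unfold phase gain; fun_prop

lemma phase_nonpos {x : ℝ} (hx : x ≤ 0) : phase P x = 0 := by
  refine Finset.sum_eq_zero fun i hi => ?_
  have h0 : P.t 0 ≤ P.t i := t_mono P (Nat.zero_le i) (mem_range.1 hi).le
  rw [P.t_zero] at h0
  rw [max_eq_left (le_trans (min_le_left _ _) (by linarith))]
  simp [gain]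

lemma phase_seg {i : ℕ} (hi : i < P.J) {x : ℝ} (h1 : P.t i ≤ x) (h2 : x ≤ P.t (i + 1)) :
    phase P x = P.phi i + gain P i (x - P.t i) := by
  have hb : ∀ l ∈ range P.J, gain P l (max 0 (min (x - P.t l) (P.t (l + 1) - P.t l))) =
      (if l < i then (P.kap l + P.kap (l + 1)) / 2 * (P.t (l + 1) - P.t l) else 0) +
        (if l = i then gain P i (x - P.t i) else 0) := by
    intro l hl
    rw [mem_range] at hl
    rcases lt_trichotomy l i with h | h | h
    · rw [if_pos h, if_neg h.ne, add_zero, ← gain_full P hl]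
      have := t_mono P (show l + 1 ≤ i by omega) hi.le
      rw [min_eq_right (by linarith), max_eq_right (dt_pos P hl).le]
    · subst h
      rw [if_neg (lt_irrefl _), if_pos rfl, zero_add, min_eq_left (by linarith),
        max_eq_right (by linarith)]
    · rw [if_neg (not_lt.2 h.le), if_neg h.ne', add_zero]
      have := t_mono P (show i + 1 ≤ l by omega) hl.le
      rw [max_eq_left (le_trans (min_le_left _ _) (by linarith))]
      simp [gain]
  rw [phase, sum_congr rfl hb, sum_add_distrib, sum_ite_eq' (range P.J) i,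
    if_pos (mem_range.2 hi), ← sum_filter]
  congr 1
  rw [Path.phi]
  refine sum_congr ?_ fun _ _ => rfl
  ext l
  simp only [mem_filter, mem_range]
  omega

lemma phase_half : phase P (1 / 2) = P.phi P.J := by
  obtain ⟨n, hn⟩ : ∃ n, P.J = n + 1 := ⟨P.J - 1, by have := J_pos P; omega⟩
  have hn' : n < P.J := by omega
  have ht : P.t (n + 1) = 1 / 2 := hn ▸ P.t_last
  rw [← ht, phase_seg P hn' (P.t_lt n hn').le le_rfl, gain_full P hn', hn]
  simp only [Path.phi]
  rw [sum_range_succ]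

/-- The extension of `e(N Φ)` to negative times. -/
noncomputable def wave (x : ℝ) : ℂ := e (N * (phase P x - phase P (-x)))

@[fun_prop]
lemma continuous_wave : Continuous (wave P N) := by unfold wave; fun_prop

lemma wave_neg (x : ℝ) : wave P N (-x) = conj (wave P N x) := by
  simp only [wave, conj_e, neg_neg]
  congr 1
  ring

lemma wave_of_nonneg {x : ℝ} (hx : 0 ≤ x) : wave P N x = e (N * phase P x) := by
  simp only [wave, phase_nonpos P (neg_nonpos.2 hx), sub_zero]

/-- Segment `i` in closed form. -/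
lemma seg_eq {i : ℕ} (hi : i < P.J) (hN : 0 < N) (k : ℤ) :
    P.seg N i k = (√(N : ℝ) : ℂ) *
      ∫ x in P.t i..P.t (i + 1), e (-(k * x)) * wave P N x := by
  have hN' : (0 : ℝ) < N := by exact_mod_cast hN
  have hs := sigma_ne P hi
  have hmul := sigma_mul P hi
  have hti : 0 ≤ P.t i := P.t_zero ▸ t_mono P (Nat.zero_le i) hi.le
  set c : ℝ := (k : ℝ) / N with hc
  have hkc : (k : ℝ) = N * c := by rw [hc]; field_simp
  set s := |P.sigma i| with hsdef
  have s0 : 0 < s := abs_pos.2 hs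
  set p0 := N * P.phi i - k * P.t i - P.sigma i * N * (P.kap i - c) ^ 2 / 2 with hp0
  set a := √((N : ℝ) / s) with ha
  have a0 : 0 < a := Real.sqrt_pos.2 (by positivity)
  have a2 : a ^ 2 = N / s := Real.sq_sqrt (by positivity)
  have as : a * s = √(s * N) := by
    rw [eq_comm, Real.sqrt_eq_iff_eq_sq (by positivity) (by positivity), mul_pow, a2]
    field_simp
  have sa : √(N : ℝ) * a⁻¹ = √s := by
    rw [ha, Real.sqrt_div hN'.le]
    field_simp
  have hS : ∀ g : ℝ → ℂ, (∫ x in P.t i..P.t (i + 1), g (a * ((x - P.t i) +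
      P.sigma i * (P.kap i - c)))) = (a⁻¹ : ℝ) •
        ∫ y in a * (P.sigma i * (P.kap i - c))..a * (P.sigma i * (P.kap (i + 1) - c)), g y := by
    intro g
    have := intervalIntegral.integral_comp_mul_add (a := P.t i) (b := P.t (i + 1)) g a0.ne'
      (a * (P.sigma i * (P.kap i - c) - P.t i))
    have r : ∀ x : ℝ, a * x + a * (P.sigma i * (P.kap i - c) - P.t i) =
        a * ((x - P.t i) + P.sigma i * (P.kap i - c)) := fun x => by ring
    simp only [r] at this
    rw [this, sub_self, zero_add]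
    congr 3
    rw [← hmul]
    ring
  have pos_int : ∀ x ∈ Set.uIcc (P.t i) (P.t (i + 1)),
      e (-(k * x)) * wave P N x = e p0 * e ((if 0 < P.sigma i then (1 : ℝ) else -1) *
        ((a * ((x - P.t i) + P.sigma i * (P.kap i - c))) ^ 2 / 2)) := by
    intro x hx
    rw [Set.uIcc_of_le (P.t_lt i hi).le] at hx
    rw [wave_of_nonneg P N (hti.trans hx.1), phase_seg P hi hx.1 hx.2, ← e_add, ← e_add]
    congr 1
    rw [mul_pow a, a2, hp0, hkc, gain]
    split
    · next h =>
      rw [hsdef, abs_of_pos h]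
      field_simp
      ring
    · next h =>
      rw [hsdef, abs_of_nonpos (not_lt.1 h)]
      field_simp
      ring
  rw [intervalIntegral.integral_congr pos_int, intervalIntegral.integral_const_mul]
  rw [hS fun y => e ((if 0 < P.sigma i then (1 : ℝ) else -1) * (y ^ 2 / 2))]
  have hend : ∀ y : ℝ, a * (P.sigma i * (y - c)) =
      if 0 < P.sigma i then √(s * N) * (y - c) else √(s * N) * (c - y) := by
    intro y
    rw [← as]
    split
    · next h => rw [hsdef, abs_of_pos h]; ring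
    · next h => rw [hsdef, abs_of_nonpos (not_lt.1 h)]; ring
  rw [hend, hend, Complex.real_smul, ← mul_assoc, ← mul_assoc]
  rw [show ((√(N : ℝ) : ℂ)) * e p0 * ((a⁻¹ : ℝ) : ℂ) = (√s : ℂ) * e p0 by
    rw [← sa]; push_cast; ring]
  simp only [Path.seg, ← hc, ← hsdef, ← hp0]
  split
  · simp only [one_mul, fresnel_sub]
  · simp only [neg_one_mul, conj_fresnel_sub]

lemma sum_seg (hN : 0 < N) (k : ℤ) :
    ∑ i ∈ range P.J, P.seg N i k = (√(N : ℝ) : ℂ) *
      ∫ x in (0 : ℝ)..1 / 2, e (-(k * x)) * wave P N x := by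
  rw [sum_congr rfl fun i hi => seg_eq P N (mem_range.1 hi) hN k, ← mul_sum,
    intervalIntegral.sum_integral_adjacent_intervals, P.t_zero, P.t_last]
  intro i _
  exact (by fun_prop : Continuous fun x : ℝ => e (-((k : ℝ) * x)) * wave P N x).intervalIntegrable _ _

lemma coef_eq_integral (hN : 0 < N) (k : ℤ) :
    (P.coef N k : ℂ) = (√(N : ℝ) : ℂ) *
      ∫ x in (-1 / 2 : ℝ)..1 / 2, e (-(k * x)) * wave P N x := by
  have hc : Continuous fun x : ℝ => e (-((k : ℝ) * x)) * wave P N x := by fun_prop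
  have hneg : (∫ x in (-1 / 2 : ℝ)..0, e (-(k * x)) * wave P N x) =
      conj (∫ x in (0 : ℝ)..1 / 2, e (-(k * x)) * wave P N x) := by
    rw [← intervalIntegral.intervalIntegral_conj, show (-1 / 2 : ℝ) = -(1 / 2) by ring,
      show (∫ x in (-(1 / 2) : ℝ)..0, e (-(k * x)) * wave P N x) =
        ∫ x in (-(1 / 2) : ℝ)..-0, e (-(k * x)) * wave P N x by rw [neg_zero],
      ← intervalIntegral.integral_comp_neg]
    simp only [wave_neg, map_mul, conj_e, mul_neg, neg_neg]
  rw [← intervalIntegral.integral_add_adjacent_intervals (b := 0) (hc.intervalIntegrable _ _)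
    (hc.intervalIntegrable _ _), hneg, add_comm, mul_add]
  have h2 : (√(N : ℝ) : ℂ) * conj (∫ x in (0 : ℝ)..1 / 2, e (-(k * x)) * wave P N x) =
      conj (∑ i ∈ range P.J, P.seg N i k) := by
    rw [sum_seg P N hN k, map_mul, Complex.conj_ofReal]
  rw [h2, ← sum_seg P N hN k, Complex.add_conj, Path.coef]

/-- The path as a function on the circle. -/
noncomputable def circ : AddCircle (1 : ℝ) → ℂ := AddCircle.liftIco (1 : ℝ) (-1 / 2) (wave P N)

variable {P N}

lemma continuous_circ (hz : ∃ z : ℤ, 2 * (N : ℝ) * P.phi P.J = z) : Continuous (circ P N) := by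
  refine AddCircle.liftIco_continuous ?_ (continuous_wave P N).continuousOn
  obtain ⟨z, hz⟩ := hz
  rw [show (-1 / 2 : ℝ) + 1 = 1 / 2 by norm_num, show (-1 / 2 : ℝ) = -(1 / 2) by ring, wave_neg,
    wave_of_nonneg P N (by norm_num), phase_half]
  exact e_eq_real (z := z) (by linarith)

lemma norm_circ (x : AddCircle (1 : ℝ)) : ‖circ P N x‖ = 1 := by
  simp [circ, AddCircle.liftIco, Function.comp, wave, norm_e]

lemma fourier_circle {T : ℝ} (hT : T = 1) (n : ℤ) (x : ℝ) :
    (fourier n (x : AddCircle T) : ℂ) = e (n * x) := by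
  subst hT
  rw [fourier_coe_apply, e_def]
  congr 1
  push_cast
  ring

lemma coef_eq_fourier (hN : 0 < N) (k : ℤ) :
    fourierCoeff (circ P N) k = (P.coef N k : ℂ) / (√(N : ℝ) : ℂ) := by
  have hN' : (√(N : ℝ) : ℂ) ≠ 0 := by
    rw [Complex.ofReal_ne_zero]
    exact (Real.sqrt_pos.2 (by exact_mod_cast hN)).ne'
  rw [circ, fourierCoeff_liftIco_eq, fourierCoeffOn_eq_integral, coef_eq_integral P N hN k,
    mul_div_cancel_left₀ _ hN']
  simp only [show (-1 / 2 : ℝ) + 1 = 1 / 2 by norm_num,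
    show (1 / 2 : ℝ) - -1 / 2 = 1 by norm_num, div_one, one_smul, smul_eq_mul]
  refine intervalIntegral.integral_congr fun x _ => ?_
  show _ = e (-(k * x)) * wave P N x
  rw [fourier_circle (by norm_num)]
  push_cast
  ring_nf

variable (P N)

/-- The knot term of the coefficient asymptotics. -/
noncomputable def knot (k : ℤ) (j : ℕ) : ℂ :=
  e (N * P.phi j - k * P.t j) / (((2 * π * (P.kap j - (k : ℝ) / N) : ℝ)) * Complex.I)

variable {P N}

lemma seg_asymp {C : ℝ} (hC0 : 0 ≤ C)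
    (hR : ∀ y, y ≠ 0 → ‖fresnelRem y - e (y ^ 2 / 2) / ((2 * π * y : ℝ) * Complex.I)‖ ≤ C / |y| ^ 3)
    (hN : 0 < N) {σ0 : ℝ} (hσ : 0 < σ0) (k : ℤ) {D : ℝ} (hD : 0 < D)
    (hside : (∀ i ≤ P.J, D ≤ P.kap i - (k : ℝ) / N) ∨ ∀ i ≤ P.J, D ≤ (k : ℝ) / N - P.kap i)
    {i : ℕ} (hi : i < P.J) (hsig : σ0 ≤ |P.sigma i|) :
    ‖P.seg N i k - ((√(N : ℝ))⁻¹ : ℝ) * (knot P N k (i + 1) - knot P N k i)‖ ≤
      2 * C / (σ0 * N * √(N : ℝ)) * D⁻¹ ^ 3 := by
  have hN' : (0 : ℝ) < N := by exact_mod_cast hN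
  have hs := sigma_ne P hi
  have hmul := sigma_mul P hi
  set c : ℝ := (k : ℝ) / N with hc
  have hkc : (k : ℝ) = N * c := by rw [hc]; field_simp
  set s := |P.sigma i| with hsdef
  have s0 : 0 < s := abs_pos.2 hs
  set q := √(s * N) with hq
  have q0 : 0 < q := Real.sqrt_pos.2 (by positivity)
  have q2 : q ^ 2 = s * N := Real.sq_sqrt (by positivity)
  have qs : √s / q = (√(N : ℝ))⁻¹ := by
    rw [hq, Real.sqrt_mul s0.le]
    field_simp
  set R1 : ℝ → ℂ := fun y => fresnelRem y - e (y ^ 2 / 2) / ((2 * π * y : ℝ) * Complex.I) with hR1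
  -- the two endpoints, oriented
  set τ : ℝ := if 0 < P.sigma i then 1 else -1 with hτ
  set y0 := q * (τ * (P.kap i - c)) with hy0
  set y1 := q * (τ * (P.kap (i + 1) - c)) with hy1
  have hτs : P.sigma i = τ * s := by
    rw [hτ, hsdef]
    split
    · next h => rw [abs_of_pos h, one_mul]
    · next h => rw [abs_of_nonpos (not_lt.1 h)]; ring
  have hτ2 : τ ^ 2 = 1 := by rw [hτ]; split <;> norm_num
  have hτ1 : |τ| = 1 := by rw [hτ]; split <;> norm_num
  have hy : q * D ≤ |y0| ∧ q * D ≤ |y1| ∧ Real.sign y0 = Real.sign y1 := by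
    simp only [hy0, hy1, abs_mul, abs_of_pos q0, hτ1, one_mul]
    rcases hside with h | h
    · have b0 := h i hi.le
      have b1 := h (i + 1) hi
      refine ⟨mul_le_mul_of_nonneg_left (b0.trans (le_abs_self _)) q0.le,
        mul_le_mul_of_nonneg_left (b1.trans (le_abs_self _)) q0.le, ?_⟩
      rw [hτ]
      split
      · rw [Real.sign_of_pos, Real.sign_of_pos] <;> nlinarith
      · rw [Real.sign_of_neg, Real.sign_of_neg] <;> nlinarith
    · have b0 := h i hi.le
      have b1 := h (i + 1) hi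
      refine ⟨mul_le_mul_of_nonneg_left (b0.trans ((le_of_eq (neg_sub _ _).symm).trans
          (neg_le_abs _))) q0.le,
        mul_le_mul_of_nonneg_left (b1.trans ((le_of_eq (neg_sub _ _).symm).trans
          (neg_le_abs _))) q0.le, ?_⟩
      rw [hτ]
      split
      · rw [Real.sign_of_neg, Real.sign_of_neg] <;> nlinarith
      · rw [Real.sign_of_pos, Real.sign_of_pos] <;> nlinarith
  obtain ⟨hy0D, hy1D, hsgn⟩ := hy
  have hy0ne : y0 ≠ 0 := abs_pos.1 (lt_of_lt_of_le (mul_pos q0 hD) hy0D)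
  have hy1ne : y1 ≠ 0 := abs_pos.1 (lt_of_lt_of_le (mul_pos q0 hD) hy1D)
  -- the segment through the orientation
  set cj : ℂ → ℂ := fun z => if 0 < P.sigma i then z else conj z with hcj
  set p0 := N * P.phi i - k * P.t i - P.sigma i * N * (P.kap i - c) ^ 2 / 2 with hp0
  have hseg : P.seg N i k = (√s : ℂ) * e p0 * cj (fresnelRem y1 - fresnelRem y0) := by
    have : fresnelRem y1 - fresnelRem y0 = fresnel y1 - fresnel y0 := by
      simp only [fresnelRem, hsgn]; ring
    rw [this]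
    simp only [Path.seg, ← hc, ← hsdef, ← hp0, hcj, ← hq, hy0, hy1, hτ]
    split
    · simp
    · simp
  have hmain : ∀ j : ℕ, j = i ∨ j = i + 1 →
      (√s : ℂ) * e p0 * cj (e ((q * (τ * (P.kap j - c))) ^ 2 / 2) /
        ((2 * π * (q * (τ * (P.kap j - c))) : ℝ) * Complex.I)) =
      ((√(N : ℝ))⁻¹ : ℝ) * knot P N k j := by
    intro j hj
    have hph : p0 + τ * ((q * (τ * (P.kap j - c))) ^ 2 / 2) = N * P.phi j - k * P.t j := by
      rw [mul_pow, mul_pow τ, hτ2, q2, hp0, hτs, hkc]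
      rcases hj with rfl | rfl
      · ring
      · rw [show P.phi (i + 1) = P.phi i + (P.kap i + P.kap (i + 1)) / 2 * (P.t (i + 1) - P.t i)
          from by simp only [Path.phi, sum_range_succ],
          show P.t (i + 1) = P.t i + P.sigma i * (P.kap (i + 1) - P.kap i) by linarith [hmul],
          hτs]
        ring
    simp only [knot, ← hc, ← hph, e_add, ← qs, hcj, hτ]
    split
    · push_cast
      simp only [one_mul]
      field_simp
    · simp only [map_div₀, map_mul, conj_e, Complex.conj_ofReal, Complex.conj_I, neg_one_mul]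
      push_cast
      field_simp
  have hsub : ∀ z w : ℂ, cj (z - w) = cj z - cj w := by
    intro z w; simp only [hcj]; split <;> simp
  have hdiff : P.seg N i k - ((√(N : ℝ))⁻¹ : ℝ) * (knot P N k (i + 1) - knot P N k i) =
      (√s : ℂ) * e p0 * cj (R1 y1 - R1 y0) := by
    rw [mul_sub, ← hmain (i + 1) (Or.inr rfl), ← hmain i (Or.inl rfl), hseg]
    simp only [hR1, hsub, ← hy0, ← hy1]
    ring
  rw [hdiff, norm_mul, norm_mul, norm_e, mul_one, Complex.norm_real, Real.norm_eq_abs,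
    abs_of_nonneg (Real.sqrt_nonneg s)]
  have hn : ‖cj (R1 y1 - R1 y0)‖ ≤ 2 * (C / (q * D) ^ 3) := by
    have : ‖cj (R1 y1 - R1 y0)‖ = ‖R1 y1 - R1 y0‖ := by
      simp only [hcj]; split
      · rfl
      · rw [RCLike.norm_conj]
    rw [this]
    have qD : 0 < q * D := mul_pos q0 hD
    refine (norm_sub_le _ _).trans ?_
    have e1 : C / |y1| ^ 3 ≤ C / (q * D) ^ 3 :=
      div_le_div_of_nonneg_left hC0 (by positivity) (pow_le_pow_left₀ qD.le hy1D 3)
    have e0 : C / |y0| ^ 3 ≤ C / (q * D) ^ 3 :=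
      div_le_div_of_nonneg_left hC0 (by positivity) (pow_le_pow_left₀ qD.le hy0D 3)
    have := hR y1 hy1ne
    have := hR y0 hy0ne
    linarith
  refine (mul_le_mul_of_nonneg_left hn (Real.sqrt_nonneg s)).trans ?_
  have heq : √s * (2 * (C / (q * D) ^ 3)) = 2 * C / (s * N * √(N : ℝ)) * D⁻¹ ^ 3 := by
    rw [show (q * D) ^ 3 = q ^ 2 * q * D ^ 3 by ring, q2, hq, Real.sqrt_mul s0.le, inv_pow]
    field_simp
  rw [heq]
  gcongr

lemma re_knot_zero (k : ℤ) : (knot P N k 0).re = 0 := by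
  simp [knot, Path.phi, P.t_zero, e_zero, Complex.div_re]

lemma re_knot_last (hz : ∃ z : ℤ, 2 * (N : ℝ) * P.phi P.J = z) (k : ℤ) :
    (knot P N k P.J).re = 0 := by
  obtain ⟨z, hz⟩ := hz
  have : conj (e (N * P.phi P.J - k * P.t P.J)) = e (N * P.phi P.J - k * P.t P.J) :=
    e_eq_real (z := z - k) (by rw [P.t_last]; push_cast; linarith)
  have him := Complex.conj_eq_iff_im.1 this
  simp [knot, Complex.div_re, him]

lemma coef_bound {C : ℝ} (hC0 : 0 ≤ C)
    (hR : ∀ y, y ≠ 0 → ‖fresnelRem y - e (y ^ 2 / 2) / ((2 * π * y : ℝ) * Complex.I)‖ ≤ C / |y| ^ 3)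
    (hN : 0 < N) {σ0 : ℝ} (hσ : 0 < σ0) (hsig : ∀ i < P.J, σ0 ≤ |P.sigma i|)
    (hz : ∃ z : ℤ, 2 * (N : ℝ) * P.phi P.J = z) (k : ℤ) {D : ℝ} (hD : 0 < D)
    (hside : (∀ i ≤ P.J, D ≤ P.kap i - (k : ℝ) / N) ∨ ∀ i ≤ P.J, D ≤ (k : ℝ) / N - P.kap i) :
    |P.coef N k| ≤ 4 * C * P.J / (σ0 * N * √(N : ℝ)) * D⁻¹ ^ 3 := by
  have htel : (∑ i ∈ range P.J, ((√(N : ℝ))⁻¹ : ℝ) * (knot P N k (i + 1) - knot P N k i) : ℂ).re
      = 0 := by
    rw [← mul_sum, sum_range_sub, Complex.re_ofReal_mul, Complex.sub_re, re_knot_zero,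
      re_knot_last hz, sub_zero, mul_zero]
  have hco : P.coef N k = 2 * (∑ i ∈ range P.J,
      (P.seg N i k - ((√(N : ℝ))⁻¹ : ℝ) * (knot P N k (i + 1) - knot P N k i))).re := by
    rw [sum_sub_distrib, Complex.sub_re, htel, sub_zero, Path.coef]
  rw [hco, abs_mul, abs_two]
  refine (mul_le_mul_of_nonneg_left ((Complex.abs_re_le_norm _).trans (norm_sum_le _ _))
    (by norm_num)).trans ?_
  refine (mul_le_mul_of_nonneg_left (sum_le_sum fun i hi =>
    seg_asymp hC0 hR hN hσ k hD hside (mem_range.1 hi) (hsig i (mem_range.1 hi)))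
    (by norm_num)).trans (le_of_eq ?_)
  rw [sum_const, card_range, nsmul_eq_mul]
  ring

/-- The coefficients of a chirp path (`PathSpec`). -/
theorem pathSpec_of_fresnelSpec (hF : FresnelSpec) : PathSpec := by
  obtain ⟨C, hC, -, -, hR, -, -⟩ := hF
  refine ⟨16 * C, by positivity, ?_⟩
  intro P N K δ σ0 hN hδ hσ hK hz hkap hsig
  have hN' : (0 : ℝ) < N := by exact_mod_cast hN
  set n0 := ⌈K * N⌉₊ with hn0
  set A := 4 * C * P.J / (σ0 * N * √(N : ℝ)) with hA
  have A0 : 0 ≤ A := by positivity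
  set f : ℤ → ℝ := fun k => if 0 ≤ k ∧ k < n0 then 0 else |P.coef N k| with hf
  have f0 : ∀ k, 0 ≤ f k := by intro k; simp only [hf]; split <;> positivity
  set T := δ⁻¹ ^ 3 + δ⁻¹ ^ 2 / (2 * (1 / (N : ℝ))) with hT
  -- outside the range on either side
  have hb : ∀ m : ℕ, f (m + n0) ≤ A * (δ + m * (1 / (N : ℝ)))⁻¹ ^ 3 ∧
      f (-((m : ℤ) + 1)) ≤ A * (δ + m * (1 / (N : ℝ)))⁻¹ ^ 3 := by
    intro m
    constructor
    · simp only [hf]
      rw [if_neg (by omega)]
      refine coef_bound hC.le hR hN hσ hsig hz _ (by positivity) (Or.inr fun i hi => ?_)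
      have h1 : K * N ≤ (n0 : ℝ) := Nat.le_ceil _
      have h2 := (hkap i hi).2
      have h3 : K + m * (1 / (N : ℝ)) ≤ (((m : ℤ) + n0 : ℤ) : ℝ) / N := by
        rw [le_div_iff₀ hN', add_mul, mul_assoc, one_div_mul_cancel hN'.ne']
        push_cast
        linarith
      linarith
    · simp only [hf]
      rw [if_neg (by omega)]
      refine coef_bound hC.le hR hN hσ hsig hz _ (by positivity) (Or.inl fun i hi => ?_)
      have h2 := (hkap i hi).1
      have h3 : ((-((m : ℤ) + 1) : ℤ) : ℝ) / N ≤ -(m * (1 / (N : ℝ))) := by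
        rw [div_le_iff₀ hN', neg_mul, mul_assoc, one_div_mul_cancel hN'.ne']
        push_cast
        linarith
      linarith
  have hps : ∀ g : ℕ → ℤ, (∀ m, f (g m) ≤ A * (δ + m * (1 / (N : ℝ)))⁻¹ ^ 3) →
      Summable (fun m => f (g m)) ∧ ∑' m, f (g m) ≤ A * T := by
    intro g hg
    have hpart : ∀ n, ∑ m ∈ range n, f (g m) ≤ A * T := by
      intro n
      refine (sum_le_sum fun m _ => hg m).trans ?_
      rw [← mul_sum]
      exact mul_le_mul_of_nonneg_left (cube_sum hδ (by positivity) n) A0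
    exact ⟨summable_of_sum_range_le (fun m => f0 _) hpart,
      Real.tsum_le_of_sum_range_le (fun m => f0 _) hpart⟩
  obtain ⟨sp, bp⟩ := hps (fun m => m + n0) fun m => (hb m).1
  obtain ⟨sn, bn⟩ := hps (fun m => -((m : ℤ) + 1)) fun m => (hb m).2
  have snat : Summable fun m : ℕ => f m := by
    rw [← summable_nat_add_iff n0]
    simpa only [Nat.cast_add] using sp
  have hfs : Summable f := Summable.of_nat_of_neg_add_one snat sn
  have hsum : Summable fun k : ℤ => |P.coef N k| := by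
    refine hfs.congr_cofinite ?_
    rw [Filter.eventuallyEq_iff_exists_mem]
    refine ⟨(Set.Ico (0 : ℤ) n0)ᶜ, (Set.finite_Ico _ _).compl_mem_cofinite, fun k hk => ?_⟩
    simp only [Set.mem_compl_iff, Set.mem_Ico] at hk
    simp only [hf, if_neg hk]
  refine ⟨hsum, ?_, ?_⟩
  · intro t
    let F : C(AddCircle (1 : ℝ), ℂ) := ⟨circ P N, continuous_circ hz⟩
    have hsN : (√(N : ℝ) : ℂ) ≠ 0 := by
      rw [Complex.ofReal_ne_zero]; exact (Real.sqrt_pos.2 hN').ne'
    have hFs : Summable (fourierCoeff F) := by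
      refine Summable.congr (f := fun k => (P.coef N k : ℂ) / (√(N : ℝ) : ℂ)) ?_
        fun k => (coef_eq_fourier hN k).symm
      exact (Complex.summable_ofReal.2 hsum.of_abs).div_const _
    have h1 := (has_pointwise_sum_fourier_series_of_summable hFs (t : AddCircle (1 : ℝ))).mul_left
      (√(N : ℝ) : ℂ)
    have h2 : HasSum (fun k : ℤ => (P.coef N k : ℂ) * e (k * t))
        ((√(N : ℝ) : ℂ) * circ P N t) := by
      refine h1.congr_fun fun k => ?_
      rw [show fourierCoeff F k = (P.coef N k : ℂ) / (√(N : ℝ) : ℂ) from coef_eq_fourier hN k,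
        smul_eq_mul, fourier_circle rfl]
      field_simp
    rw [h2.tsum_eq, norm_mul, norm_circ, mul_one, Complex.norm_real, Real.norm_eq_abs,
      abs_of_nonneg (Real.sqrt_nonneg _)]
  · show ∑' k, f k ≤ _
    rw [tsum_of_nat_of_neg_add_one snat sn, ← snat.sum_add_tsum_nat_add n0]
    have hz0 : ∑ m ∈ range n0, f (m : ℤ) = 0 := by
      refine sum_eq_zero fun m hm => ?_
      simp only [hf]
      rw [if_pos ⟨by omega, by exact_mod_cast mem_range.1 hm⟩]
    have hz1 : ∑' m : ℕ, f ((m + n0 : ℕ) : ℤ) ≤ A * T := by simpa only [Nat.cast_add] using bp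
    rw [hz0, zero_add]
    refine (add_le_add hz1 bn).trans ?_
    have hT' : T ≤ N * (2 * (1 + 1 / δ ^ 3)) := by
      have h1 : (1 : ℝ) ≤ N := by exact_mod_cast hN
      have h2 : δ⁻¹ ^ 2 ≤ 1 + δ⁻¹ ^ 3 := by
        rcases le_total δ⁻¹ 1 with h | h
        · have := pow_le_one₀ (by positivity) h (n := 2)
          have : 0 ≤ δ⁻¹ ^ 3 := by positivity
          linarith
        · have := pow_le_pow_right₀ h (show 2 ≤ 3 by norm_num)
          linarith
      have h3 : 0 ≤ δ⁻¹ ^ 3 := by positivity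
      rw [hT, one_div, one_div, ← inv_pow]
      have h4 : δ⁻¹ ^ 2 / (2 * (N : ℝ)⁻¹) = N / 2 * δ⁻¹ ^ 2 := by field_simp
      rw [h4]
      nlinarith [mul_le_mul_of_nonneg_left h2 hN'.le, mul_le_mul_of_nonneg_right h1 h3]
    calc A * T + A * T ≤ 2 * (A * (N * (2 * (1 + 1 / δ ^ 3)))) := by
          linarith [mul_le_mul_of_nonneg_left hT' A0]
      _ = 16 * C * P.J / (σ0 * √(N : ℝ)) * (1 + 1 / δ ^ 3) := by
          rw [hA]; field_simp; ring
      _ ≤ _ := by gcongr; linarith

end Vale.Agent.P110.Exist.PathPf
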