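import Vale.Agent.P110.Exist.Spec

/-!
# P110: rounding bounded real coefficients to signs

The numbers `y = (1 + x) / 2` are taken to a dyadic grid and then, one binary digit at a time, to
`{0, 1}`. A step from the grid `2^-(i+1)` to `2^-i` moves the odd entries by a colouring whose rows
are the sample functionals and the row `1 - 2 y` of the potential `∑ y (1 - y)`; the potential
stays small, so few entries are odd and the errors decay geometrically.
-/

open Real Finset

namespace Vale.Agent.P110.Exist.Rounding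

variable {N : ℕ}

/-- `√√`, which is monotone and multiplicative. -/
noncomputable def q4 (a : ℝ) : ℝ := √(√a)

lemma q4_nonneg (a : ℝ) : 0 ≤ q4 a := Real.sqrt_nonneg _

lemma q4_mono {a b : ℝ} (h : a ≤ b) : q4 a ≤ q4 b :=
  Real.sqrt_le_sqrt (Real.sqrt_le_sqrt h)

lemma q4_mul {a b : ℝ} (ha : 0 ≤ a) : q4 (a * b) = q4 a * q4 b := by
  rw [q4, Real.sqrt_mul ha, Real.sqrt_mul (Real.sqrt_nonneg _)]
  rfl

lemma q4_pow_four {a : ℝ} (ha : 0 ≤ a) : q4 (a ^ 4) = a := by
  rw [q4, show a ^ 4 = (a ^ 2) ^ 2 by ring, Real.sqrt_sq (sq_nonneg a), Real.sqrt_sq ha]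

/-- `m (1 + log (n / m))` is at most `4 √(m n)`. -/
lemma sqrt_colour_le {m n : ℕ} (hm : 1 ≤ m) (hmn : m ≤ n) :
    √(m * (1 + Real.log ((n : ℝ) / m))) ≤ 2 * q4 (m * n) := by
  have hm0 : (0 : ℝ) < m := by exact_mod_cast hm
  have hn0 : (0 : ℝ) < n := by exact_mod_cast hm.trans hmn
  have hmn' : (m : ℝ) ≤ n := by exact_mod_cast hmn
  set r := √((n : ℝ) / m) with hr
  have hr0 : 0 < r := Real.sqrt_pos.2 (div_pos hn0 hm0)
  have hlog : Real.log ((n : ℝ) / m) ≤ 2 * (r - 1) := by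
    have h1 := Real.log_le_sub_one_of_pos hr0
    rw [hr, Real.log_sqrt (div_pos hn0 hm0).le] at h1
    linarith
  have hmr : (m : ℝ) * r = √((m : ℝ) * n) := by
    rw [hr, show (m : ℝ) * n = (m : ℝ) ^ 2 * ((n : ℝ) / m) by field_simp,
      Real.sqrt_mul (sq_nonneg _), Real.sqrt_sq hm0.le]
  have h4 : (2 : ℝ) * q4 (m * n) = √(4 * √((m : ℝ) * n)) := by
    rw [Real.sqrt_mul (by norm_num), show (4 : ℝ) = 2 ^ 2 by norm_num, Real.sqrt_sq zero_le_two]
    rfl
  rw [h4]
  refine Real.sqrt_le_sqrt ?_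
  rw [← hmr]
  nlinarith [mul_le_mul_of_nonneg_left hlog hm0.le, mul_nonneg hm0.le hr0.le]

/-- A colouring of a set of indices, with rows of any finite type. -/
lemma colour {C : ℝ}
    (hC : ∀ (m n : ℕ), 1 ≤ m → m ≤ n → ∀ a : Fin n → Fin m → ℝ, (∀ j k, |a j k| ≤ 1) →
      ∃ s : Fin m → ℝ, (∀ k, s k = -1 ∨ s k = 1) ∧
        ∀ j, |∑ k, a j k * s k| ≤ C * √(m * (1 + Real.log ((n : ℝ) / m))))
    (hC0 : 0 ≤ C) {ι : Type} [Fintype ι] (T : Finset (Fin N)) (hT : T.card ≤ Fintype.card ι)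
    (a : ι → Fin N → ℝ) (ha : ∀ j k, |a j k| ≤ 1) :
    ∃ s : Fin N → ℝ, (∀ k ∈ T, s k = -1 ∨ s k = 1) ∧ (∀ k ∉ T, s k = 0) ∧
      ∀ j, |∑ k, a j k * s k| ≤ 2 * C * q4 (T.card * Fintype.card ι) := by
  rcases Nat.eq_zero_or_pos T.card with h0 | hpos
  · refine ⟨0, fun k hk => ?_, fun k _ => rfl, fun j => ?_⟩
    · rw [Finset.card_eq_zero.1 h0] at hk
      exact absurd hk (Finset.notMem_empty k)
    · simpa using mul_nonneg (mul_nonneg zero_le_two hC0) (q4_nonneg _)
  set eT := T.equivFin with heT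
  set eI := Fintype.equivFin ι with heI
  obtain ⟨s, hs, hrow⟩ := hC T.card (Fintype.card ι) hpos hT
    (fun j k => a (eI.symm j) (eT.symm k)) (fun j k => ha _ _)
  refine ⟨fun k => if h : k ∈ T then s (eT ⟨k, h⟩) else 0, fun k hk => ?_, fun k hk => ?_,
    fun j => ?_⟩
  · simp only [dif_pos hk]
    exact hs _
  · simp only [dif_neg hk]
  · have h1 := hrow (eI j)
    simp only [Equiv.symm_apply_apply] at h1
    have h2 : ∑ k, a j k * (if h : k ∈ T then s (eT ⟨k, h⟩) else 0) =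
        ∑ l, a j (eT.symm l) * s l := by
      rw [← Finset.sum_subset (Finset.subset_univ T) (fun k _ hk => by simp [hk]),
        ← Finset.sum_coe_sort T, ← Equiv.sum_comp eT.symm]
      simp
    rw [h2]
    refine h1.trans ?_
    have := sqrt_colour_le hpos hT
    nlinarith

/-- The entries lie on the grid of step `2^-i` in `[0, 1]`. -/
def Grid (i : ℕ) (y : Fin N → ℝ) : Prop := ∀ k, ∃ a : ℕ, a ≤ 2 ^ i ∧ y k = a / 2 ^ i

/-- The potential. -/
def pot (y : Fin N → ℝ) : ℝ := ∑ k, y k * (1 - y k)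

/-- The geometric weights of the digits. -/
noncomputable def geo : ℕ → ℝ
  | 0 => 0
  | i + 1 => geo i + (3 / 4) ^ (i + 1)

lemma geo_nonneg : ∀ i, 0 ≤ geo i
  | 0 => le_rfl
  | i + 1 => add_nonneg (geo_nonneg i) (by positivity)

lemma geo_le (i : ℕ) : geo i ≤ 3 := by
  have h : ∀ i, geo i + 3 * (3 / 4 : ℝ) ^ i = 3 := by
    intro i
    induction i with
    | zero => simp [geo]
    | succ i ih => rw [geo, pow_succ]; linarith
  linarith [h i, pow_nonneg (show (0 : ℝ) ≤ 3 / 4 by norm_num) i]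

/-- All digits. -/
lemma round_grid {C : ℝ}
    (hC : ∀ (m n : ℕ), 1 ≤ m → m ≤ n → ∀ a : Fin n → Fin m → ℝ, (∀ j k, |a j k| ≤ 1) →
      ∃ s : Fin m → ℝ, (∀ k, s k = -1 ∨ s k = 1) ∧
        ∀ j, |∑ k, a j k * s k| ≤ C * √(m * (1 + Real.log ((n : ℝ) / m))))
    (hC0 : 0 ≤ C) {ι : Type} [Fintype ι] (hι : N ≤ Fintype.card ι) (R : ι → Fin N → ℝ)
    (hR : ∀ j k, |R j k| ≤ 1) {M E : ℝ}
    (hE : 2 * C * q4 (2 * M * ((Fintype.card ι : ℝ) + 1)) ≤ E) :
    ∀ (i : ℕ) (y : Fin N → ℝ), Grid i y → pot y + E * geo i ≤ M →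
      ∃ z : Fin N → ℝ, (∀ k, z k = 0 ∨ z k = 1) ∧
        ∀ j, |∑ k, R j k * (z k - y k)| ≤ E * geo i := by
  have hE0 : 0 ≤ E := (mul_nonneg (mul_nonneg zero_le_two hC0) (q4_nonneg _)).trans hE
  intro i
  induction i with
  | zero =>
    intro y hy _
    refine ⟨y, fun k => ?_, fun j => by simp [geo]⟩
    obtain ⟨a, ha, hk⟩ := hy k
    rw [pow_zero] at ha
    rcases Nat.le_one_iff_eq_zero_or_eq_one.1 ha with rfl | rfl <;> simp [hk]
  | succ i ih =>
    intro y hy hpot
    choose a ha hya using hy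
    set T := (univ : Finset (Fin N)).filter fun k => Odd (a k) with hT
    set d : ℝ := 1 / 2 ^ (i + 1) with hd
    have hd0 : 0 < d := by positivity
    have hy01 : ∀ k, 0 ≤ y k ∧ y k ≤ 1 := fun k => by
      rw [hya k]
      exact ⟨by positivity, (div_le_one (by positivity)).2 (by exact_mod_cast ha k)⟩
    have hterm : ∀ k, 0 ≤ y k * (1 - y k) := fun k =>
      mul_nonneg (hy01 k).1 (by linarith [(hy01 k).2])
    -- few odd entries
    have hodd : ∀ k ∈ T, d / 2 ≤ y k * (1 - y k) := fun k hk => by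
      obtain ⟨b, hb⟩ := (Finset.mem_filter.1 hk).2
      have h1 : (1 : ℝ) ≤ a k := by exact_mod_cast (show 1 ≤ a k by omega)
      have he : 2 ^ (i + 1) = 2 * 2 ^ i := by rw [pow_succ]; ring
      have h2 : (a k : ℝ) + 1 ≤ 2 ^ (i + 1) := by
        have := ha k
        exact_mod_cast (show a k + 1 ≤ 2 ^ (i + 1) by omega)
      have hl : d ≤ y k := by rw [hya k, hd]; gcongr
      have hu : y k ≤ 1 - d := by
        rw [hya k, hd, le_sub_iff_add_le, ← add_div, div_le_one (by positivity)]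
        exact h2
      rcases le_total (y k) (1 / 2) with h | h
      · nlinarith
      · nlinarith
    have hcard : (T.card : ℝ) ≤ 2 * M * 2 ^ (i + 1) := by
      have h1 : (T.card : ℝ) * (d / 2) ≤ pot y := by
        calc (T.card : ℝ) * (d / 2) = ∑ k ∈ T, d / 2 := by rw [Finset.sum_const, nsmul_eq_mul]
          _ ≤ ∑ k ∈ T, y k * (1 - y k) := Finset.sum_le_sum hodd
          _ ≤ pot y := Finset.sum_le_univ_sum_of_nonneg hterm
      have h2 : pot y ≤ M := by
        linarith [mul_nonneg hE0 (geo_nonneg (i + 1))]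
      have h3 : (T.card : ℝ) = (T.card : ℝ) * (d / 2) * (2 * 2 ^ (i + 1)) := by
        rw [hd]; field_simp
      rw [h3, mul_comm 2 M, mul_assoc M]
      exact mul_le_mul_of_nonneg_right (h1.trans h2) (by positivity)
    -- the colouring
    obtain ⟨s, hs1, hs0, hrow⟩ := colour hC hC0 (ι := Option ι) T
      (T.card_le_univ.trans (by simp; omega)) (fun j k => j.elim (1 - 2 * y k) fun j => R j k)
      (fun j k => by
        cases j with
        | none =>
          obtain ⟨h0, h1⟩ := hy01 k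
          rw [Option.elim_none, abs_le]
          constructor <;> linarith
        | some j => exact hR j k)
    have hbound : d * (2 * C * q4 (T.card * Fintype.card (Option ι))) ≤ E * (3 / 4) ^ (i + 1) := by
      have hc : (Fintype.card (Option ι) : ℝ) = (Fintype.card ι : ℝ) + 1 := by simp
      have h1 : q4 ((T.card : ℝ) * Fintype.card (Option ι)) ≤
          (3 / 2) ^ (i + 1) * q4 (2 * M * ((Fintype.card ι : ℝ) + 1)) := by
        rw [hc]
        refine (q4_mono (mul_le_mul_of_nonneg_right hcard (by positivity))).trans ?_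
        rw [show 2 * M * 2 ^ (i + 1) * ((Fintype.card ι : ℝ) + 1) =
          2 ^ (i + 1) * (2 * M * ((Fintype.card ι : ℝ) + 1)) by ring, q4_mul (by positivity)]
        refine mul_le_mul_of_nonneg_right ?_ (q4_nonneg _)
        rw [← q4_pow_four (show (0 : ℝ) ≤ (3 / 2) ^ (i + 1) by positivity)]
        refine q4_mono ?_
        rw [← pow_mul, mul_comm, pow_mul]
        gcongr
        norm_num
      have h34 : d * (3 / 2) ^ (i + 1) = (3 / 4 : ℝ) ^ (i + 1) := by
        rw [hd, one_div, ← inv_pow, ← mul_pow]; norm_num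
      calc d * (2 * C * q4 (T.card * Fintype.card (Option ι)))
          ≤ d * (2 * C * ((3 / 2) ^ (i + 1) * q4 (2 * M * ((Fintype.card ι : ℝ) + 1)))) := by
            refine mul_le_mul_of_nonneg_left (mul_le_mul_of_nonneg_left h1 (by positivity)) hd0.le
        _ = (3 / 4) ^ (i + 1) * (2 * C * q4 (2 * M * ((Fintype.card ι : ℝ) + 1))) := by
            rw [← h34]; ring
        _ ≤ _ := by rw [mul_comm E]; exact mul_le_mul_of_nonneg_left hE (by positivity)
    set y' : Fin N → ℝ := fun k => y k + d * s k with hy'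
    have hgrid : Grid i y' := fun k => by
      have he : 2 ^ (i + 1) = 2 * 2 ^ i := by rw [pow_succ]; ring
      have hak := ha k
      by_cases h : Odd (a k)
      · obtain ⟨b, hb⟩ := h
        have hk : k ∈ T := Finset.mem_filter.2 ⟨Finset.mem_univ k, b, hb⟩
        rcases hs1 k hk with hs | hs
        · refine ⟨b, by omega, ?_⟩
          simp only [hy', hya k, hs, hd, hb]
          push_cast
          rw [pow_succ]
          field_simp
          ring
        · refine ⟨b + 1, by omega, ?_⟩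
          simp only [hy', hya k, hs, hd, hb]
          push_cast
          rw [pow_succ]
          field_simp
          ring
      · obtain ⟨b, hb⟩ := Nat.not_odd_iff_even.1 h
        refine ⟨b, by omega, ?_⟩
        have hk : k ∉ T := fun hk => h (Finset.mem_filter.1 hk).2
        simp only [hy', hya k, hs0 k hk, hb]
        push_cast
        rw [pow_succ]
        field_simp
        ring
    have hpot' : pot y' ≤ pot y + E * (3 / 4) ^ (i + 1) := by
      have h1 : pot y' ≤ pot y + d * ∑ k, (1 - 2 * y k) * s k := by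
        simp only [pot, hy', Finset.mul_sum, ← Finset.sum_add_distrib]
        exact Finset.sum_le_sum fun k _ => by nlinarith [sq_nonneg (d * s k)]
      have h2 := hrow none
      simp only [Option.elim_none] at h2
      have h3 : d * ∑ k, (1 - 2 * y k) * s k ≤
          d * (2 * C * q4 (T.card * Fintype.card (Option ι))) :=
        mul_le_mul_of_nonneg_left ((le_abs_self _).trans h2) hd0.le
      linarith
    obtain ⟨z, hz, hzr⟩ := ih y' hgrid (by
      rw [geo] at hpot
      linarith [mul_add E (geo i) ((3 / 4 : ℝ) ^ (i + 1))])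
    refine ⟨z, hz, fun j => ?_⟩
    have h2 := hrow (some j)
    simp only [Option.elim_some] at h2
    have h3 : ∑ k, R j k * (z k - y k) =
        ∑ k, R j k * (z k - y' k) + d * ∑ k, R j k * s k := by
      rw [Finset.mul_sum, ← Finset.sum_add_distrib]
      exact Finset.sum_congr rfl fun k _ => by simp only [hy']; ring
    rw [h3, geo, mul_add]
    refine (abs_add_le _ _).trans (add_le_add (hzr j) ?_)
    rw [abs_mul, abs_of_pos hd0]
    exact (mul_le_mul_of_nonneg_left h2 hd0.le).trans hbound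

/-- The first rounding down to a grid. -/
lemma exists_grid (I : ℕ) (y : Fin N → ℝ) (hy : ∀ k, 0 ≤ y k ∧ y k ≤ 1) :
    ∃ y' : Fin N → ℝ, Grid I y' ∧ ∀ k, |y' k - y k| ≤ 1 / 2 ^ I := by
  refine ⟨fun k => (⌊y k * 2 ^ I⌋₊ : ℝ) / 2 ^ I, fun k => ⟨_, ?_, rfl⟩, fun k => ?_⟩
  · have h : y k * 2 ^ I ≤ ((2 ^ I : ℕ) : ℝ) := by
      push_cast
      exact mul_le_of_le_one_left (by positivity) (hy k).2
    exact (Nat.floor_le_floor h).trans_eq (Nat.floor_natCast _)
  · have h1 := Nat.floor_le (mul_nonneg (hy k).1 (pow_nonneg (zero_le_two (α := ℝ)) I))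
    have h2 := Nat.lt_floor_add_one (y k * 2 ^ I)
    have hp : (0 : ℝ) < 2 ^ I := by positivity
    have h : |((⌊y k * 2 ^ I⌋₊ : ℝ) - y k * 2 ^ I)| ≤ 1 :=
      abs_le.2 ⟨by linarith, by linarith⟩
    rw [show (⌊y k * 2 ^ I⌋₊ : ℝ) / 2 ^ I - y k =
      ((⌊y k * 2 ^ I⌋₊ : ℝ) - y k * 2 ^ I) / 2 ^ I by field_simp, abs_div, abs_of_pos hp]
    gcongr

lemma re_e (t : ℝ) : (e t).re = Real.cos (2 * π * t) := by
  rw [e, Complex.exp_ofReal_mul_I_re]

lemma im_e (t : ℝ) : (e t).im = Real.sin (2 * π * t) := by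
  rw [e, Complex.exp_ofReal_mul_I_im]

lemma trig_sub (x y : Fin N → ℝ) (t : ℝ) :
    trig (fun k => x k - y k) t = trig x t - trig y t := by
  simp only [trig, ← Finset.sum_sub_distrib]
  exact Finset.sum_congr rfl fun k _ => by push_cast; ring

lemma norm_trig_le (u : Fin N → ℝ) (t B : ℝ)
    (hc : |∑ k : Fin N, Real.cos (2 * π * ((k : ℕ) * t)) * u k| ≤ B)
    (hs : |∑ k : Fin N, Real.sin (2 * π * ((k : ℕ) * t)) * u k| ≤ B) : ‖trig u t‖ ≤ 2 * B := by
  refine (Complex.norm_le_abs_re_add_abs_im _).trans ?_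
  simp only [trig, Complex.re_sum, Complex.im_sum, Complex.re_ofReal_mul, Complex.im_ofReal_mul,
    re_e, im_e, mul_comm (u _)]
  linarith

end Vale.Agent.P110.Exist.Rounding

namespace Vale.Agent.P110.Exist

open Rounding in
/-- **Rounding** from full colouring and sampling. -/
theorem roundingSpec (hcol : ColourSpec) (hsam : SampleSpec) : RoundingSpec := by
  obtain ⟨C, hC0, hC⟩ := hcol
  intro δ hδ
  set c : ℝ := 72 * C with hc
  have hc0 : 0 < c := by positivity
  set η : ℝ := (δ / (2 * c)) ^ 4 / 36 with hη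
  have hη0 : 0 < η := by positivity
  set a₀ : ℝ := 6 * C * q4 (36 * η) with ha₀
  have ha0 : 0 ≤ a₀ := mul_nonneg (by positivity) (q4_nonneg _)
  set r₀ : ℝ := max (max (24 / δ) ((a₀ + 1) / η)) 1 with hr₀
  refine ⟨η, hη0, ⌈r₀ ^ 2⌉₊, fun N hN x hx hxη => ?_⟩
  have hr : r₀ ≤ √(N : ℝ) := by
    rw [Real.le_sqrt (zero_le_one.trans (le_max_right _ _)) (Nat.cast_nonneg N)]
    exact (Nat.le_ceil _).trans (by exact_mod_cast hN)
  have hr1 : 24 ≤ δ * √(N : ℝ) := by
    rw [mul_comm, ← div_le_iff₀ hδ]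
    exact ((le_max_left _ _).trans (le_max_left _ _)).trans hr
  have hr2 : a₀ + 1 ≤ η * √(N : ℝ) := by
    rw [mul_comm η, ← div_le_iff₀ hη0]
    exact ((le_max_right _ _).trans (le_max_left _ _)).trans hr
  have hr3 : 1 ≤ √(N : ℝ) := (le_max_right _ _).trans hr
  have hsq : √(N : ℝ) * √(N : ℝ) = N := Real.mul_self_sqrt (Nat.cast_nonneg N)
  have hN1 : 1 ≤ N := by
    have : (0 : ℝ) < N := by nlinarith
    exact_mod_cast this
  obtain ⟨I, hI⟩ : ∃ I : ℕ, N ≤ 2 ^ I := ⟨N, Nat.lt_two_pow_self.le⟩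
  have hNI : (N : ℝ) * (1 / 2 ^ I) ≤ 1 := by
    rw [mul_one_div, div_le_one (by positivity)]
    exact_mod_cast hI
  obtain ⟨y, hygrid, hy⟩ := exists_grid I (fun k => (1 + x k) / 2) fun k => by
    obtain ⟨h1, h2⟩ := abs_le.1 (hx k)
    constructor <;> linarith
  have hy01 : ∀ k, 0 ≤ y k ∧ y k ≤ 1 := fun k => by
    obtain ⟨a, ha, hk⟩ := hygrid k
    rw [hk]
    exact ⟨by positivity, (div_le_one (by positivity)).2 (by exact_mod_cast ha)⟩
  let R : Fin (4 * N) ⊕ Fin (4 * N) → Fin N → ℝ := fun j k =>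
    j.elim (fun (j : Fin (4 * N)) => Real.cos (2 * π * ((k : ℕ) * ((j : ℕ) / (4 * N : ℝ)))))
      fun (j : Fin (4 * N)) => Real.sin (2 * π * ((k : ℕ) * ((j : ℕ) / (4 * N : ℝ))))
  have hR : ∀ j k, |R j k| ≤ 1 := fun j k => by
    cases j with
    | inl j => exact Real.abs_cos_le_one _
    | inr j => exact Real.abs_sin_le_one _
  set E : ℝ := 2 * C * (q4 (36 * η) * √(N : ℝ)) with hE
  have hE' : 2 * C * q4 (2 * (2 * η * N) *
      ((Fintype.card (Fin (4 * N) ⊕ Fin (4 * N)) : ℝ) + 1)) ≤ E := by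
    refine mul_le_mul_of_nonneg_left ?_ (by positivity)
    have hN0 : (1 : ℝ) ≤ N := by exact_mod_cast hN1
    have h2 : q4 ((N : ℝ) ^ 2) = √(N : ℝ) := by rw [q4, Real.sqrt_sq (Nat.cast_nonneg N)]
    rw [← h2, ← q4_mul (by positivity)]
    refine q4_mono ?_
    simp only [Fintype.card_sum, Fintype.card_fin]
    push_cast
    nlinarith [mul_nonneg (mul_nonneg hη0.le (Nat.cast_nonneg N)) (sub_nonneg.2 hN0)]
  have hEN : E * 3 + 1 ≤ η * N := by
    rw [← hsq, ← mul_assoc]
    refine le_trans ?_ (mul_le_mul_of_nonneg_right hr2 (Real.sqrt_nonneg _))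
    rw [hE, ha₀]
    nlinarith [hr3]
  have hE0 : 0 ≤ E := mul_nonneg (by positivity) (mul_nonneg (q4_nonneg _) (Real.sqrt_nonneg _))
  have hpot : pot y + E * geo I ≤ 2 * η * N := by
    have h1 : pot y ≤ η * N / 4 + 1 := by
      calc pot y ≤ ∑ k : Fin N, ((1 - x k ^ 2) / 4 + 1 / 2 ^ I) := Finset.sum_le_sum fun k _ => by
            obtain ⟨h1, h2⟩ := hy01 k
            obtain ⟨h3, h4⟩ := abs_le.1 (hy k)
            obtain ⟨h5, h6⟩ := abs_le.1 (hx k)
            rcases le_total 0 (y k - (1 + x k) / 2) with h | h <;> nlinarith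
        _ = (∑ k, (1 - x k ^ 2)) / 4 + N * (1 / 2 ^ I) := by
            rw [Finset.sum_add_distrib, Finset.sum_div, Finset.sum_const, Finset.card_univ,
              Fintype.card_fin, nsmul_eq_mul]
        _ ≤ _ := by linarith
    have := mul_le_mul_of_nonneg_left (geo_le I) hE0
    have : 0 ≤ η * N := mul_nonneg hη0.le (Nat.cast_nonneg N)
    linarith
  obtain ⟨z, hz, hzrow⟩ := round_grid hC hC0.le (R := R)
    (by simp only [Fintype.card_sum, Fintype.card_fin]; omega) hR (M := 2 * η * N)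
    hE' I y hygrid hpot
  refine ⟨fun k => 2 * z k - 1, fun k => by rcases hz k with h | h <;> simp [h]; norm_num,
    fun t => ?_⟩
  have hrows : ∀ j, |∑ k, R j k * ((2 * z k - 1) - x k)| ≤ 2 * (E * 3 + 1) := fun j => by
    have h1 : ∑ k, R j k * ((2 * z k - 1) - x k) =
        2 * ∑ k, R j k * (z k - y k) + 2 * ∑ k, R j k * (y k - (1 + x k) / 2) := by
      rw [Finset.mul_sum, Finset.mul_sum, ← Finset.sum_add_distrib]
      exact Finset.sum_congr rfl fun k _ => by ring
    have h2 : |∑ k, R j k * (y k - (1 + x k) / 2)| ≤ 1 := by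
      refine (Finset.abs_sum_le_sum_abs _ _).trans (le_trans ?_ hNI)
      refine (Finset.sum_le_sum fun k _ => ?_).trans_eq
        (by rw [Finset.sum_const, Finset.card_univ, Fintype.card_fin, nsmul_eq_mul])
      rw [abs_mul]
      exact (mul_le_of_le_one_left (abs_nonneg _) (hR j k)).trans (hy k)
    rw [h1]
    refine (abs_add_le _ _).trans ?_
    rw [abs_mul, abs_mul, abs_two]
    nlinarith [hzrow j, mul_le_mul_of_nonneg_left (geo_le I) hE0]
  rw [← trig_sub]
  refine (hsam N (fun k => (2 * z k - 1) - x k) (2 * (2 * (E * 3 + 1))) (fun j hj => ?_) t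
    hN1).trans ?_
  · exact norm_trig_le _ _ _ (hrows (Sum.inl ⟨j, hj⟩)) (hrows (Sum.inr ⟨j, hj⟩))
  · have h36 : q4 (36 * η) = δ / (2 * c) := by
      rw [hη, mul_div_cancel₀ _ (by norm_num : (36 : ℝ) ≠ 0), q4_pow_four (by positivity)]
    have hE2 : 72 * C * (q4 (36 * η) * √(N : ℝ)) = δ / 2 * √(N : ℝ) := by
      rw [h36, hc]; field_simp
    rw [hE]
    linarith

end Vale.Agent.P110.Exist
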