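import Vale.Agent.P110.Exist.Spec

/-!
# P110: sampling a trigonometric polynomial

A trigonometric polynomial of degree below `N` is reproduced from its values at `4N` equidistant
points by the kernel `2 K_{2N} - K_N` built from Fejér kernels, hence is at most three times as
large as those values.
-/

open Real Finset

namespace Vale.Agent.P110.Exist.Sample

lemma e_add (a b : ℝ) : e (a + b) = e a * e b := by
  rw [e, e, e, ← Complex.exp_add]
  push_cast
  ring_nf

lemma e_zero : e 0 = 1 := by simp [e]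

lemma norm_e (a : ℝ) : ‖e a‖ = 1 := by
  rw [e, Complex.norm_exp_ofReal_mul_I]

lemma conj_e (a : ℝ) : (starRingEnd ℂ) (e a) = e (-a) := by
  rw [e, e, ← Complex.exp_conj]
  simp [Complex.conj_ofReal, map_ofNat]

lemma e_nat_mul (a : ℝ) : ∀ n : ℕ, e (n * a) = e a ^ n
  | 0 => by simp [e_zero]
  | n + 1 => by rw [pow_succ, ← e_nat_mul a n, ← e_add]; push_cast; ring_nf

/-- The sum of a character over the residues modulo `M`. -/
lemma sum_char {M : ℕ} (d : ℤ) (hd : |d| < M) :
    ∑ j ∈ range M, e ((d : ℝ) * j / M) = if d = 0 then (M : ℂ) else 0 := by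
  have hM : (M : ℝ) ≠ 0 := by
    have : 0 < (M : ℤ) := lt_of_le_of_lt (abs_nonneg d) hd
    exact_mod_cast this.ne'
  split_ifs with h
  · simp [h, e_zero]
  · have hpow : ∀ j : ℕ, e ((d : ℝ) * j / M) = e ((d : ℝ) / M) ^ j := fun j => by
      rw [← e_nat_mul]; ring_nf
    have h1 : e ((d : ℝ) / M) ≠ 1 := by
      intro hh
      rw [e, Complex.exp_eq_one_iff] at hh
      obtain ⟨n, hn⟩ := hh
      have h2 := congrArg Complex.im hn
      simp only [Complex.mul_im, Complex.ofReal_re, Complex.ofReal_im, Complex.I_re, Complex.I_im,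
        Complex.mul_re, Complex.intCast_re, Complex.intCast_im, Complex.re_ofNat, Complex.im_ofNat,
        mul_zero, zero_mul, mul_one, sub_zero, add_zero] at h2
      have hπ := Real.pi_ne_zero
      have h3 : (d : ℝ) = n * M := by
        field_simp at h2
        linarith
      have h4 : d = n * (M : ℤ) := by exact_mod_cast h3
      exact h (Int.eq_zero_of_abs_lt_dvd ⟨n, h4.trans (mul_comm _ _)⟩ hd)
    have hM' : e ((d : ℝ) / M) ^ M = 1 := by
      rw [← e_nat_mul, mul_div_cancel₀ _ hM, e, Complex.exp_eq_one_iff]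
      exact ⟨d, by push_cast; ring⟩
    simp only [hpow]
    rw [geom_sum_eq h1, hM', sub_self, zero_div]

/-- The Fejér kernel of order `n`. -/
noncomputable def fejer (n : ℕ) (u : ℝ) : ℝ := ‖∑ a ∈ range n, e (a * u)‖ ^ 2 / n

lemma fejer_nonneg (n : ℕ) (u : ℝ) : 0 ≤ fejer n u := by unfold fejer; positivity

lemma fejer_eq (n : ℕ) (u : ℝ) :
    (fejer n u : ℂ) = (∑ b ∈ range n, ∑ a ∈ range n, e (((a : ℝ) - b) * u)) / n := by
  rw [fejer, Complex.ofReal_div, Complex.ofReal_natCast, Complex.ofReal_pow,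
    ← Complex.conj_mul', map_sum, Finset.sum_mul_sum]
  congr 1
  refine Finset.sum_congr rfl fun b _ => Finset.sum_congr rfl fun a _ => ?_
  rw [conj_e, ← e_add]
  ring_nf

/-- Sampling a character against a Fejér kernel. -/
lemma sum_e_fejer {N n p : ℕ} (hn : n ≤ 2 * N) (hp : p < N) (t : ℝ) :
    ∑ j ∈ range (4 * N), e (p * ((j : ℝ) / (4 * N : ℕ))) * (fejer n (t - (j : ℝ) / (4 * N : ℕ)) : ℂ) =
      (4 * N : ℕ) * ((n - p : ℕ) : ℂ) / n * e (p * t) := by
  set M : ℕ := 4 * N with hM
  simp only [fejer_eq]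
  rw [Finset.sum_congr rfl fun (j : ℕ) _ =>
    (mul_div_assoc (e (p * ((j : ℝ) / M))) _ _).symm]
  simp only [Finset.mul_sum]
  rw [← Finset.sum_div, div_mul_eq_mul_div]
  congr 1
  rw [Finset.sum_comm]
  calc ∑ b ∈ range n, ∑ j ∈ range M, ∑ a ∈ range n,
        e (p * ((j : ℝ) / M)) * e (((a : ℝ) - b) * (t - (j : ℝ) / M))
      = ∑ b ∈ range n, if p + b < n then (M : ℂ) * e (p * t) else 0 := by
        refine Finset.sum_congr rfl fun b hb => ?_
        rw [Finset.sum_comm]
        have hterm : ∀ a ∈ range n,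
            ∑ j ∈ range M, e (p * ((j : ℝ) / M)) * e (((a : ℝ) - b) * (t - (j : ℝ) / M)) =
              if p + b = a then (M : ℂ) * e (p * t) else 0 := by
          intro a ha
          rw [Finset.mem_range] at ha hb
          have hre : ∀ j : ℕ, e (p * ((j : ℝ) / M)) * e (((a : ℝ) - b) * (t - (j : ℝ) / M)) =
              e (((a : ℝ) - b) * t) * e (((((p : ℤ) - a + b : ℤ)) : ℝ) * j / M) := fun j => by
            rw [← e_add, ← e_add]
            push_cast
            ring_nf
          simp only [hre, ← Finset.mul_sum]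
          rw [sum_char _ (abs_lt.2 ⟨by omega, by omega⟩)]
          by_cases h : p + b = a
          · rw [if_pos (by omega), if_pos h, mul_comm (M : ℂ)]
            subst h
            push_cast
            ring_nf
          · rw [if_neg (by omega), if_neg h, mul_zero]
        rw [Finset.sum_congr rfl hterm, Finset.sum_ite_eq]
        simp only [Finset.mem_range]
    _ = _ := by
        rw [← Finset.sum_filter]
        have hf : (range n).filter (fun b => p + b < n) = range (n - p) := by
          ext b; simp only [Finset.mem_filter, Finset.mem_range]; omega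
        rw [hf, Finset.sum_const, Finset.card_range, nsmul_eq_mul]
        ring

/-- The reproduction formula. -/
lemma repro {N : ℕ} (hN : 0 < N) (x : Fin N → ℝ) (t : ℝ) :
    ∑ j ∈ range (4 * N), trig x ((j : ℝ) / (4 * N : ℕ)) *
      (2 * (fejer (2 * N) (t - (j : ℝ) / (4 * N : ℕ)) : ℂ) -
        (fejer N (t - (j : ℝ) / (4 * N : ℕ)) : ℂ)) = (4 * N : ℕ) * trig x t := by
  simp only [trig, Finset.sum_mul]
  rw [Finset.sum_comm, Finset.mul_sum]
  refine Finset.sum_congr rfl fun k _ => ?_
  have h1 := sum_e_fejer (N := N) (n := 2 * N) le_rfl k.2 t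
  have h2 := sum_e_fejer (N := N) (n := N) (by omega) k.2 t
  calc _ = (x k : ℂ) * (2 * ∑ j ∈ range (4 * N), e ((k : ℕ) * ((j : ℝ) / (4 * N : ℕ))) *
          (fejer (2 * N) (t - (j : ℝ) / (4 * N : ℕ)) : ℂ) -
        ∑ j ∈ range (4 * N), e ((k : ℕ) * ((j : ℝ) / (4 * N : ℕ))) *
          (fejer N (t - (j : ℝ) / (4 * N : ℕ)) : ℂ)) := by
        rw [Finset.mul_sum, ← Finset.sum_sub_distrib, Finset.mul_sum]
        exact Finset.sum_congr rfl fun j _ => by ring
    _ = _ := by
        have hk := k.2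
        have hN0 : (N : ℂ) ≠ 0 := Nat.cast_ne_zero.2 hN.ne'
        rw [h1, h2, Nat.cast_sub (show (k : ℕ) ≤ 2 * N by omega), Nat.cast_sub hk.le]
        push_cast
        field_simp
        ring

lemma sum_fejer {N n : ℕ} (hn : n ≤ 2 * N) (h0 : 0 < n) (t : ℝ) :
    ∑ j ∈ range (4 * N), fejer n (t - (j : ℝ) / (4 * N : ℕ)) = (4 * N : ℕ) := by
  have h := sum_e_fejer (N := N) (n := n) (p := 0) hn (by omega) t
  have hn0 : (n : ℂ) ≠ 0 := Nat.cast_ne_zero.2 h0.ne'
  simp only [Nat.cast_zero, zero_mul, e_zero, one_mul, Nat.sub_zero, mul_one,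
    mul_div_cancel_right₀ _ hn0, ← Complex.ofReal_sum] at h
  exact Complex.ofReal_injective (by simpa using h)

end Vale.Agent.P110.Exist.Sample

namespace Vale.Agent.P110.Exist

open Sample in
/-- **Sampling.** -/
theorem sampleSpec : SampleSpec := by
  intro N x B hB t hN
  have hB' : ∀ j ∈ range (4 * N), ‖trig x ((j : ℝ) / (4 * N : ℕ))‖ ≤ B := fun j hj => by
    simpa using hB j (Finset.mem_range.1 hj)
  have hM : (0 : ℝ) < (4 * N : ℕ) := by positivity
  have hB0 : 0 ≤ B := (norm_nonneg _).trans (hB' 0 (Finset.mem_range.2 (by omega)))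
  have h := norm_sum_le (range (4 * N)) fun j => trig x ((j : ℝ) / (4 * N : ℕ)) *
    (2 * (fejer (2 * N) (t - (j : ℝ) / (4 * N : ℕ)) : ℂ) -
      (fejer N (t - (j : ℝ) / (4 * N : ℕ)) : ℂ))
  rw [repro hN, norm_mul, Complex.norm_natCast] at h
  have h2 : ((4 * N : ℕ) : ℝ) * ‖trig x t‖ ≤ ((4 * N : ℕ) : ℝ) * (3 * B) := by
    refine h.trans ?_
    calc _ ≤ ∑ j ∈ range (4 * N), B * (2 * fejer (2 * N) (t - (j : ℝ) / (4 * N : ℕ)) +
            fejer N (t - (j : ℝ) / (4 * N : ℕ))) := by
          refine Finset.sum_le_sum fun j hj => ?_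
          rw [norm_mul]
          refine mul_le_mul (hB' j hj) ((norm_sub_le _ _).trans_eq ?_) (norm_nonneg _) hB0
          rw [norm_mul, Complex.norm_real, Complex.norm_real, Real.norm_of_nonneg (fejer_nonneg _ _),
            Real.norm_of_nonneg (fejer_nonneg _ _), Complex.norm_two]
      _ = _ := by
          rw [← Finset.mul_sum, Finset.sum_add_distrib, ← Finset.mul_sum,
            sum_fejer le_rfl (by omega) t, sum_fejer (by omega) hN t]
          ring
  exact le_of_mul_le_mul_left h2 hM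

end Vale.Agent.P110.Exist
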