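import Vale.Agent.P110.Exist.Defs

/-!
Statements of the modules of the construction (propositions only).
-/

open Real Finset

namespace Vale.Agent.P110.Exist

/-- A1. Partial colouring. -/
def PartialColourSpec : Prop :=
  ∃ C : ℝ, 0 < C ∧ ∀ (m n : ℕ), 1 ≤ m → m ≤ n → ∀ a : Fin n → Fin m → ℝ, (∀ j k, |a j k| ≤ 1) →
    ∃ s : Fin m → ℝ, (∀ k, s k = -1 ∨ s k = 0 ∨ s k = 1) ∧
      (m : ℝ) / 8 ≤ #{k | s k ≠ 0} ∧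
      ∀ j, |∑ k, a j k * s k| ≤ C * √(m * (1 + Real.log ((n : ℝ) / m)))

/-- A2. Full colouring. -/
def ColourSpec : Prop :=
  ∃ C : ℝ, 0 < C ∧ ∀ (m n : ℕ), 1 ≤ m → m ≤ n → ∀ a : Fin n → Fin m → ℝ, (∀ j k, |a j k| ≤ 1) →
    ∃ s : Fin m → ℝ, (∀ k, s k = -1 ∨ s k = 1) ∧
      ∀ j, |∑ k, a j k * s k| ≤ C * √(m * (1 + Real.log ((n : ℝ) / m)))

/-- A4. Sampling. -/
def SampleSpec : Prop :=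
  ∀ (N : ℕ) (x : Fin N → ℝ) (B : ℝ),
    (∀ j < 4 * N, ‖trig x ((j : ℝ) / (4 * N))‖ ≤ B) → ∀ t, 0 < N → ‖trig x t‖ ≤ 3 * B

/-- A. Rounding. -/
def RoundingSpec : Prop :=
  ∀ δ : ℝ, 0 < δ → ∃ η : ℝ, 0 < η ∧ ∃ N0 : ℕ, ∀ N ≥ N0, ∀ x : Fin N → ℝ,
    (∀ k, |x k| ≤ 1) → ∑ k, (1 - x k ^ 2) ≤ η * N →
    ∃ s : Fin N → ℝ, (∀ k, s k = -1 ∨ s k = 1) ∧ ∀ t, ‖trig s t - trig x t‖ ≤ δ * √N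

/-- B. Bounded real coefficients with flat modulus. -/
def BoundedFlatSpec : Prop :=
  ∀ δ : ℝ, 0 < δ → ∀ N0 : ℕ, ∃ N ≥ N0, ∃ x : Fin N → ℝ, (∀ k, |x k| ≤ 1) ∧
    ∑ k, (1 - x k ^ 2) ≤ δ * N ∧ ∀ t, |‖trig x t‖ - √N| ≤ δ * √N

/-- B1. Waveform. -/
def WaveSpec : Prop :=
  ∀ δ : ℝ, 0 < δ → ∃ (D : ℕ) (S : Finset (Fin D → ℤ)) (c : (Fin D → ℤ) → ℂ) (v : Fin D → ℤ),
    2 ≤ D ∧ (∀ n ∈ S, -n ∈ S) ∧ (∀ n ∈ S, ∃ y, dot n y = 1) ∧ (∀ n ∈ S, dot n v ≠ 0) ∧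
    (∀ n ∈ S, c n ≠ 0 ∧ c (-n) = (starRingEnd ℂ) (c n)) ∧
    (∀ θ : Fin D → ℝ, ‖∑ n ∈ S, c n * e (∑ i, n i * θ i)‖ ≤ 1) ∧
    1 - δ ≤ ∑ n ∈ S, ‖c n‖ ^ 2

/-- B2. Moduli and the quadratic coefficient vector. -/
def ArithSpec : Prop :=
  ∀ (D : ℕ) (S : Finset (Fin D → ℤ)), (∀ n ∈ S, ∃ y, dot n y = 1) → (∀ n ∈ S, -n ∉ S) →
    ∀ h : ℕ, 0 < h → ∀ c : (Fin D → ℤ) → ℕ, (∀ n ∈ S, 0 < c n) → Set.InjOn c S →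
    ∃ (M : ℕ) (a : Fin D → ℤ), 1 ≤ M ∧
      (∀ n ∈ S, Nat.Coprime (c n * M + 1) h ∧ Odd (c n * M + 1)) ∧
      (∀ n ∈ S, ∀ n' ∈ S, n ≠ n' → Nat.Coprime (c n * M + 1) (c n' * M + 1)) ∧
      (∀ n ∈ S, ((c n * M + 1 : ℕ) : ℤ) ∣ dot n a) ∧
      (∀ n ∈ S, ∀ n' ∈ S, n ≠ n' → IsCoprime (dot n' a) ((c n * M + 1 : ℕ) : ℤ)) ∧
      ∀ r : (Fin D → ℤ) → ℤ, ∃ β : Fin D → ℤ, ∀ n ∈ S,
        dot n β ≡ r n [ZMOD ((c n * M + 1 : ℕ) : ℤ)]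

/-- B2. The exponential sum: magnitude, support, inversion. -/
def GaussSpec : Prop :=
  ∀ (h q0 Q : ℕ) (A B b : ℤ), 0 < h → 0 < q0 → Q ∣ q0 → (Q : ℤ) ∣ A →
    IsCoprime (2 * (A / (Q : ℤ))) ((q0 / Q : ℕ) : ℤ) →
    (∀ u : ℤ, ‖gauss h q0 A B b u‖ ^ 2 =
      if u ≡ (h : ℤ) * B + (q0 : ℤ) * b [ZMOD ((h * Q : ℕ) : ℤ)] then (Q : ℝ) / q0 else 0) ∧
    ∀ k : ℤ, ∑ u ∈ range (h * q0), gauss h q0 A B b u * e ((u : ℝ) * k / (h * q0 : ℕ)) =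
      e ((A * (k : ℝ) ^ 2 + B * k) / q0 + b * (k : ℝ) / h)

/-- B3. Tiling. `S` holds one of `n`, `-n`, with `m n = n·v > 0`; `h = 2 H Lm`. The residue
`a + l` (`a ∈ A n`, `l < m n`) is a cell of `n`, the residue `-(a + l) - 1` one of `-n`;
no residue is used twice, and no piece crosses `0` or `h / 2`. -/
def TilingSpec : Prop :=
  ∀ (D : ℕ) (S : Finset (Fin D → ℤ)) (v : Fin D → ℤ), 2 ≤ D → S.Nonempty →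
    (∀ n ∈ S, ∃ y, dot n y = 1) → (∀ n ∈ S, -n ∉ S) → (∀ n ∈ S, 0 < dot n v) →
    ∀ p : (Fin D → ℤ) → ℝ, (∀ n ∈ S, 0 < p n) → ∑ n ∈ S, p n = 1 → ∀ δ : ℝ, 0 < δ →
    ∃ (h : ℕ) (A : (Fin D → ℤ) → Finset ℕ) (c : (Fin D → ℤ) → ℕ),
      0 < h ∧ Even h ∧
      (∀ n ∈ S, ∀ a ∈ A n, a + (dot n v).toNat ≤ h / 2 ∨ (h / 2 ≤ a ∧ a + (dot n v).toNat ≤ h)) ∧
      (∀ n ∈ S, ∀ n' ∈ S, ∀ a ∈ A n, ∀ a' ∈ A n', ∀ l < (dot n v).toNat,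
        ∀ l' < (dot n' v).toNat, (a + l = a' + l' → n = n' ∧ a = a') ∧
          a + l + (a' + l') + 1 ≠ h) ∧
      (∀ n ∈ S, 0 < c n) ∧ Set.InjOn c S ∧
      ∀ M : ℕ, 1 ≤ M → ∃ (Nb : ℕ) (b : Fin Nb → Fin D → ℤ) (r : Fin Nb → (Fin D → ℤ) → ℕ),
        (∀ i, ∀ n ∈ S, ((dot n (b i)) % (h : ℤ)).toNat ∈ A n ∧ r i n < c n * M + 1) ∧
        (∀ i i', ∀ n ∈ S, dot n (b i) % (h : ℤ) = dot n (b i') % (h : ℤ) → r i n = r i' n →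
          i = i') ∧
        ∀ n ∈ S, |2 * (Nb : ℝ) * (dot n v).toNat / ((h : ℝ) * ((c n * M + 1 : ℕ) : ℝ)) - p n|
          ≤ δ * p n

/-- B4. Fresnel integral. -/
def FresnelSpec : Prop :=
  ∃ C : ℝ, 0 < C ∧ (∀ y, ‖fresnel y‖ ≤ C) ∧ (∀ y, ‖fresnelRem y‖ ≤ C / (1 + |y|)) ∧
    (∀ y, y ≠ 0 → ‖fresnelRem y - e (y ^ 2 / 2) / ((2 * π * y : ℝ) * Complex.I)‖ ≤ C / |y| ^ 3) ∧
    (∀ A A' z, A ∈ Set.Icc (0 : ℝ) 1 → A' ∈ Set.Icc (0 : ℝ) 1 →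
      ‖junction A z - junction A' z‖ ≤ C * √|A - A'|) ∧
    ∀ A z, A ∈ Set.Icc (0 : ℝ) 1 → z ≠ 0 → ‖junction A z‖ ≤ C / |z|

/-- Weights of the staircase. -/
noncomputable def stT (κ A : ℕ → ℝ) (l : ℕ) : ℝ :=
  ∑ i ∈ range l, A i ^ 2 * (κ (i + 1) - κ i)

/-- Phase weights of the staircase. -/
noncomputable def stP (κ A : ℕ → ℝ) (l : ℕ) : ℝ :=
  ∑ i ∈ range l, A i ^ 2 * (κ (i + 1) - κ i) * ((κ i + κ (i + 1)) / 2)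

/-- B4. A piece with a staircase amplitude profile. -/
def StaircaseSpec : Prop :=
  ∃ C : ℝ, 0 < C ∧ ∀ (L : ℕ) (κ A : ℕ → ℝ) (δ gap : ℝ), 0 < gap → 0 < δ →
    (∀ l < L, gap ≤ κ (l + 1) - κ l) → (∀ l < L, 0 < A l ∧ A l ≤ 1) →
    (∀ l, l + 1 < L → |A (l + 1) - A l| ≤ δ) → (0 < L → A 0 ≤ δ ∧ A (L - 1) ≤ δ) →
    ∃ Amp Ψ : ℝ → ℝ, (∀ x, 0 ≤ Amp x ∧ Amp x ≤ 1) ∧
      (∀ x, (x < κ 0 ∨ κ L < x) → Amp x = 0) ∧ ∀ s : ℝ, 0 < s → ∀ x : ℝ,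
      ‖∑ l ∈ range L, (A l : ℂ) *
          e (s * (stP κ A l - x * stT κ A l - A l ^ 2 * (κ l - x) ^ 2 / 2)) *
          (fresnel (A l * √s * (κ (l + 1) - x)) - fresnel (A l * √s * (κ l - x))) -
        fc * (Amp x : ℂ) * e (s * Ψ x)‖ ≤ C * √δ + C * (L + 1) / (√s * gap)

/-- B4. Coefficients of a chirp path. -/
def PathSpec : Prop :=
  ∃ C : ℝ, 0 < C ∧ ∀ (P : Path) (N : ℕ) (K δ σ0 : ℝ), 0 < N → 0 < δ → 0 < σ0 → 0 < K →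
    (∃ z : ℤ, 2 * (N : ℝ) * P.phi P.J = z) →
    (∀ i ≤ P.J, P.kap i ∈ Set.Icc δ (K - δ)) → (∀ i < P.J, σ0 ≤ |P.sigma i|) →
    Summable (fun k : ℤ => |P.coef N k|) ∧
      (∀ t, ‖∑' k : ℤ, (P.coef N k : ℂ) * e (k * t)‖ = √N) ∧
      ∑' k : ℤ, (if 0 ≤ k ∧ k < ⌈K * N⌉₊ then 0 else |P.coef N k|) ≤
        C * (P.J + 1) / (σ0 * √N) * (1 + 1 / δ ^ 3)

/-- The final statement. -/
def UltraflatSpec : Prop :=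
  ∀ c : ℝ, 0 < c → ∀ N0 : ℕ, ∃ N ≥ N0, ∃ s : Fin N → ℝ, (∀ k, s k = -1 ∨ s k = 1) ∧
    ∀ z : ℂ, ‖z‖ = 1 →
      (1 - c) * √N ≤ ‖∑ k, (s k : ℂ) * z ^ (k : ℕ)‖ ∧
        ‖∑ k, (s k : ℂ) * z ^ (k : ℕ)‖ ≤ (1 + c) * √N

end Vale.Agent.P110.Exist
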