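import Vale.Agent.P110.Exist.Spec
import Vale.Agent.P110.Exist.Basic

/-!
B4. A piece with a staircase amplitude profile: Abel summation over the junctions.
-/

open Real Finset

namespace Vale.Agent.P110.Exist

namespace Staircase

lemma sign_pos_mul (c z : ℝ) (hc : 0 < c) : Real.sign (c * z) = Real.sign z := by
  rcases lt_trichotomy z 0 with h | h | h
  · rw [Real.sign_of_neg h, Real.sign_of_neg (mul_neg_of_pos_of_neg hc h)]
  · simp [h]
  · rw [Real.sign_of_pos h, Real.sign_of_pos (mul_pos hc h)]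

lemma sign_le_one (z : ℝ) : Real.sign z ≤ 1 := by
  rcases Real.sign_apply_eq z with h | h | h <;> rw [h] <;> norm_num

lemma neg_one_le_sign (z : ℝ) : -1 ≤ Real.sign z := by
  rcases Real.sign_apply_eq z with h | h | h <;> rw [h] <;> norm_num

lemma sign_mono {a b : ℝ} (h : a ≤ b) : Real.sign a ≤ Real.sign b := by
  rcases lt_trichotomy b 0 with hb | hb | hb
  · rw [Real.sign_of_neg hb, Real.sign_of_neg (lt_of_le_of_lt h hb)]
  · subst hb
    rw [Real.sign_zero]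
    rcases h.lt_or_eq with ha | ha
    · rw [Real.sign_of_neg ha]; norm_num
    · simp [ha]
  · rw [Real.sign_of_pos hb]
    exact sign_le_one a

lemma fresnel_eq (y : ℝ) : fresnel y = (Real.sign y : ℂ) * fc / 2 + fresnelRem y := by
  simp only [fresnelRem]
  ring

lemma junction_zero (z : ℝ) : junction 0 z = 0 := by
  simp [junction]

/-- Phase at knot `l` seen from the frequency `x`. -/
noncomputable def pk (κ A : ℕ → ℝ) (x : ℝ) (l : ℕ) : ℝ := stP κ A l - x * stT κ A l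

/-- Phase of segment `l` at frequency `x`. -/
noncomputable def ph (κ A : ℕ → ℝ) (x : ℝ) (l : ℕ) : ℝ :=
  pk κ A x l - A l ^ 2 * (κ l - x) ^ 2 / 2

lemma pk_succ (κ A : ℕ → ℝ) (x : ℝ) (l : ℕ) :
    pk κ A x (l + 1) =
      pk κ A x l + A l ^ 2 * ((κ (l + 1) - x) ^ 2 - (κ l - x) ^ 2) / 2 := by
  simp only [pk, stP, stT, Finset.sum_range_succ]
  ring

lemma pk_eq_sum (κ A : ℕ → ℝ) (x : ℝ) (l : ℕ) :
    pk κ A x l = ∑ i ∈ range l, A i ^ 2 * ((κ (i + 1) - x) ^ 2 - (κ i - x) ^ 2) / 2 := by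
  induction l with
  | zero => simp [pk, stP, stT]
  | succ n ih => rw [pk_succ, Finset.sum_range_succ, ih]

/-- Amplitude weight of segment `l` at frequency `x`. -/
noncomputable def wgt (κ : ℕ → ℝ) (x : ℝ) (l : ℕ) : ℝ :=
  (Real.sign (κ (l + 1) - x) - Real.sign (κ l - x)) / 2

lemma wgt_nonneg {κ : ℕ → ℝ} {l : ℕ} (x : ℝ) (h : κ l ≤ κ (l + 1)) : 0 ≤ wgt κ x l := by
  have : Real.sign (κ l - x) ≤ Real.sign (κ (l + 1) - x) := sign_mono (by linarith)
  unfold wgt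
  linarith

lemma sum_wgt_le (κ : ℕ → ℝ) (x : ℝ) (L : ℕ) : ∑ l ∈ range L, wgt κ x l ≤ 1 := by
  have h : ∑ l ∈ range L, (Real.sign (κ (l + 1) - x) - Real.sign (κ l - x)) =
      Real.sign (κ L - x) - Real.sign (κ 0 - x) :=
    Finset.sum_range_sub (fun l => Real.sign (κ l - x)) L
  simp only [wgt, ← Finset.sum_div, h]
  linarith [sign_le_one (κ L - x), neg_one_le_sign (κ 0 - x)]

lemma wgt_eq_zero {κ : ℕ → ℝ} {x : ℝ} {l : ℕ} (hl : κ l ≤ κ (l + 1))
    (h : x < κ l ∨ κ (l + 1) < x) : wgt κ x l = 0 := by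
  unfold wgt
  rcases h with h | h
  · rw [Real.sign_of_pos (by linarith : (0 : ℝ) < κ (l + 1) - x),
      Real.sign_of_pos (by linarith : (0 : ℝ) < κ l - x)]
    simp
  · rw [Real.sign_of_neg (by linarith : κ (l + 1) - x < 0),
      Real.sign_of_neg (by linarith : κ l - x < 0)]
    simp

/-- The amplitude profile. -/
noncomputable def amp (L : ℕ) (κ A : ℕ → ℝ) (x : ℝ) : ℝ :=
  ∑ l ∈ range L, A l * wgt κ x l

/-- The phase profile. -/
noncomputable def psi (L : ℕ) (κ A : ℕ → ℝ) (x : ℝ) : ℝ :=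
  ∑ i ∈ range L, A i ^ 2 * ((min (κ (i + 1) - x) 0) ^ 2 - (min (κ i - x) 0) ^ 2) / 2

lemma mono_of_steps {L : ℕ} {κ : ℕ → ℝ} (h : ∀ l < L, κ l ≤ κ (l + 1)) {i j : ℕ}
    (hij : i ≤ j) (hj : j ≤ L) : κ i ≤ κ j := by
  induction j, hij using Nat.le_induction with
  | base => exact le_rfl
  | succ n _ ih => exact (ih (by omega)).trans (h n (by omega))

lemma psi_eq {L : ℕ} {κ A : ℕ → ℝ} (h : ∀ l < L, κ l ≤ κ (l + 1)) {x : ℝ} {l : ℕ} (hl : l < L)
    (h1 : κ l ≤ x) (h2 : x ≤ κ (l + 1)) : psi L κ A x = ph κ A x l := by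
  obtain ⟨n, rfl⟩ : ∃ n, L = l + 1 + n := ⟨L - (l + 1), by omega⟩
  unfold psi ph
  rw [Finset.sum_range_add, Finset.sum_range_succ, pk_eq_sum]
  have hA : ∀ i ∈ range l,
      A i ^ 2 * ((min (κ (i + 1) - x) 0) ^ 2 - (min (κ i - x) 0) ^ 2) / 2 =
        A i ^ 2 * ((κ (i + 1) - x) ^ 2 - (κ i - x) ^ 2) / 2 := by
    intro i hi
    have hi' : i < l := Finset.mem_range.1 hi
    have a1 : κ (i + 1) ≤ κ l := mono_of_steps h (by omega) (by omega)
    have a2 : κ i ≤ κ (i + 1) := h i (by omega)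
    rw [min_eq_left (by linarith), min_eq_left (by linarith)]
  have hB : ∀ i ∈ range n, A (l + 1 + i) ^ 2 *
      ((min (κ (l + 1 + i + 1) - x) 0) ^ 2 - (min (κ (l + 1 + i) - x) 0) ^ 2) / 2 = 0 := by
    intro i hi
    have hi' : i < n := Finset.mem_range.1 hi
    have a1 : κ (l + 1) ≤ κ (l + 1 + i) := mono_of_steps h (by omega) (by omega)
    have a2 : κ (l + 1 + i) ≤ κ (l + 1 + i + 1) := h _ (by omega)
    rw [min_eq_right (by linarith), min_eq_right (by linarith)]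
    simp
  rw [Finset.sum_congr rfl hA, Finset.sum_eq_zero hB,
    min_eq_right (by linarith : (0 : ℝ) ≤ κ (l + 1) - x),
    min_eq_left (by linarith : κ l - x ≤ 0)]
  ring

/-- Levels seen from the knots: `lev (j)` is left of knot `j`, `lev (j + 1)` right of it. -/
noncomputable def lev (L : ℕ) (A : ℕ → ℝ) (j : ℕ) : ℝ :=
  if 1 ≤ j ∧ j ≤ L then A (j - 1) else 0

lemma lev_succ {L : ℕ} (A : ℕ → ℝ) {l : ℕ} (hl : l < L) : lev L A (l + 1) = A l := by
  rw [lev, if_pos ⟨by omega, by omega⟩]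
  simp

lemma lev_mem {L : ℕ} {A : ℕ → ℝ} (hA : ∀ l < L, 0 < A l ∧ A l ≤ 1) (j : ℕ) :
    lev L A j ∈ Set.Icc (0 : ℝ) 1 := by
  unfold lev
  split_ifs with h
  · exact ⟨(hA _ (by omega)).1.le, (hA _ (by omega)).2⟩
  · simp

lemma lev_jump {L : ℕ} {A : ℕ → ℝ} {δ : ℝ} (hδ : 0 < δ) (hA : ∀ l < L, 0 < A l ∧ A l ≤ 1)
    (hjump : ∀ l, l + 1 < L → |A (l + 1) - A l| ≤ δ) (hend : 0 < L → A 0 ≤ δ ∧ A (L - 1) ≤ δ)
    (j : ℕ) : |lev L A j - lev L A (j + 1)| ≤ δ := by
  rcases Nat.eq_zero_or_pos j with rfl | hj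
  · rcases Nat.eq_zero_or_pos L with rfl | hL
    · simp [lev, hδ.le]
    · rw [lev_succ A hL, lev, if_neg (by omega), zero_sub, abs_neg, abs_of_pos (hA 0 hL).1]
      exact (hend hL).1
  · obtain ⟨l, rfl⟩ : ∃ l, j = l + 1 := ⟨j - 1, by omega⟩
    rcases lt_trichotomy (l + 1) L with h | h | h
    · rw [lev_succ A (by omega : l < L), lev_succ A h, abs_sub_comm]
      exact hjump l h
    · rw [lev_succ A (by omega : l < L), lev, if_neg (by omega), sub_zero,
        abs_of_pos (hA l (by omega)).1]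
      have h' := (hend (by omega)).2
      have e1 : L - 1 = l := by omega
      rw [e1] at h'
      exact h'
    · rw [lev, lev, if_neg (by omega), if_neg (by omega)]
      simp [hδ.le]

/-- One junction term. -/
noncomputable def jt (L : ℕ) (κ A : ℕ → ℝ) (s x : ℝ) (i j : ℕ) : ℂ :=
  e (s * pk κ A x j) * junction (lev L A i) (√s * (κ j - x))

lemma seg_eq (L : ℕ) (κ A : ℕ → ℝ) (s x : ℝ) (hs : 0 < s) (l : ℕ) (hl : l < L) (hA : 0 < A l) :
    (A l : ℂ) * e (s * (stP κ A l - x * stT κ A l - A l ^ 2 * (κ l - x) ^ 2 / 2)) *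
        (fresnel (A l * √s * (κ (l + 1) - x)) - fresnel (A l * √s * (κ l - x))) =
      fc * ((A l * wgt κ x l : ℝ) : ℂ) * e (s * ph κ A x l) +
        (jt L κ A s x (l + 1) (l + 1) - jt L κ A s x (l + 1) l) := by
  have hc : 0 < A l * √s := mul_pos hA (Real.sqrt_pos.2 hs)
  have hsq : √s ^ 2 = s := Real.sq_sqrt hs.le
  have e0 : stP κ A l - x * stT κ A l - A l ^ 2 * (κ l - x) ^ 2 / 2 = ph κ A x l := rfl
  have e1 : s * pk κ A x (l + 1) + (-(A l * (√s * (κ (l + 1) - x))) ^ 2 / 2) =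
      s * ph κ A x l := by
    rw [pk_succ, ph, mul_pow, mul_pow, hsq]
    ring
  have e2 : s * pk κ A x l + (-(A l * (√s * (κ l - x))) ^ 2 / 2) = s * ph κ A x l := by
    rw [ph, mul_pow, mul_pow, hsq]
    ring
  have j1 : jt L κ A s x (l + 1) (l + 1) = e (s * ph κ A x l) * (A l : ℂ) *
      fresnelRem (A l * √s * (κ (l + 1) - x)) := by
    rw [jt, lev_succ A hl, junction, ← e1, e_add, mul_assoc (A l) (√s)]
    ring
  have j2 : jt L κ A s x (l + 1) l = e (s * ph κ A x l) * (A l : ℂ) *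
      fresnelRem (A l * √s * (κ l - x)) := by
    rw [jt, lev_succ A hl, junction, ← e2, e_add, mul_assoc (A l) (√s)]
    ring
  rw [e0, j1, j2, fresnel_eq (A l * √s * (κ (l + 1) - x)), fresnel_eq (A l * √s * (κ l - x)),
    sign_pos_mul _ _ hc, sign_pos_mul _ _ hc, wgt]
  push_cast
  ring

lemma sum_junctions (L : ℕ) (κ A : ℕ → ℝ) (s x : ℝ) :
    ∑ l ∈ range L, (jt L κ A s x (l + 1) (l + 1) - jt L κ A s x (l + 1) l) =
      ∑ j ∈ range (L + 1), (jt L κ A s x j j - jt L κ A s x (j + 1) j) := by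
  have h0 : jt L κ A s x 0 0 = 0 := by simp [jt, lev, junction_zero]
  have hL : jt L κ A s x (L + 1) L = 0 := by
    simp [jt, lev, junction_zero]
  rw [Finset.sum_sub_distrib, Finset.sum_sub_distrib,
    Finset.sum_range_succ' (fun j => jt L κ A s x j j),
    Finset.sum_range_succ (fun j => jt L κ A s x (j + 1) j), h0, hL, add_zero, add_zero]

lemma main_eq {L : ℕ} {κ A : ℕ → ℝ} (h : ∀ l < L, κ l ≤ κ (l + 1)) (s x : ℝ) :
    ∑ l ∈ range L, fc * ((A l * wgt κ x l : ℝ) : ℂ) * e (s * ph κ A x l) =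
      fc * (amp L κ A x : ℂ) * e (s * psi L κ A x) := by
  rw [amp, Complex.ofReal_sum, Finset.mul_sum, Finset.sum_mul]
  refine Finset.sum_congr rfl fun l hl => ?_
  have hl' : l < L := Finset.mem_range.1 hl
  by_cases hx : κ l ≤ x ∧ x ≤ κ (l + 1)
  · rw [psi_eq h hl' hx.1 hx.2]
  · have : x < κ l ∨ κ (l + 1) < x := by
      by_contra hc
      exact hx ⟨not_lt.1 fun a => hc (Or.inl a), not_lt.1 fun a => hc (Or.inr a)⟩
    rw [wgt_eq_zero (h l hl') this]
    simp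

lemma amp_range {L : ℕ} {κ A : ℕ → ℝ} (h : ∀ l < L, κ l ≤ κ (l + 1))
    (hA : ∀ l < L, 0 < A l ∧ A l ≤ 1) (x : ℝ) : 0 ≤ amp L κ A x ∧ amp L κ A x ≤ 1 := by
  constructor
  · exact Finset.sum_nonneg fun l hl =>
      mul_nonneg (hA l (Finset.mem_range.1 hl)).1.le (wgt_nonneg x (h l (Finset.mem_range.1 hl)))
  · refine le_trans (Finset.sum_le_sum fun l hl => ?_) (sum_wgt_le κ x L)
    exact mul_le_of_le_one_left (wgt_nonneg x (h l (Finset.mem_range.1 hl)))
      (hA l (Finset.mem_range.1 hl)).2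

lemma amp_outside {L : ℕ} {κ A : ℕ → ℝ} (h : ∀ l < L, κ l ≤ κ (l + 1)) {x : ℝ}
    (hx : x < κ 0 ∨ κ L < x) : amp L κ A x = 0 := by
  refine Finset.sum_eq_zero fun l hl => ?_
  have hl' : l < L := Finset.mem_range.1 hl
  rw [wgt_eq_zero (h l hl') ?_, mul_zero]
  rcases hx with hx | hx
  · exact Or.inl (lt_of_lt_of_le hx (mono_of_steps h (Nat.zero_le l) hl'.le))
  · exact Or.inr (lt_of_le_of_lt (mono_of_steps h (by omega) le_rfl) hx)

lemma gap_le {L : ℕ} {κ : ℕ → ℝ} {gap : ℝ} (hgap : 0 < gap)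
    (hstep : ∀ l < L, gap ≤ κ (l + 1) - κ l) {i j : ℕ} (hi : i ≤ L) (hj : j ≤ L) (hne : i ≠ j) :
    gap ≤ |κ i - κ j| := by
  have h : ∀ l < L, κ l ≤ κ (l + 1) := fun l hl => by linarith [hstep l hl]
  rcases lt_or_gt_of_ne hne with hlt | hlt
  · have a := hstep i (by omega)
    have b : κ (i + 1) ≤ κ j := mono_of_steps h (by omega) hj
    rw [abs_sub_comm]
    exact le_trans (by linarith) (le_abs_self _)
  · have a := hstep j (by omega)
    have b : κ (j + 1) ≤ κ i := mono_of_steps h (by omega) hi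
    exact le_trans (by linarith) (le_abs_self _)

lemma jt_diff_small {L : ℕ} {κ A : ℕ → ℝ} {C δ : ℝ} (hC : 0 ≤ C)
    (hlev : ∀ j, lev L A j ∈ Set.Icc (0 : ℝ) 1)
    (hjmp : ∀ j, |lev L A j - lev L A (j + 1)| ≤ δ)
    (hcont : ∀ A A' z, A ∈ Set.Icc (0 : ℝ) 1 → A' ∈ Set.Icc (0 : ℝ) 1 →
      ‖junction A z - junction A' z‖ ≤ C * √|A - A'|)
    (s x : ℝ) (j : ℕ) : ‖jt L κ A s x j j - jt L κ A s x (j + 1) j‖ ≤ C * √δ := by
  rw [jt, jt, ← mul_sub, norm_mul, norm_e, one_mul]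
  exact (hcont _ _ _ (hlev j) (hlev (j + 1))).trans
    (mul_le_mul_of_nonneg_left (Real.sqrt_le_sqrt (hjmp j)) hC)

lemma jt_diff_far {L : ℕ} {κ A : ℕ → ℝ} {C gap s : ℝ} (hC : 0 ≤ C) (hgap : 0 < gap) (hs : 0 < s)
    (hlev : ∀ j, lev L A j ∈ Set.Icc (0 : ℝ) 1)
    (hdec : ∀ A z, A ∈ Set.Icc (0 : ℝ) 1 → z ≠ 0 → ‖junction A z‖ ≤ C / |z|)
    {x : ℝ} {j : ℕ} (hfar : gap / 2 ≤ |κ j - x|) :
    ‖jt L κ A s x j j - jt L κ A s x (j + 1) j‖ ≤ 4 * C / (√s * gap) := by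
  have hsp : 0 < √s := Real.sqrt_pos.2 hs
  have hz : √s * gap / 2 ≤ |√s * (κ j - x)| := by
    rw [abs_mul, abs_of_pos hsp, mul_div_assoc]
    exact mul_le_mul_of_nonneg_left hfar hsp.le
  have hz0 : √s * (κ j - x) ≠ 0 := by
    intro h
    rw [h, abs_zero] at hz
    have : 0 < √s * gap := mul_pos hsp hgap
    linarith
  have hb : ∀ b ∈ Set.Icc (0 : ℝ) 1, ‖junction b (√s * (κ j - x))‖ ≤ 2 * C / (√s * gap) := by
    intro b hb
    refine (hdec b _ hb hz0).trans ?_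
    have h2 : 0 < √s * gap / 2 := by positivity
    refine (div_le_div_of_nonneg_left hC h2 hz).trans (le_of_eq ?_)
    field_simp
  rw [jt, jt, ← mul_sub, norm_mul, norm_e, one_mul]
  refine (norm_sub_le _ _).trans ((add_le_add (hb _ (hlev j)) (hb _ (hlev (j + 1)))).trans ?_)
  exact le_of_eq (by ring)

lemma sum_le_one_exception {n : ℕ} (f : ℕ → ℝ) (a b : ℝ) (ha : 0 ≤ a) (hb : 0 ≤ b)
    (hall : ∀ j < n, f j ≤ a) (hone : ∀ i < n, ∀ j < n, b < f i → b < f j → i = j) :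
    ∑ j ∈ range n, f j ≤ a + n * b := by
  classical
  rw [← Finset.sum_filter_add_sum_filter_not (range n) (fun j => b < f j)]
  have h1 : #((range n).filter fun j => b < f j) ≤ 1 := by
    refine Finset.card_le_one.2 fun i hi j hj => ?_
    simp only [Finset.mem_filter, Finset.mem_range] at hi hj
    exact hone i hi.1 j hj.1 hi.2 hj.2
  refine add_le_add ?_ ?_
  · refine (Finset.sum_le_card_nsmul _ f a fun j hj => ?_).trans ?_
    · simp only [Finset.mem_filter, Finset.mem_range] at hj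
      exact hall j hj.1
    · rw [nsmul_eq_mul]
      exact mul_le_of_le_one_left ha (by exact_mod_cast h1)
  · refine (Finset.sum_le_card_nsmul _ f b fun j hj => ?_).trans ?_
    · simp only [Finset.mem_filter] at hj
      exact not_lt.1 hj.2
    · rw [nsmul_eq_mul]
      refine mul_le_mul_of_nonneg_right ?_ hb
      exact_mod_cast (Finset.card_filter_le _ _).trans (le_of_eq (Finset.card_range n))

lemma junctions_le {L : ℕ} {κ A : ℕ → ℝ} {C δ gap s : ℝ} (hC : 0 ≤ C) (hgap : 0 < gap) (hs : 0 < s)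
    (hstep : ∀ l < L, gap ≤ κ (l + 1) - κ l)
    (hlev : ∀ j, lev L A j ∈ Set.Icc (0 : ℝ) 1)
    (hjmp : ∀ j, |lev L A j - lev L A (j + 1)| ≤ δ)
    (hcont : ∀ A A' z, A ∈ Set.Icc (0 : ℝ) 1 → A' ∈ Set.Icc (0 : ℝ) 1 →
      ‖junction A z - junction A' z‖ ≤ C * √|A - A'|)
    (hdec : ∀ A z, A ∈ Set.Icc (0 : ℝ) 1 → z ≠ 0 → ‖junction A z‖ ≤ C / |z|) (x : ℝ) :
    ‖∑ j ∈ range (L + 1), (jt L κ A s x j j - jt L κ A s x (j + 1) j)‖ ≤
      C * √δ + (L + 1) * (4 * C / (√s * gap)) := by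
  refine (norm_sum_le _ _).trans ?_
  have h := sum_le_one_exception (n := L + 1)
    (fun j => ‖jt L κ A s x j j - jt L κ A s x (j + 1) j‖) (C * √δ) (4 * C / (√s * gap))
    (by positivity) (by positivity) (fun j _ => jt_diff_small hC hlev hjmp hcont s x j)
    (fun i hi j hj fi fj => by
      by_contra hne
      have gi : |κ i - x| < gap / 2 := lt_of_not_ge fun g =>
        (not_le.2 fi) (jt_diff_far hC hgap hs hlev hdec g)
      have gj : |κ j - x| < gap / 2 := lt_of_not_ge fun g =>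
        (not_le.2 fj) (jt_diff_far hC hgap hs hlev hdec g)
      have g := gap_le hgap hstep (by omega : i ≤ L) (by omega : j ≤ L) hne
      have t := abs_sub_le (κ i) x (κ j)
      rw [abs_sub_comm x (κ j)] at t
      linarith)
  exact h.trans (le_of_eq (by push_cast; ring))

end Staircase

open Staircase in
/-- B4. A piece with a staircase amplitude profile. -/
theorem staircase (h : FresnelSpec) : StaircaseSpec := by
  obtain ⟨C, hC, -, -, -, hcont, hdec⟩ := h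
  refine ⟨4 * C, by positivity, ?_⟩
  intro L κ A δ gap hgap hδ hstep hA hjump hend
  have hmono : ∀ l < L, κ l ≤ κ (l + 1) := fun l hl => by linarith [hstep l hl]
  refine ⟨amp L κ A, psi L κ A, amp_range hmono hA, fun x hx => amp_outside hmono hx, ?_⟩
  intro s hs x
  have hsum := Finset.sum_congr rfl fun l hl =>
    seg_eq L κ A s x hs l (Finset.mem_range.1 hl) (hA l (Finset.mem_range.1 hl)).1
  rw [hsum, Finset.sum_add_distrib, main_eq hmono s x, sum_junctions, add_sub_cancel_left]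
  refine (junctions_le hC.le hgap hs hstep (lev_mem hA) (lev_jump hδ hA hjump hend) hcont hdec
    x).trans ?_
  have h1 : C * √δ ≤ 4 * C * √δ :=
    mul_le_mul_of_nonneg_right (by linarith) (Real.sqrt_nonneg δ)
  have h2 : ((L : ℝ) + 1) * (4 * C / (√s * gap)) = 4 * C * (L + 1) / (√s * gap) := by ring
  linarith

end Vale.Agent.P110.Exist
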