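import Vale.Agent.P110.Exist.Tiling.Tiles
import Vale.Agent.P110.Exist.Tiling.Copies

/-!
The tiling of the residues by slots with almost uniformly filled fibres.
-/

open Finset

namespace Vale.Agent.P110.Exist

open Tiling

namespace Tiling

/-- The residues below `L * m` in one class modulo `L`. -/
lemma card_mod_class {L m : ℕ} (hL : 0 < L) (l : ℕ) (hl : l < L) :
    #{j : Fin (L * m) | (j : ℕ) % L = l} = m := by
  refine Eq.trans ?_ (card_fin m)
  refine (card_bij (fun (i : Fin m) _ => (⟨l + L * i, ?_⟩ : Fin (L * m))) (fun i _ => ?_)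
    (fun i _ i' _ e => ?_) fun j hj => ?_).symm
  · calc l + L * i < L * (i + 1) := by rw [Nat.mul_add, mul_one]; omega
      _ ≤ L * m := Nat.mul_le_mul_left _ i.isLt
  · simp [Nat.mod_eq_of_lt hl]
  · exact Fin.ext (Nat.eq_of_mul_eq_mul_left hL (Nat.add_left_cancel (Fin.ext_iff.1 e)))
  · simp only [mem_filter, mem_univ, true_and] at hj
    exact ⟨⟨(j : ℕ) / L, Nat.div_lt_of_lt_mul j.isLt⟩, mem_univ _, Fin.ext (by
      simp only [← hj]; exact Nat.mod_add_div _ _)⟩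

variable {D : ℕ} {S : Finset (Fin D → ℤ)} (hS : S.Nonempty) {H : ℕ} [NeZero H]
  {J : Type} [Fintype J] (q : J → (Fin D → ℤ) → ℕ) (ω : Fin H → Col S)

open Classical in
/-- The good points. -/
noncomputable def goods : Finset ((Fin D → ZMod (2 * H)) × J) :=
  univ.filter fun x => Good hS (q x.2) ω x.1

open Classical in
/-- The number of good points with a given tile of `n`. -/
noncomputable def inTile (n : Fin D → ℤ) (j : J) (s : ZMod (2 * H)) : ℕ :=
  (univ.filter fun y => tileS (q j) n y = s ∧ Good hS (q j) ω y).card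

/-- Its deviation from the expected number, for weights `p`. -/
noncomputable def fibDev (p : (Fin D → ℤ) → ℝ) (n : Fin D → ℤ) (j : J) (s : ZMod (2 * H)) : ℝ :=
  (inTile hS q ω n j s : ℝ) - (∏ n' ∈ S.erase n, p n' / 2) * ((2 * H : ℕ) : ℝ) ^ (D - 1) *
    (if ω (fold s) = col hS n s then 1 else 0)

/-- The total deviation at `n`. -/
noncomputable def totDev (p : (Fin D → ℤ) → ℝ) (n : Fin D → ℤ) : ℝ :=
  ∑ j, ∑ s, |fibDev hS q ω p n j s|

/-- The good points, counted by tile. -/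
lemma card_goods (n : Fin D → ℤ) :
    (goods hS q ω).card = ∑ j, ∑ s, inTile hS q ω n j s := by
  classical
  rw [← sum_product', card_eq_sum_card_fiberwise (f := fun x => (x.2, tileS (q x.2) n x.1))
    (t := univ ×ˢ univ) fun _ _ => mem_coe.2 (mem_product.2 ⟨mem_univ _, mem_univ _⟩)]
  refine sum_congr rfl fun a _ => ?_
  refine card_bij (fun x _ => x.1) (fun x hx => ?_) (fun x hx x' hx' e => ?_) fun y hy => ?_
  · simp only [mem_filter, mem_univ, true_and, goods, Prod.ext_iff] at hx ⊢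
    obtain ⟨h1, h2, h3⟩ := hx
    rw [h2] at h1 h3
    exact ⟨h3, h1⟩
  · simp only [mem_filter, mem_univ, true_and, goods, Prod.ext_iff] at hx hx'
    exact Prod.ext e (hx.2.1.trans hx'.2.1.symm)
  · simp only [mem_filter, mem_univ, true_and] at hy
    exact ⟨(y, a.1), by simp [goods, hy.1, hy.2], rfl⟩

/-- The deviations pin down the number of good points. -/
lemma goods_close {p : (Fin D → ℤ) → ℝ} (hp0 : ∀ n ∈ S, 0 < p n) (hp : ∑ n ∈ S, p n = 1) :
    |((goods hS q ω).card : ℝ) - 2 * H * Fintype.card J * ((2 * H : ℕ) : ℝ) ^ (D - 1) *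
      ∏ n ∈ S, p n / 2| ≤ 2 * ∑ n ∈ S, totDev hS q ω p n := by
  classical
  set π := ∏ n ∈ S, p n / 2
  set N : ℝ := ((2 * H : ℕ) : ℝ) ^ (D - 1)
  set X := ((goods hS q ω).card : ℝ)
  set T : (Fin D → ℤ) → ℝ := fun n =>
    (#{s : ZMod (2 * H) | ω (fold s) = col hS n s} : ℝ)
  have hn1 : ∀ n ∈ S, |p n / 2 * X - π * N * Fintype.card J * T n| ≤ totDev hS q ω p n := by
    intro n hn
    have e : X = ∑ j, ∑ s, (inTile hS q ω n j s : ℝ) := by
      simp only [X, card_goods hS q ω n, Nat.cast_sum]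
    have hπ : π = p n / 2 * ∏ n' ∈ S.erase n, p n' / 2 :=
      (mul_prod_erase S (fun a => p a / 2) hn).symm
    have e2 : (∑ j, ∑ s, fibDev hS q ω p n j s) * (p n / 2) =
        p n / 2 * X - π * N * Fintype.card J * T n := by
      simp only [fibDev, sum_sub_distrib, ← mul_sum, sum_boole, sum_const, card_univ,
        nsmul_eq_mul, ← e, hπ, N, T]
      ring
    rw [← e2, abs_mul]
    refine le_trans (mul_le_of_le_one_right (abs_nonneg _) ?_) ((abs_sum_le_sum_abs _ _).trans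
      (sum_le_sum fun j _ => abs_sum_le_sum_abs _ _))
    rw [abs_of_pos (half_pos (hp0 n hn))]
    linarith [single_le_sum (f := p) (fun a ha => (hp0 a ha).le) hn]
  have hT : ∑ n ∈ S, T n = H := by
    simp only [T, ← Nat.cast_sum, card_forward hS ω]
  have h2 := (abs_sum_le_sum_abs _ _).trans (sum_le_sum hn1)
  rw [sum_sub_distrib, ← sum_mul, ← sum_div, hp, ← mul_sum, hT] at h2
  rw [show X - 2 * H * Fintype.card J * N * π =
    2 * (1 / 2 * X - π * N * Fintype.card J * H) by ring, abs_mul, abs_two]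
  linarith

omit [Fintype J] in
/-- The copies past the capacity are at most the deviation. -/
lemma overflow_le {p : (Fin D → ℤ) → ℝ} {Lm L m R Q : ℕ} (q : Fin Lm → (Fin D → ℤ) → ℕ)
    (hL : L * m = Lm) (hL0 : 0 < L) {n : Fin D → ℤ} (hn : n ∈ S)
    (hQ : (R : ℝ) * ((m : ℝ) * ((2 * H : ℕ) : ℝ) ^ (D - 1) * ∏ n' ∈ S.erase n, p n' / 2) ≤ Q) :
    ((∑ u ∈ (goods hS q ω).image (fun x => (tileS (q x.2) n x.1, (x.2 : ℕ) % L)),
      (R * #{z ∈ goods hS q ω | (tileS (q z.2) n z.1, (z.2 : ℕ) % L) = u} - Q) : ℕ) : ℝ) ≤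
        R * totDev hS q ω p n := by
  classical
  push_cast
  refine (sum_le_sum (g := fun u => (R : ℝ) *
    ∑ j ∈ {j : Fin Lm | (j : ℕ) % L = u.2}, |fibDev hS q ω p n j u.1|) fun u hu => ?_).trans ?_
  · obtain ⟨y, hy, rfl⟩ := mem_image.1 hu
    have hcol : ω (fold (tileS (q y.2) n y.1)) = col hS n (tileS (q y.2) n y.1) :=
      (mem_filter.1 hy).2 n hn
    set s := tileS (q y.2) n y.1
    set l := (y.2 : ℕ) % L
    set F := #{z ∈ goods hS q ω | (tileS (q z.2) n z.1, (z.2 : ℕ) % L) = (s, l)}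
    have hF : F = ∑ j ∈ {j : Fin Lm | (j : ℕ) % L = l}, inTile hS q ω n j s := by
      simp only [inTile]
      rw [← card_sigma]
      refine card_bij (fun z _ => ⟨z.2, z.1⟩) (fun z hz => ?_) (fun z _ z' _ e => ?_)
        fun z hz => ?_
      · simp only [mem_filter, goods, mem_univ, true_and, Prod.ext_iff, mem_sigma] at hz ⊢
        exact ⟨hz.2.2, hz.2.1, hz.1⟩
      · simp only [Sigma.mk.injEq, heq_eq_eq] at e
        exact Prod.ext e.2 e.1
      · simp only [mem_sigma, mem_filter, mem_univ, true_and] at hz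
        exact ⟨(z.2, z.1), by simp [goods, hz.1, hz.2.1, hz.2.2], rfl⟩
    have hcls : #{j : Fin Lm | (j : ℕ) % L = l} = m := by
      subst hL
      exact card_mod_class hL0 l (Nat.mod_lt _ hL0)
    have hfs : (F : ℝ) - (m : ℝ) * ((2 * H : ℕ) : ℝ) ^ (D - 1) * (∏ n' ∈ S.erase n, p n' / 2) =
        ∑ j ∈ {j : Fin Lm | (j : ℕ) % L = l}, fibDev hS q ω p n j s := by
      simp only [fibDev, if_pos hcol, mul_one, sum_sub_distrib, hF, Nat.cast_sum, sum_const, hcls,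
        nsmul_eq_mul]
      ring
    by_cases hle : R * F ≤ Q
    · rw [Nat.sub_eq_zero_of_le hle, Nat.cast_zero]
      exact mul_nonneg (Nat.cast_nonneg _) (sum_nonneg fun _ _ => abs_nonneg _)
    · rw [Nat.cast_sub (not_le.1 hle).le, Nat.cast_mul]
      refine le_trans ?_ (mul_le_mul_of_nonneg_left
        ((le_abs_self _).trans ((congrArg abs hfs).trans_le (abs_sum_le_sum_abs _ _)))
        (Nat.cast_nonneg _))
      rw [mul_sub]
      linarith
  · rw [← mul_sum]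
    refine mul_le_mul_of_nonneg_left ((sum_le_sum_of_subset_of_nonneg
      (t := univ ×ˢ range L) (fun u hu => ?_) fun _ _ _ =>
        sum_nonneg fun _ _ => abs_nonneg _).trans (le_of_eq ?_)) (Nat.cast_nonneg _)
    · obtain ⟨y, -, rfl⟩ := mem_image.1 hu
      exact mem_product.2 ⟨mem_univ _, mem_range.2 (Nat.mod_lt _ hL0)⟩
    · rw [sum_product, totDev, sum_comm (f := fun j s => |fibDev hS q ω p n j s|)]
      exact sum_congr rfl fun s _ => sum_fiberwise_of_maps_to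
        (fun j _ => mem_range.2 (Nat.mod_lt _ hL0)) fun j => |fibDev hS q ω p n j s|

/-- The capacity is just above its target. -/
lemma capacity {J' Λ M i : ℕ} {K ε : ℝ} (hJ : 0 < J') (hM : 0 < M) (hK : 0 ≤ K) (hi : i < J')
    (hΛ : 3 ≤ ε * Λ * K) :
    ((J' * Λ * M : ℕ) : ℝ) * K ≤ (((J' * ⌈(Λ : ℝ) * K⌉₊ + i + 1) * M + 1 : ℕ) : ℝ) ∧
      (((J' * ⌈(Λ : ℝ) * K⌉₊ + i + 1) * M + 1 : ℕ) : ℝ) ≤
        ((J' * Λ * M : ℕ) : ℝ) * K * (1 + ε) := by
  have h1 : (Λ : ℝ) * K ≤ ⌈(Λ : ℝ) * K⌉₊ := Nat.le_ceil _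
  have h2 : (⌈(Λ : ℝ) * K⌉₊ : ℝ) ≤ Λ * K + 1 := (Nat.ceil_lt_add_one (by positivity)).le
  have h3 : (i : ℝ) + 1 ≤ J' := by exact_mod_cast hi
  have hJ1 : (1 : ℝ) ≤ J' := by exact_mod_cast hJ
  have hM1 : (1 : ℝ) ≤ M := by exact_mod_cast hM
  push_cast
  constructor
  · nlinarith [mul_le_mul_of_nonneg_left h1 (show (0 : ℝ) ≤ J' * M by positivity),
      mul_nonneg (Nat.cast_nonneg (α := ℝ) i) (Nat.cast_nonneg (α := ℝ) M)]
  · nlinarith [mul_le_mul_of_nonneg_left h2 (show (0 : ℝ) ≤ J' * M by positivity),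
      mul_le_mul_of_nonneg_right h3 (Nat.cast_nonneg (α := ℝ) M),
      mul_le_mul_of_nonneg_left hΛ (show (0 : ℝ) ≤ J' * M by positivity),
      mul_le_mul hJ1 hM1 zero_le_one (Nat.cast_nonneg _)]

/-- The filled proportion from the number of blocks and the capacity. -/
lemma rate_close {u a Q ε δ p : ℝ} (hp : 0 ≤ p) (ha : 0 ≤ a) (hε : 0 ≤ ε) (h4 : 4 * ε ≤ δ)
    (hQ : 0 < Q) (h1 : a ≤ Q) (h2 : Q ≤ a * (1 + ε)) (hu : |u - p * a| ≤ 3 * ε * (p * a)) :
    |u / Q - p| ≤ δ * p := by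
  rw [show u / Q - p = (u - p * Q) / Q by field_simp, abs_div, abs_of_pos hQ, div_le_iff₀ hQ]
  have hδ : 0 ≤ δ := by linarith
  have hu' := abs_le.1 hu
  rw [abs_le]
  constructor <;> nlinarith [mul_le_mul_of_nonneg_left h1 hp, mul_le_mul_of_nonneg_left h2 hp,
    mul_le_mul_of_nonneg_left h1 (mul_nonneg hp hδ),
    mul_le_mul_of_nonneg_right h4 (mul_nonneg hp ha), mul_nonneg hp (mul_nonneg hε ha)]

end Tiling

open Classical in
/-- B3. The tiling. -/
theorem tiling : TilingSpec := by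
  intro D S v hD hS hprim hneg hv p hp0 hp δ hδ
  obtain ⟨m, hm'⟩ : ∃ m : (Fin D → ℤ) → ℕ, ∀ n, m n = (dot n v).toNat :=
    ⟨_, fun _ => rfl⟩
  simp only [← hm']
  have hm : ∀ n ∈ S, 0 < m n ∧ dot n v = (m n : ℤ) := fun n hn => by
    have := hv n hn
    rw [hm']
    exact ⟨by omega, (Int.toNat_of_nonneg this.le).symm⟩
  obtain ⟨Lm, hLm⟩ : ∃ Lm, Lm = ∏ n ∈ S, m n := ⟨_, rfl⟩
  have hLm0 : 0 < Lm := hLm ▸ prod_pos fun n hn => (hm n hn).1
  obtain ⟨L, hL⟩ : ∃ L : (Fin D → ℤ) → ℕ, ∀ n ∈ S, L n * m n = Lm :=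
    ⟨fun n => Lm / m n, fun n hn => Nat.div_mul_cancel (hLm ▸ dvd_prod_of_mem m hn)⟩
  have hL0 : ∀ n ∈ S, 0 < L n := fun n hn => by
    rcases Nat.eq_zero_or_pos (L n) with h | h
    · have := hL n hn; rw [h, Nat.zero_mul] at this; omega
    · exact h
  obtain ⟨q, hq⟩ : ∃ q : Fin Lm → (Fin D → ℤ) → ℕ, ∀ j n, q j n = (j : ℕ) / L n :=
    ⟨_, fun _ _ => rfl⟩
  obtain ⟨ε, hε, h4⟩ : ∃ ε : ℝ, 0 < ε ∧ 4 * ε ≤ δ :=
    ⟨δ / 4, by positivity, by linarith⟩
  obtain ⟨H, _, ω, hω⟩ := exists_colouring hD hS hprim hneg hp0 hp q hε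
  obtain ⟨K, hK'⟩ : ∃ K : (Fin D → ℤ) → ℝ, ∀ n, K n =
      (m n : ℝ) * ((2 * H : ℕ) : ℝ) ^ (D - 1) * ∏ n' ∈ S.erase n, p n' / 2 := ⟨_, fun _ => rfl⟩
  have hK : ∀ n ∈ S, 0 < K n := fun n hn => by
    have := NeZero.pos H
    rw [hK']
    exact mul_pos (mul_pos (Nat.cast_pos.2 (hm n hn).1) (by positivity))
      (prod_pos fun a ha => half_pos (hp0 a (mem_of_mem_erase ha)))
  obtain ⟨Λ, hΛ⟩ := exists_nat_ge (∑ n ∈ S, 3 / (ε * K n))
  have hΛn : ∀ n ∈ S, 3 ≤ ε * Λ * K n := fun n hn => by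
    have h : 3 / (ε * K n) ≤ Λ := (single_le_sum (f := fun a => 3 / (ε * K a))
      (fun a ha => by have := hK a ha; positivity) hn).trans hΛ
    rw [div_le_iff₀ (mul_pos hε (hK n hn))] at h
    linarith
  have hplace : ∀ n ∈ S, place S n < #S := fun n hn => by
    rw [place, dif_pos hn]; exact (S.equivFin ⟨n, hn⟩).isLt
  refine ⟨2 * H * Lm, fun n => (slots hS ω (L n) n).image (addr Lm (m n)),
    fun n => #S * ⌈(Λ : ℝ) * K n⌉₊ + place S n + 1,
    Nat.mul_pos (Nat.mul_pos two_pos (NeZero.pos H)) hLm0, ⟨H * Lm, by ring⟩, ?_, ?_,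
    fun n _ => Nat.succ_pos _, ?_, fun M hM => ?_⟩
  · intro n hn a ha
    obtain ⟨u, hu, rfl⟩ := mem_image.1 ha
    exact addr_half (hL n hn) hu
  · intro n hn n' hn' a ha a' ha' l hl l' hl'
    obtain ⟨u, hu, rfl⟩ := mem_image.1 ha
    obtain ⟨u', hu', rfl⟩ := mem_image.1 ha'
    obtain ⟨h1, h2⟩ := addr_disjoint (m := m) hL hn hn' hu hu' hl hl'
    exact ⟨fun e => by obtain ⟨rfl, rfl⟩ := h1 e; exact ⟨rfl, rfl⟩, h2⟩
  · intro n hn n' hn' e
    refine place_injOn S hn hn' ?_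
    have := congrArg (· % #S) (Nat.succ.inj e)
    simpa [Nat.mul_add_mod, Nat.mod_eq_of_lt (hplace n hn),
      Nat.mod_eq_of_lt (hplace n' hn')] using this
  obtain ⟨Nb, x, r, hx, hr, hinj, hNb1, hNb2⟩ := exists_copies S (goods hS q ω)
    (fun n x => (tileS (q x.2) n x.1, (x.2 : ℕ) % L n))
    (fun n => (#S * ⌈(Λ : ℝ) * K n⌉₊ + place S n + 1) * M + 1) (#S * Λ * M)
  have hgood : ∀ i, Good hS (q (x i).2) ω (x i).1 := fun i => (mem_filter.1 (hx i)).2
  have hmod : ∀ i, ∀ n ∈ S,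
      dot n (fun k => (Lm : ℤ) * (((x i).1 k).val : ℤ) + ((x i).2 : ℕ) * v k) %
        ((2 * H * Lm : ℕ) : ℤ) =
          (addr Lm (m n) (tileS (q (x i).2) n (x i).1, ((x i).2 : ℕ) % L n) : ℕ) := fun i n hn =>
    dot_emod (hL n hn) (hm n hn).1 (hL0 n hn) n v (hm n hn).2 _ _ _ (by rw [tileS, hq])
  refine ⟨Nb, fun i k => (Lm : ℤ) * (((x i).1 k).val : ℤ) + ((x i).2 : ℕ) * v k, r,
    fun i n hn => ⟨?_, hr i n hn⟩, fun i i' n hn e e' => ?_, fun n hn => ?_⟩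
  · rw [hmod i n hn, Int.toNat_natCast]
    exact mem_image_of_mem _ (mem_slots.2 ⟨hgood i n hn, Nat.mod_lt _ (hL0 n hn)⟩)
  · rw [hmod i n hn, hmod i' n hn, Nat.cast_inj] at e
    exact hinj i i' n hn (addr_inj (hL n hn) (hm n hn).1
      (Nat.mod_lt _ (hL0 n hn)) (Nat.mod_lt _ (hL0 n hn)) e) e'
  have hcap := fun a (ha : a ∈ S) =>
    capacity (M := M) hS.card_pos hM (hK a ha).le (hplace a ha) (hΛn a ha)
  obtain ⟨R, hR⟩ : ∃ R, R = #S * Λ * M := ⟨_, rfl⟩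
  rw [← hR] at hNb1 hNb2 hcap
  obtain ⟨G0, hG0⟩ : ∃ G0 : ℝ,
      G0 = 2 * H * Lm * ((2 * H : ℕ) : ℝ) ^ (D - 1) * ∏ n ∈ S, p n / 2 := ⟨_, rfl⟩
  have hG00 : 0 ≤ G0 := by
    rw [hG0]
    exact mul_nonneg (by positivity) (prod_nonneg fun a ha => (half_pos (hp0 a ha)).le)
  have hZ : ∑ a ∈ S, totDev hS q ω p a ≤ ε * G0 := by
    refine le_trans (le_of_eq ?_) (hω.trans (le_of_eq (by rw [hG0, Fintype.card_fin])))
    simp only [totDev, fibDev, inTile]
  have hG : |((goods hS q ω).card : ℝ) - G0| ≤ 2 * (ε * G0) := by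
    have h := goods_close hS q ω hp0 hp
    rw [Fintype.card_fin, ← hG0] at h
    linarith
  have hN2 : (R : ℝ) * (goods hS q ω).card ≤ Nb + R * (ε * G0) := by
    refine le_trans (by exact_mod_cast hNb2) (le_of_eq_of_le (Nat.cast_add _ _)
      (add_le_add_right ?_ _))
    rw [Nat.cast_sum]
    refine le_trans (sum_le_sum (g := fun a => (R : ℝ) * totDev hS q ω p a) fun a ha => ?_)
      ((mul_sum S _ (R : ℝ)).symm.trans_le (mul_le_mul_of_nonneg_left hZ (Nat.cast_nonneg _)))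
    exact overflow_le hS ω q (hL a ha) (hL0 a ha) ha (by rw [← hK']; exact (hcap a ha).1)
  have hN1 : (Nb : ℝ) ≤ R * (goods hS q ω).card := by exact_mod_cast hNb1
  have hR0 : (0 : ℝ) ≤ R := Nat.cast_nonneg _
  have hclose : |(Nb : ℝ) - R * G0| ≤ 3 * ε * (R * G0) := by
    have hGa := abs_le.1 hG
    rw [abs_le]
    constructor <;> nlinarith [mul_le_mul_of_nonneg_left hGa.1 hR0,
      mul_le_mul_of_nonneg_left hGa.2 hR0, mul_nonneg hR0 (mul_nonneg hε.le hG00)]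
  have hH0 : (0 : ℝ) < H := by exact_mod_cast NeZero.pos H
  have hLr : (0 : ℝ) < Lm := by exact_mod_cast hLm0
  rw [← div_div]
  refine rate_close (hp0 n hn).le (mul_nonneg hR0 (hK n hn).le) hε.le h4
    (by exact_mod_cast Nat.succ_pos _) (hcap n hn).1 (hcap n hn).2 ?_
  obtain ⟨k, hk⟩ : ∃ k : ℝ, k = 2 * (m n : ℝ) / ((2 * H * Lm : ℕ) : ℝ) := ⟨_, rfl⟩
  have hk0 : 0 ≤ k := by rw [hk]; positivity
  have e1 : 2 * (Nb : ℝ) * (m n : ℝ) / ((2 * H * Lm : ℕ) : ℝ) = k * Nb := by rw [hk]; ring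
  have e2 : p n * (R * K n) = k * (R * G0) := by
    rw [hK', hG0, hk, ← mul_prod_erase S (fun a => p a / 2) hn]
    push_cast
    field_simp
  rw [e1, e2, ← mul_sub, abs_mul, abs_of_nonneg hk0, mul_left_comm (3 * ε) k]
  exact mul_le_mul_of_nonneg_left hclose hk0

end Vale.Agent.P110.Exist
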