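import Vale.Agent.P110.Exist.Spec
import Vale.Agent.P110.Exist.Basic

/-!
The waveform: a real trigonometric polynomial in many variables with sup norm at most one, energy
close to one and all frequencies primitive. It is the Möbius inversion of a product of smoothed
square waves.
-/

open Real Finset ArithmeticFunction
open scoped Real ComplexConjugate ArithmeticFunction.Moebius

namespace Vale.Agent.P110.Exist.Wave

lemma e_eq_one_iff (t : ℝ) : e t = 1 ↔ ∃ z : ℤ, t = z := by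
  rw [e, Complex.exp_eq_one_iff]
  refine exists_congr fun z => ⟨fun h => ?_, fun h => ?_⟩
  · have h2 := congrArg Complex.im h
    simp at h2
    nlinarith [pi_pos]
  · rw [h]; push_cast; ring

lemma conj_e (t : ℝ) : conj (e t) = e (-t) := (e_neg t).symm

lemma e_pow (t : ℝ) (n : ℕ) : e t ^ n = e (n * t) := by
  rw [e, e, ← Complex.exp_nat_mul]; push_cast; ring_nf

lemma e_sum {ι : Type} (s : Finset ι) (f : ι → ℝ) : e (∑ i ∈ s, f i) = ∏ i ∈ s, e (f i) := by
  classical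
  induction s using Finset.induction with
  | empty => simp [e_zero]
  | insert a s ha ih => rw [sum_insert ha, prod_insert ha, e_add, ih]

/-- Orthogonality. -/
lemma sum_e {d : ℕ} (hd : 0 < d) (z : ℤ) :
    ∑ r ∈ range d, e ((z : ℝ) * r / d) = if (d : ℤ) ∣ z then (d : ℂ) else 0 := by
  have hd' : (d : ℝ) ≠ 0 := Nat.cast_ne_zero.2 hd.ne'
  have hp : ∀ r : ℕ, e ((z : ℝ) * r / d) = e ((z : ℝ) / d) ^ r := fun r => by
    rw [e_pow]; congr 1; ring
  simp only [hp]
  split_ifs with h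
  · obtain ⟨k, rfl⟩ := h
    rw [(e_eq_one_iff _).2 ⟨k, by push_cast; field_simp⟩]
    simp
  · have h1 : e ((z : ℝ) / d) ≠ 1 := fun he => by
      obtain ⟨k, hk⟩ := (e_eq_one_iff _).1 he
      rw [div_eq_iff hd'] at hk
      exact h ⟨k, by rw [mul_comm]; exact_mod_cast hk⟩
    rw [geom_sum_eq h1, e_pow, (e_eq_one_iff _).2 ⟨z, by field_simp⟩, sub_self, zero_div]

/-- Parseval on `M` points. -/
lemma parseval {ι : Type} (s : Finset ι) (k : ι → ℤ) (f : ι → ℂ) {M : ℕ} (hM : 0 < M)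
    (hk : ∀ i ∈ s, ∀ i' ∈ s, (M : ℤ) ∣ k i - k i' → i = i') :
    ∑ m ∈ range M, ‖∑ i ∈ s, f i * e ((k i : ℝ) * m / M)‖ ^ 2 = M * ∑ i ∈ s, ‖f i‖ ^ 2 := by
  apply Complex.ofReal_injective
  push_cast
  simp only [← Complex.mul_conj', map_sum, map_mul, conj_e, sum_mul_sum]
  rw [sum_comm, mul_sum]
  refine sum_congr rfl fun i hi => ?_
  have hswap : ∀ (i' : ι) (m : ℕ), f i * e ((k i : ℝ) * m / M) *
      (conj (f i') * e (-((k i' : ℝ) * m / M))) =
      f i * conj (f i') * e (((k i - k i' : ℤ) : ℝ) * m / M) := fun i' m => by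
    rw [show ((k i - k i' : ℤ) : ℝ) * m / M = (k i : ℝ) * m / M + -((k i' : ℝ) * m / M) by
      push_cast; ring, e_add]
    ring
  rw [sum_comm, sum_eq_single i]
  · simp only [hswap, ← mul_sum]
    rw [sum_e hM, if_pos (by simp)]
    ring
  · intro i' hi' hne
    simp only [hswap, ← mul_sum]
    rw [sum_e hM, if_neg fun h => hne (hk i hi i' hi' h).symm, mul_zero]
  · exact fun h => absurd hi h

/-- Fejér's kernel. -/
noncomputable def ker (L : ℕ) (y : ℝ) : ℝ := ‖∑ i ∈ range L, e ((i : ℝ) * y)‖ ^ 2 / L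

lemma ker_nonneg (L : ℕ) (y : ℝ) : 0 ≤ ker L y := by unfold ker; positivity

lemma ker_add_int (L : ℕ) (y : ℝ) (z : ℤ) : ker L (y + z) = ker L y := by
  simp only [ker, mul_add]
  congr 3
  exact sum_congr rfl fun i _ => by
    rw [show (i : ℝ) * z = ((i * z : ℤ) : ℝ) by push_cast; rfl, e_add_int]

lemma ker_neg (L : ℕ) (y : ℝ) : ker L (-y) = ker L y := by
  rw [ker, ker, ← Complex.norm_conj (∑ i ∈ range L, e ((i : ℝ) * y))]
  simp [map_sum, conj_e]

lemma sum_ker {L M : ℕ} (hL : 0 < L) (hLM : L ≤ M) (x : ℝ) :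
    ∑ j ∈ range M, ker L (x - j / M) = M := by
  have h := parseval (range L) (fun i => -(i : ℤ)) (fun i => e ((i : ℝ) * x)) (hL.trans_le hLM)
    fun i hi i' hi' hd => by
      rw [mem_range] at hi hi'
      have := Int.eq_zero_of_abs_lt_dvd hd (by rw [abs_lt]; constructor <;> omega)
      omega
  simp only [norm_e, one_pow, sum_const, card_range, nsmul_eq_mul, mul_one] at h
  have h2 : ∀ j : ℕ, ker L (x - j / M) =
      ‖∑ i ∈ range L, e ((i : ℝ) * x) * e (((-(i : ℤ) : ℤ) : ℝ) * j / M)‖ ^ 2 / L := fun j => by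
    rw [ker]
    congr 3
    exact sum_congr rfl fun i _ => by rw [← e_add]; congr 1; push_cast; ring
  simp only [h2, ← sum_div, h]
  field_simp

/-- Away from the integers the kernel is small. -/
lemma ker_le {L : ℕ} {η y : ℝ} (hη : 0 < η) (h1 : η ≤ y) (h2 : y ≤ 1 - η) :
    ker L y ≤ 1 / (4 * η ^ 2 * L) := by
  have hs : 4 * η ≤ ‖e y - 1‖ := by
    have e1 : e y = Complex.exp (Complex.I * ((2 * π * y : ℝ) : ℂ)) := by rw [e, mul_comm]
    rw [e1, Complex.norm_exp_I_mul_ofReal_sub_one, show 2 * π * y / 2 = π * y by ring,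
      norm_eq_abs, abs_mul, abs_two]
    have hsin : 2 * η ≤ sin (π * y) := by
      rcases le_total y (1 / 2) with h | h
      · refine le_trans ?_ (mul_le_sin (mul_nonneg pi_pos.le (hη.le.trans h1))
          (by nlinarith [pi_pos]))
        rw [show 2 / π * (π * y) = 2 * y by field_simp]
        linarith
      · rw [← sin_pi_sub]
        refine le_trans ?_ (mul_le_sin (by nlinarith [pi_pos]) (by nlinarith [pi_pos]))
        rw [show 2 / π * (π - π * y) = 2 * (1 - y) by field_simp]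
        linarith
    linarith [le_abs_self (sin (π * y))]
  set S := ∑ i ∈ range L, e ((i : ℝ) * y)
  have hb : ‖S‖ * (4 * η) ≤ 2 := by
    refine (mul_le_mul_of_nonneg_left hs (norm_nonneg _)).trans ?_
    rw [← norm_mul, show S * (e y - 1) = e y ^ L - 1 from by
      simp only [S, ← e_pow]; exact geom_sum_mul _ _]
    refine (norm_sub_le _ _).trans ?_
    simp [norm_e]
    norm_num
  rcases Nat.eq_zero_or_pos L with rfl | hL
  · simp [ker]
  rw [ker, le_div_iff₀ (by positivity), div_mul_eq_mul_div, div_le_iff₀ (by positivity)]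
  have h3 : (‖S‖ * (4 * η)) ^ 2 ≤ 4 :=
    (pow_le_pow_left₀ (by positivity) hb 2).trans_eq (by norm_num)
  have hL0 : (0 : ℝ) ≤ L := Nat.cast_nonneg L
  calc ‖S‖ ^ 2 * (4 * η ^ 2 * (L : ℝ)) = (‖S‖ * (4 * η)) ^ 2 * (L : ℝ) / 4 := by ring
    _ ≤ 4 * (L : ℝ) / 4 := by gcongr
    _ = 1 * (L : ℝ) := by ring

/-- The sampled square wave. -/
noncomputable def sq (M j : ℕ) : ℝ := if 2 * j < M then 1 else -1

lemma sq_sq (M j : ℕ) : sq M j ^ 2 = 1 := by unfold sq; split <;> norm_num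

lemma abs_sum_sq {d m j₀ : ℕ} (hj : j₀ < m) :
    |∑ t ∈ range d, sq (d * m) (j₀ + t * m)| ≤ 1 := by
  set F := (range d).filter fun t => 2 * (j₀ + t * m) < d * m
  have h1 : range (d / 2) ⊆ F := fun t ht => by
    rw [mem_range] at ht
    refine mem_filter.2 ⟨mem_range.2 (by omega), ?_⟩
    have := Nat.mul_le_mul_right m (show 2 * t + 2 ≤ d by omega)
    nlinarith
  have h2 : F ⊆ range ((d + 1) / 2) := fun t ht => by
    obtain ⟨-, ht⟩ := mem_filter.1 ht
    have : 2 * t < d := Nat.lt_of_mul_lt_mul_right (show 2 * t * m < d * m by nlinarith)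
    exact mem_range.2 (by omega)
  have h3 : ∑ t ∈ range d, sq (d * m) (j₀ + t * m) = 2 * (#F : ℝ) - d := by
    simp only [sq, sum_ite, sum_const, nsmul_eq_mul, mul_one]
    have h4 := card_filter_add_card_filter_not (s := range d) fun t => 2 * (j₀ + t * m) < d * m
    rw [card_range] at h4
    have h5 : (#F : ℝ) + #((range d).filter fun t => ¬2 * (j₀ + t * m) < d * m) = d := by
      exact_mod_cast h4
    linarith
  have c1 := card_le_card h1
  have c2 := card_le_card h2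
  rw [card_range] at c1 c2
  have a1 : (d : ℝ) ≤ 2 * #F + 1 := by exact_mod_cast (show d ≤ 2 * #F + 1 by omega)
  have a2 : 2 * (#F : ℝ) ≤ d + 1 := by exact_mod_cast (show 2 * #F ≤ d + 1 by omega)
  rw [h3, abs_le]
  constructor <;> linarith

/-- The smoothed square wave. -/
noncomputable def hf (L M : ℕ) (x : ℝ) : ℝ := (∑ j ∈ range M, sq M j * ker L (x - j / M)) / M

/-- Its averages over the translates by multiples of `1/d`. -/
lemma abs_avg_hf {L M d : ℕ} (hL : 0 < L) (hLM : L ≤ M) (hd : d ∣ M) (hd0 : 0 < d) (x : ℝ) :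
    |(∑ r ∈ range d, hf L M (x + r / d)) / d| ≤ 1 / d := by
  obtain ⟨m, rfl⟩ := hd
  have hm : 0 < m := Nat.pos_of_mul_pos_left (hL.trans_le hLM)
  have hd' : (0 : ℝ) < d := Nat.cast_pos.2 hd0
  have hm' : (0 : ℝ) < m := Nat.cast_pos.2 hm
  set Kd : ℝ → ℝ := fun y => ∑ r ∈ range d, ker L (y + r / d)
  have hper : ∀ y (t : ℕ), Kd (y - t / d) = Kd y := by
    have h1 : ∀ y, Kd (y + 1 / d) = Kd y := fun y => by
      have e1 := sum_range_succ (fun r : ℕ => ker L (y + r / d)) d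
      have e2 := sum_range_succ' (fun r : ℕ => ker L (y + r / d)) d
      have e3 : ker L (y + (d : ℕ) / d) = ker L (y + (0 : ℕ) / d) := by
        rw [div_self hd'.ne', ← Int.cast_one, ker_add_int]; simp
      have e4 : Kd (y + 1 / d) = ∑ r ∈ range d, ker L (y + ((r + 1 : ℕ) : ℝ) / d) :=
        sum_congr rfl fun r _ => by congr 1; push_cast; ring
      simp only [Kd] at *
      linarith
    intro y t
    induction t with
    | zero => simp
    | succ t ih =>
      rw [← ih, ← h1 (y - (t + 1 : ℕ) / d)]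
      congr 1; push_cast; ring
  have hre : ∀ f : ℕ → ℝ, ∑ j ∈ range (d * m), f j =
      ∑ j₀ ∈ range m, ∑ t ∈ range d, f (j₀ + t * m) := fun f => by
    rw [sum_comm]
    clear hd0 hd' hper Kd hLM
    induction d with
    | zero => simp
    | succ d ih =>
      rw [Nat.succ_mul, sum_range_add, ih, sum_range_succ]
      exact congrArg _ (sum_congr rfl fun j _ => by rw [add_comm])
  have hmass : ∑ j₀ ∈ range m, Kd (x - (j₀ : ℝ) / (d * m : ℕ)) = (m : ℝ) * d := by
    have h : (d : ℝ) * ∑ j₀ ∈ range m, Kd (x - (j₀ : ℝ) / (d * m : ℕ)) =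
        ∑ j ∈ range (d * m), Kd (x - (j : ℝ) / (d * m : ℕ)) := by
      rw [hre, mul_sum]
      refine sum_congr rfl fun j₀ _ => ?_
      rw [sum_congr rfl fun t _ => show Kd (x - ((j₀ + t * m : ℕ) : ℝ) / (d * m : ℕ)) =
        Kd (x - (j₀ : ℝ) / (d * m : ℕ)) by
          rw [← hper (x - (j₀ : ℝ) / (d * m : ℕ)) t]; congr 1; push_cast; field_simp; ring]
      simp
    have h2 : ∑ j ∈ range (d * m), Kd (x - (j : ℝ) / (d * m : ℕ)) = d * ((d * m : ℕ) : ℝ) := by
      simp only [Kd]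
      rw [sum_comm]
      simp only [← add_sub_right_comm, sum_ker hL hLM]
      simp
    rw [h2] at h
    push_cast at h ⊢
    exact mul_left_cancel₀ hd'.ne' (h.trans (by ring))
  have heq : ∑ r ∈ range d, hf L (d * m) (x + r / d) =
      (∑ j₀ ∈ range m, (∑ t ∈ range d, sq (d * m) (j₀ + t * m)) *
        Kd (x - (j₀ : ℝ) / (d * m : ℕ))) / (d * m : ℕ) := by
    simp only [hf, ← sum_div, hre]
    congr 1
    rw [sum_comm]
    refine sum_congr rfl fun j₀ _ => ?_
    rw [sum_comm, sum_mul]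
    refine sum_congr rfl fun t _ => ?_
    rw [← hper (x - (j₀ : ℝ) / (d * m : ℕ)) t, mul_sum]
    refine sum_congr rfl fun r _ => ?_
    congr 2; push_cast; field_simp; ring
  rw [heq, abs_div, abs_div, Nat.abs_cast, Nat.abs_cast, div_le_div_iff_of_pos_right hd',
    div_le_one (Nat.cast_pos.2 (Nat.mul_pos hd0 hm))]
  refine (abs_sum_le_sum_abs _ _).trans ((sum_le_sum fun j hj => ?_).trans
    (hmass.trans (by push_cast; ring)).le)
  rw [abs_mul, abs_of_nonneg (a := Kd _) (sum_nonneg fun r _ => ker_nonneg L _)]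
  exact mul_le_of_le_one_left (sum_nonneg fun r _ => ker_nonneg L _) (abs_sum_sq (mem_range.1 hj))

lemma abs_hf {L M : ℕ} (hL : 0 < L) (hLM : L ≤ M) (x : ℝ) : |hf L M x| ≤ 1 := by
  simpa using abs_avg_hf hL hLM (one_dvd M) one_pos x

/-- Correlation of the wave with its samples. -/
lemma mean_hf {L H : ℕ} (hL : 0 < L) (hLH : L ≤ H) {η : ℝ} (hη : 0 < η) :
    1 - 8 * η - 4 / H - 1 / (η ^ 2 * L) ≤
      (∑ m ∈ range (2 * H), sq (2 * H) m * hf L (2 * H) (m / (2 * H : ℕ))) / (2 * H : ℕ) := by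
  set M := 2 * H with hM
  have hLM : L ≤ M := by omega
  have hH : (0 : ℝ) < H := Nat.cast_pos.2 (hL.trans_le hLH)
  have hM' : (M : ℝ) = 2 * H := by rw [hM]; push_cast; ring
  have hL' : (0 : ℝ) < L := Nat.cast_pos.2 hL
  set K : ℕ → ℕ → ℝ := fun m j => ker L ((m : ℝ) / M - j / M)
  have hKs : ∀ m j, K m j = K j m := fun m j => by simp only [K]; rw [← ker_neg, neg_sub]
  have hK1 : ∀ m, ∑ j ∈ range M, K m j = M := fun m => sum_ker hL hLM _
  set W := ∑ m ∈ range M, ∑ j ∈ range M, if 2 * m < M ∧ ¬2 * j < M then K m j else 0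
  have hdef : (M : ℝ) * M - ∑ m ∈ range M, sq M m * ((hf L M ((m : ℝ) / M)) * M) = 4 * W := by
    have h0 : ∀ m, sq M m * ((hf L M ((m : ℝ) / M)) * M) =
        ∑ j ∈ range M, sq M m * sq M j * K m j := fun m => by
      rw [hf, div_mul_cancel₀ _ (by rw [hM']; positivity), mul_sum]
      exact sum_congr rfl fun j _ => (mul_assoc _ _ _).symm
    have h1 : (M : ℝ) * M = ∑ m ∈ range M, ∑ j ∈ range M, K m j := by simp [hK1]
    have h2 : W = ∑ m ∈ range M, ∑ j ∈ range M,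
        if 2 * j < M ∧ ¬2 * m < M then K m j else 0 := by
      simp only [W]
      rw [sum_comm]
      exact sum_congr rfl fun a _ => sum_congr rfl fun b _ => by rw [hKs]
    rw [h1, show 4 * W = 2 * W + 2 * W by ring]
    nth_rw 2 [h2]
    simp only [h0, W, mul_sum, ← sum_sub_distrib, ← sum_add_distrib]
    refine sum_congr rfl fun m _ => sum_congr rfl fun j _ => ?_
    by_cases p : 2 * m < M <;> by_cases r : 2 * j < M <;> simp [sq, p, r] <;> ring
  set k := ⌈η * M⌉₊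
  have hW : W ≤ (2 * (η * M) + 2) * M + M * M * (1 / (4 * η ^ 2 * L)) := by
    have hrow : ∀ m ∈ range M, (∑ j ∈ range M, if 2 * m < M ∧ ¬2 * j < M then K m j else 0) ≤
        (if m ∈ range k ∪ Ico (H - k) H then (M : ℝ) else 0) + M * (1 / (4 * η ^ 2 * L)) := by
      intro m _
      by_cases hb : m ∈ range k ∪ Ico (H - k) H
      · rw [if_pos hb]
        refine le_add_of_le_of_nonneg ((sum_le_sum fun j _ => ?_).trans (hK1 m).le) (by positivity)
        split
        · exact le_rfl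
        · exact ker_nonneg L _
      · rw [if_neg hb, zero_add]
        refine (sum_le_card_nsmul (range M) _ (1 / (4 * η ^ 2 * L)) fun j hj => ?_).trans_eq
          (by simp [nsmul_eq_mul])
        split_ifs with hp
        · simp only [mem_union, mem_range, mem_Ico, not_or, not_lt, not_and] at hb
          rw [mem_range] at hj
          have hb1 : η * M ≤ m := (Nat.le_ceil _).trans (Nat.cast_le.2 hb.1)
          have hb2 : (m : ℝ) + η * M ≤ H := by
            have : m + k ≤ H := by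
              by_contra hc
              exact absurd (hb.2 (by omega)) (by omega)
            exact (add_le_add le_rfl (Nat.le_ceil _)).trans (by exact_mod_cast this)
          rw [hKs]
          have hj1 : (H : ℝ) ≤ j := by exact_mod_cast (show H ≤ j by omega)
          have hj2 : (j : ℝ) ≤ M := by exact_mod_cast hj.le
          refine ker_le hη ?_ ?_
          · rw [← sub_div, le_div_iff₀ (by rw [hM']; positivity)]; linarith
          · rw [← sub_div, div_le_iff₀ (by rw [hM']; positivity)]; linarith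
        · positivity
    refine (sum_le_sum hrow).trans ?_
    rw [sum_add_distrib, sum_const, card_range, nsmul_eq_mul, ← sum_filter, sum_const, nsmul_eq_mul,
      ← mul_assoc (M : ℝ)]
    refine add_le_add (mul_le_mul_of_nonneg_right ?_ (Nat.cast_nonneg _)) le_rfl
    have hc : #((range M).filter fun m => m ∈ range k ∪ Ico (H - k) H) ≤ k + k := by
      refine (card_le_card fun m hm => (mem_filter.1 hm).2).trans ((card_union_le _ _).trans ?_)
      rw [card_range, Nat.card_Ico]; omega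
    refine (Nat.cast_le.2 hc).trans ?_
    push_cast
    linarith [Nat.ceil_lt_add_one (show 0 ≤ η * (M : ℝ) by positivity)]
  have hsum : ∑ m ∈ range M, sq M m * ((hf L M ((m : ℝ) / M)) * M) =
      (∑ m ∈ range M, sq M m * hf L M ((m : ℝ) / M)) * M := by
    rw [sum_mul]; exact sum_congr rfl fun m _ => (mul_assoc _ _ _).symm
  rw [hsum] at hdef
  rw [le_div_iff₀ (by rw [hM']; positivity)]
  refine le_of_mul_le_mul_right ?_ (show (0 : ℝ) < M by rw [hM']; positivity)
  have : (1 - 8 * η - 4 / H - 1 / (η ^ 2 * L)) * M * M =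
      M * M - 4 * ((2 * (η * M) + 2) * M + M * M * (1 / (4 * η ^ 2 * L))) := by
    rw [hM']; field_simp; ring
  rw [this]
  linarith

/-- Frequencies of the wave. -/
noncomputable def box (L : ℕ) : Finset ℤ := Ioo (-(L : ℤ)) L

/-- Multiplicity of a difference. -/
noncomputable def wt (L : ℕ) (z : ℤ) : ℕ :=
  #((range L ×ˢ range L).filter fun p => (p.1 : ℤ) - p.2 = z)

/-- The coefficients of the wave. -/
noncomputable def co (L M : ℕ) (z : ℤ) : ℂ :=
  (wt L z : ℂ) / L * ((∑ j ∈ range M, (sq M j : ℂ) * e (-((z : ℝ) * j / M))) / M)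

lemma sum_co (L M : ℕ) (x : ℝ) :
    ∑ z ∈ box L, co L M z * e ((z : ℝ) * x) = (hf L M x : ℂ) := by
  have hK : ∀ y, (ker L y : ℂ) = (∑ z ∈ box L, (wt L z : ℂ) * e ((z : ℝ) * y)) / L := fun y => by
    simp only [ker, Complex.ofReal_div, Complex.ofReal_pow, Complex.ofReal_natCast,
      ← Complex.mul_conj', map_sum, conj_e, sum_mul_sum, ← e_add]
    congr 1
    rw [← sum_product', ← sum_fiberwise_of_maps_to (g := fun p : ℕ × ℕ => (p.1 : ℤ) - p.2)
      (t := box L) fun p hp => by simp [box] at hp ⊢; omega]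
    refine sum_congr rfl fun z _ => ?_
    rw [sum_congr rfl fun p hp => show e ((p.1 : ℝ) * y + -((p.2 : ℝ) * y)) = e ((z : ℝ) * y) by
      rw [← (mem_filter.1 hp).2]; congr 1; push_cast; ring]
    simp [wt]
  simp only [hf, Complex.ofReal_div, Complex.ofReal_sum, Complex.ofReal_mul, hK, co,
    Complex.ofReal_natCast, sum_div, mul_sum, sum_mul]
  rw [sum_comm]
  refine sum_congr rfl fun j _ => sum_congr rfl fun z _ => ?_
  rw [show (z : ℝ) * (x - j / M) = -((z : ℝ) * j / M) + (z : ℝ) * x by ring, e_add]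
  ring

lemma co_neg (L M : ℕ) (z : ℤ) : co L M (-z) = conj (co L M z) := by
  have hw : wt L (-z) = wt L z := by
    refine card_nbij' Prod.swap Prod.swap ?_ ?_ (fun _ _ => rfl) (fun _ _ => rfl) <;>
      intro p hp <;> simp at hp ⊢ <;> omega
  simp [co, hw, map_sum, conj_e, neg_div]

lemma co_zero (L H : ℕ) : co L (2 * H) 0 = 0 := by
  have h1 : ∀ m ∈ range H, sq (2 * H) m = 1 := fun m hm => if_pos (by simp at hm; omega)
  have h2 : ∀ m ∈ range H, sq (2 * H) (H + m) = -1 := fun m _ => if_neg (by omega)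
  have h : ∑ j ∈ range (2 * H), sq (2 * H) j = 0 := by
    rw [two_mul, sum_range_add, ← two_mul, sum_congr rfl h1, sum_congr rfl h2]
    simp
  simp [co, e_zero, ← Complex.ofReal_sum, h]

/-- The part of the frequencies divisible by `d`. -/
lemma part_eq {L M d : ℕ} (hd : 0 < d) (x : ℝ) :
    ∑ z ∈ (box L).filter (fun z => (d : ℤ) ∣ z), co L M z * e ((z : ℝ) * x) =
      (((∑ r ∈ range d, hf L M (x + r / d)) / d : ℝ) : ℂ) := by
  simp only [Complex.ofReal_div, Complex.ofReal_sum, ← sum_co, Complex.ofReal_natCast]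
  rw [sum_comm, sum_div, sum_filter]
  refine sum_congr rfl fun z _ => ?_
  simp only [mul_add, e_add, ← mul_sum, ← mul_assoc, ← mul_div_assoc, sum_e hd]
  have : (d : ℂ) ≠ 0 := Nat.cast_ne_zero.2 hd.ne'
  split_ifs <;> simp [this]

lemma box_inj {L M : ℕ} (h : 2 * L ≤ M) {z z' : ℤ} (hz : z ∈ box L) (hz' : z' ∈ box L)
    (hd : (M : ℤ) ∣ z - z') : z = z' := by
  simp [box] at hz hz'
  have := Int.eq_zero_of_abs_lt_dvd hd (by rw [abs_lt]; constructor <;> omega)
  omega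

/-- Energy of a divisible part. -/
lemma energy_part {L M d : ℕ} (hL : 0 < L) (hM : 2 * L ≤ M) (hd : d ∣ M) (hd0 : 0 < d) :
    ∑ z ∈ (box L).filter (fun z => (d : ℤ) ∣ z), ‖co L M z‖ ^ 2 ≤ (1 / d : ℝ) ^ 2 := by
  have hM0 : 0 < M := by omega
  have h := parseval ((box L).filter fun z => (d : ℤ) ∣ z) id (co L M) hM0
    fun i hi i' hi' => box_inj hM (mem_filter.1 hi).1 (mem_filter.1 hi').1
  refine le_of_mul_le_mul_left (h.symm.le.trans ?_) (Nat.cast_pos.2 hM0 : (0 : ℝ) < M)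
  refine (sum_le_card_nsmul _ _ ((1 / d : ℝ) ^ 2) fun m _ => ?_).trans_eq (by simp [nsmul_eq_mul])
  simp only [id_eq, mul_div_assoc, part_eq hd0, Complex.norm_real, norm_eq_abs]
  exact pow_le_pow_left₀ (abs_nonneg _) (abs_avg_hf hL (by omega) hd hd0 _) 2

/-- Energy of the wave. -/
lemma energy_ge {L H : ℕ} (hL : 0 < L) (hLH : L ≤ H) {η : ℝ} (hη : 0 < η)
    (h0 : 0 ≤ 1 - 8 * η - 4 / H - 1 / (η ^ 2 * L)) :
    (1 - 8 * η - 4 / H - 1 / (η ^ 2 * L)) ^ 2 ≤ ∑ z ∈ box L, ‖co L (2 * H) z‖ ^ 2 := by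
  have hM0 : 0 < 2 * H := by omega
  have hM : (0 : ℝ) < (2 * H : ℕ) := Nat.cast_pos.2 hM0
  have h := parseval (box L) id (co L (2 * H)) hM0 fun i hi i' hi' => box_inj (by omega) hi hi'
  simp only [id_eq, mul_div_assoc, sum_co, Complex.norm_real, norm_eq_abs, sq_abs] at h
  refine (pow_le_pow_left₀ h0 (mean_hf hL hLH hη) 2).trans ?_
  have hcs := sum_mul_sq_le_sq_mul_sq (range (2 * H)) (sq (2 * H))
    fun m => hf L (2 * H) ((m : ℝ) / (2 * H : ℕ))
  simp only [sq_sq, sum_const, card_range, nsmul_eq_mul, mul_one, h] at hcs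
  rw [div_pow, div_le_iff₀ (by positivity)]
  exact hcs.trans_eq (by ring)

/-- The gcd of the coordinates. -/
noncomputable def gd {D : ℕ} (n : Fin D → ℤ) : ℕ := (univ.gcd n).natAbs

lemma dvd_gd {D : ℕ} (n : Fin D → ℤ) (d : ℕ) : d ∣ gd n ↔ ∀ i, (d : ℤ) ∣ n i := by
  rw [gd, ← Int.natCast_dvd, Finset.dvd_gcd_iff]
  simp

lemma gd_neg {D : ℕ} (n : Fin D → ℤ) : gd (-n) = gd n :=
  Nat.dvd_antisymm ((dvd_gd _ _).2 fun i => by simpa using (dvd_gd (-n) _).1 dvd_rfl i)
    ((dvd_gd _ _).2 fun i => by simpa using (dvd_gd n _).1 dvd_rfl i)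

lemma exists_dot {D : ℕ} (n : Fin D → ℤ) (h : gd n = 1) : ∃ y, dot n y = 1 := by
  obtain ⟨g, hg⟩ := Finset.gcd_eq_sum_mul univ n
  refine ⟨fun i => univ.gcd n * g i, ?_⟩
  calc dot n _ = univ.gcd n * ∑ i, n i * g i := by
        rw [dot, mul_sum]; exact sum_congr rfl fun i _ => by ring
    _ = ((gd n : ℕ) : ℤ) * (gd n : ℕ) := by rw [← hg, gd, Int.natAbs_mul_self']
    _ = 1 := by rw [h]; rfl

lemma dot_ne {b : ℤ} : ∀ {D : ℕ} (n : Fin D → ℤ), (∀ i, |n i| < b) → (∃ i, n i ≠ 0) →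
    dot n (fun i => b ^ (i : ℕ)) ≠ 0
  | 0, n, _, h => by obtain ⟨i, -⟩ := h; exact i.elim0
  | D + 1, n, hb, h => by
    intro h0
    have hs : n 0 + b * dot (fun i => n i.succ) (fun i => b ^ (i : ℕ)) = 0 := by
      simpa [dot, Fin.sum_univ_succ, mul_sum, pow_succ, mul_comm, mul_left_comm] using h0
    have h1 : n 0 = 0 := Int.eq_zero_of_abs_lt_dvd
      ((dvd_add_left (dvd_mul_right b _)).1 (hs ▸ dvd_zero b)) (hb 0)
    rw [h1, zero_add, mul_eq_zero] at hs
    rcases hs with hb0 | hs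
    · have := hb 0
      rw [hb0] at this
      exact absurd this (not_lt.2 (abs_nonneg _))
    · obtain ⟨i, hi⟩ := h
      refine dot_ne (fun i => n i.succ) (fun i => hb _) ?_ hs
      obtain ⟨j, rfl⟩ := Fin.exists_succ_eq.2 (show i ≠ 0 from fun e => hi (e ▸ h1))
      exact ⟨j, hi⟩

lemma sum_moebius (g : ℕ) : ∑ d ∈ g.divisors, (μ d : ℂ) = if g = 1 then 1 else 0 := by
  have h := congrArg (fun f : ArithmeticFunction ℤ => f g) moebius_mul_coe_zeta
  simp only [coe_mul_zeta_apply, one_apply] at h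
  rw [← Int.cast_sum, h]
  push_cast
  rfl

lemma sum_inv_sq (n : ℕ) :
    ∑ d ∈ Icc 2 (n + 1), (1 / (d : ℝ)) ^ (2 : ℕ) ≤ 1 - 1 / ((n : ℝ) + 1) := by
  induction n with
  | zero => simp
  | succ n ih =>
    rw [sum_Icc_succ_top (by omega)]
    refine (add_le_add ih le_rfl).trans ?_
    push_cast
    have h1 : (1 / ((n : ℝ) + 1 + 1)) ^ (2 : ℕ) ≤ 1 / ((n : ℝ) + 1) - 1 / ((n : ℝ) + 1 + 1) := by
      rw [one_div_pow, div_sub_div _ _ (by positivity) (by positivity),
        div_le_div_iff₀ (by positivity) (by positivity)]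
      nlinarith [Nat.cast_nonneg (α := ℝ) n]
    linarith

lemma tail_le (D : ℕ) (L : ℕ) :
    ∑ d ∈ Icc 2 L, (1 / (d : ℝ)) ^ (D + 2) ≤ (1 / 2 : ℝ) ^ D := by
  calc ∑ d ∈ Icc 2 L, (1 / (d : ℝ)) ^ (D + 2)
      ≤ ∑ d ∈ Icc 2 (L + 1), (1 / 2 : ℝ) ^ D * (1 / (d : ℝ)) ^ 2 := by
        refine (sum_le_sum fun d hd => ?_).trans (sum_le_sum_of_subset_of_nonneg
          (Icc_subset_Icc le_rfl (Nat.le_succ L)) fun d _ _ => by positivity)
        rw [pow_add]
        refine mul_le_mul_of_nonneg_right (pow_le_pow_left₀ (by positivity)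
          (one_div_le_one_div_of_le two_pos ?_) _) (by positivity)
        exact_mod_cast (mem_Icc.1 hd).1
    _ ≤ (1 / 2 : ℝ) ^ D * 1 := by
        rw [← mul_sum]
        exact mul_le_mul_of_nonneg_left ((sum_inv_sq L).trans (sub_le_self _ (by positivity)))
          (by positivity)
    _ = _ := mul_one _

/-- The product coefficients. -/
noncomputable def cf (L M : ℕ) {D : ℕ} (n : Fin D → ℤ) : ℂ := ∏ i, co L M (n i)

/-- The primitive frequencies. -/
noncomputable def supp (L M D : ℕ) : Finset (Fin D → ℤ) :=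
  (Fintype.piFinset fun _ : Fin D => box L).filter fun n => gd n = 1 ∧ cf L M n ≠ 0

section

variable {L H D : ℕ} {n : Fin D → ℤ}

lemma abs_lt_of_mem (hn : n ∈ Fintype.piFinset fun _ : Fin D => box L) (i : Fin D) :
    |n i| < (L : ℤ) := by
  have := Fintype.mem_piFinset.1 hn i
  simp [box] at this
  exact abs_lt.2 this

lemma coord_ne (hc : cf L (2 * H) n ≠ 0) (i : Fin D) : n i ≠ 0 := fun e0 =>
  hc (prod_eq_zero (mem_univ i) (by rw [e0]; exact co_zero L H))

lemma gd_bounds (hD : 0 < D) (hn : n ∈ Fintype.piFinset fun _ : Fin D => box L)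
    (hc : cf L (2 * H) n ≠ 0) : 0 < gd n ∧ gd n ≤ L := by
  set i : Fin D := ⟨0, hD⟩
  have h1 : gd n ∣ (n i).natAbs := Int.natCast_dvd.1 ((dvd_gd _ _).1 dvd_rfl i)
  have h2 : 0 < (n i).natAbs := Int.natAbs_pos.2 (coord_ne hc i)
  refine ⟨Nat.pos_of_dvd_of_pos h1 h2, (Nat.le_of_dvd h2 h1).trans ?_⟩
  have := abs_lt.1 (abs_lt_of_mem hn i)
  omega

/-- Möbius inversion of the product. -/
lemma wave_eq (hD : 0 < D) (θ : Fin D → ℝ) :
    ∑ d ∈ Icc 1 L, (μ d : ℂ) *
      ∏ i, ∑ z ∈ (box L).filter (fun z => (d : ℤ) ∣ z), co L (2 * H) z * e ((z : ℝ) * θ i) =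
      ∑ n ∈ supp L (2 * H) D, cf L (2 * H) n * e (∑ i, n i * θ i) := by
  simp only [sum_filter, prod_univ_sum, mul_sum, supp]
  rw [sum_comm]
  refine sum_congr rfl fun n hn => ?_
  simp only [Fintype.prod_ite_zero, prod_mul_distrib, ← e_sum, ← dvd_gd, mul_ite, mul_zero,
    ← sum_filter, ← sum_mul]
  by_cases hc : cf L (2 * H) n = 0
  · simp [show ∏ i, co L (2 * H) (n i) = 0 from hc, hc]
  obtain ⟨hg1, hg2⟩ := gd_bounds hD hn hc
  rw [show (Icc 1 L).filter (fun d => d ∣ gd n) = (gd n).divisors by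
    ext d
    simp only [mem_filter, mem_Icc, Nat.mem_divisors]
    exact ⟨fun h => ⟨h.2, hg1.ne'⟩, fun h => ⟨⟨Nat.pos_of_dvd_of_pos h.1 hg1,
      (Nat.le_of_dvd hg1 h.1).trans hg2⟩, h.1⟩⟩, sum_moebius]
  by_cases h1 : gd n = 1
  · simp [h1, cf]
    tauto
  · simp [h1]

/-- The sup norm. -/
lemma norm_wave_le (hL : 0 < L) (hLH : L ≤ H) (hdvd : ∀ d, 0 < d → d ≤ L → d ∣ 2 * H) (hD : 0 < D)
    (θ : Fin D → ℝ) : ‖∑ n ∈ supp L (2 * H) D, cf L (2 * H) n * e (∑ i, n i * θ i)‖ ≤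
      1 + ∑ d ∈ Icc 2 L, (1 / (d : ℝ)) ^ D := by
  rw [← wave_eq hD θ]
  refine (norm_sum_le _ _).trans ?_
  have hins : Icc 1 L = insert 1 (Icc 2 L) := by ext d; simp; omega
  rw [hins, sum_insert (by simp)]
  refine add_le_add ?_ (sum_le_sum fun d hd => ?_)
  all_goals rw [norm_mul, norm_prod]
  · refine mul_le_one₀ (by simp) (prod_nonneg fun i _ => norm_nonneg _)
      (prod_le_one (fun i _ => norm_nonneg _) fun i _ => ?_)
    rw [part_eq one_pos, Complex.norm_real, norm_eq_abs]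
    simpa using abs_avg_hf hL (show L ≤ 2 * H by omega) (one_dvd _) one_pos (θ i)
  · obtain ⟨h2, h3⟩ := mem_Icc.1 hd
    refine (mul_le_of_le_one_left (prod_nonneg fun i _ => norm_nonneg _) ?_).trans ?_
    · rw [Complex.norm_intCast]
      exact_mod_cast abs_moebius_le_one
    · refine (prod_le_prod (g := fun _ => 1 / (d : ℝ)) (fun i _ => norm_nonneg _)
        fun i _ => ?_).trans_eq (by rw [prod_const, card_univ, Fintype.card_fin])
      rw [part_eq (by omega), Complex.norm_real, norm_eq_abs]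
      exact abs_avg_hf hL (by omega) (hdvd d (by omega) h3) (by omega) _

/-- The energy. -/
lemma energy_supp (hL : 0 < L) (hLH : L ≤ H) (hdvd : ∀ d, 0 < d → d ≤ L → d ∣ 2 * H) (hD : 0 < D) :
    (∑ z ∈ box L, ‖co L (2 * H) z‖ ^ 2) ^ D - ∑ d ∈ Icc 2 L, (1 / (d : ℝ)) ^ D ≤
      ∑ n ∈ supp L (2 * H) D, ‖cf L (2 * H) n‖ ^ 2 := by
  have hw : ∀ n : Fin D → ℤ, ‖cf L (2 * H) n‖ ^ 2 = ∏ i, ‖co L (2 * H) (n i)‖ ^ 2 := fun n => by
    rw [cf, norm_prod, prod_pow]
  set all := Fintype.piFinset fun _ : Fin D => box L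
  have hall : (∑ z ∈ box L, ‖co L (2 * H) z‖ ^ 2) ^ D = ∑ n ∈ all, ‖cf L (2 * H) n‖ ^ 2 := by
    simp only [hw, all]
    rw [← prod_univ_sum (fun _ : Fin D => box L) (fun _ z => ‖co L (2 * H) z‖ ^ 2)]
    simp
  have h1 : ∑ n ∈ all, ‖cf L (2 * H) n‖ ^ 2 ≤ (∑ n ∈ supp L (2 * H) D, ‖cf L (2 * H) n‖ ^ 2) +
      ∑ n ∈ all, ∑ d ∈ Icc 2 L, ∏ i,
        if (d : ℤ) ∣ n i then ‖co L (2 * H) (n i)‖ ^ 2 else 0 := by
    rw [supp, sum_filter, ← sum_add_distrib]
    refine sum_le_sum fun n hn => ?_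
    have hnn : ∀ d ∈ Icc 2 L,
        0 ≤ ∏ i, if (d : ℤ) ∣ n i then ‖co L (2 * H) (n i)‖ ^ 2 else 0 := fun d _ =>
      prod_nonneg fun i _ => by split <;> positivity
    by_cases hc : cf L (2 * H) n = 0
    · rw [if_neg fun h => h.2 hc, zero_add, hc, norm_zero, zero_pow two_ne_zero]
      exact sum_nonneg hnn
    by_cases h1 : gd n = 1
    · rw [if_pos ⟨h1, hc⟩]
      exact le_add_of_nonneg_right (sum_nonneg hnn)
    · rw [if_neg fun h => h1 h.1, zero_add, hw]
      obtain ⟨hg1, hg2⟩ := gd_bounds hD hn hc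
      refine le_trans (le_of_eq ?_) (single_le_sum hnn (mem_Icc.2 ⟨by omega, hg2⟩ :
        gd n ∈ Icc 2 L))
      exact prod_congr rfl fun i _ => (if_pos ((dvd_gd _ _).1 dvd_rfl i)).symm
  have h2 : ∑ n ∈ all, ∑ d ∈ Icc 2 L, ∏ i,
      (if (d : ℤ) ∣ n i then ‖co L (2 * H) (n i)‖ ^ 2 else 0) ≤
      ∑ d ∈ Icc 2 L, (1 / (d : ℝ)) ^ D := by
    rw [sum_comm]
    refine sum_le_sum fun d hd => ?_
    obtain ⟨h2, h3⟩ := mem_Icc.1 hd
    rw [← prod_univ_sum (fun _ : Fin D => box L)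
      (fun _ z => if (d : ℤ) ∣ z then ‖co L (2 * H) z‖ ^ 2 else 0), prod_const, card_univ,
      Fintype.card_fin, ← sum_filter]
    refine pow_le_pow_left₀ (sum_nonneg fun z _ => by positivity)
      ((energy_part hL (by omega) (hdvd d (by omega) h3) (by omega)).trans ?_) _
    exact pow_le_of_le_one (by positivity)
      ((div_le_one (by positivity)).2 (by exact_mod_cast (show 1 ≤ d by omega))) two_ne_zero
  linarith

end

/-- Choice of the parameters. -/
lemma params {δ : ℝ} (hδ : 0 < δ) (hδ1 : δ ≤ 1) :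
    ∃ D L H : ℕ, 2 ≤ D ∧ 0 < L ∧ L ≤ H ∧ (∀ d, 0 < d → d ≤ L → d ∣ 2 * H) ∧
      ∑ d ∈ Icc 2 L, (1 / (d : ℝ)) ^ D ≤ δ / 10 ∧
      1 - δ / 5 ≤ (∑ z ∈ box L, ‖co L (2 * H) z‖ ^ 2) ^ D := by
  obtain ⟨D0, hD0⟩ := exists_pow_lt_of_lt_one (show 0 < δ / 10 by positivity)
    (show (1 / 2 : ℝ) < 1 by norm_num)
  set ε := δ / (10 * (D0 + 2 : ℕ)) with hε
  have hε0 : 0 < ε := by positivity
  set η := ε / 32 with hη
  have hη0 : 0 < η := by positivity
  obtain ⟨L0, hL0⟩ := exists_nat_ge (2 / (η ^ 2 * ε) + 16 / ε)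
  set L := L0 + 1
  set H := Nat.factorial L
  have hLH : L ≤ H := Nat.self_le_factorial L
  refine ⟨D0 + 2, L, H, by omega, Nat.succ_pos _, hLH, fun d h1 h2 =>
    (Nat.dvd_factorial h1 h2).mul_left 2, (tail_le D0 L).trans hD0.le, ?_⟩
  have hL' : 2 / (η ^ 2 * ε) + 16 / ε ≤ (L : ℝ) := hL0.trans (by simp [L])
  have hLr : (0 : ℝ) < L := by positivity
  have hp : 0 < 2 / (η ^ 2 * ε) := by positivity
  have hp' : 0 < 16 / ε := by positivity
  have h1 : 1 / (η ^ 2 * L) ≤ ε / 2 := by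
    have h := (div_le_iff₀ (by positivity)).1 (show 2 / (η ^ 2 * ε) ≤ (L : ℝ) by linarith)
    rw [div_le_div_iff₀ (by positivity) two_pos]
    linarith
  have h2 : 4 / (H : ℝ) ≤ ε / 4 := by
    have h := (div_le_iff₀ hε0).1 (show 16 / ε ≤ (L : ℝ) by linarith)
    have hH : (L : ℝ) ≤ H := by exact_mod_cast hLH
    rw [div_le_div_iff₀ (hLr.trans_le hH) (by norm_num)]
    nlinarith
  have hD2 : (2 : ℝ) ≤ (D0 + 2 : ℕ) := by exact_mod_cast (show 2 ≤ D0 + 2 by omega)
  have hε1 : ε ≤ 1 / 2 := by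
    rw [hε, div_le_div_iff₀ (by positivity) two_pos]
    linarith
  have hE := energy_ge (Nat.succ_pos L0) hLH hη0 (by linarith)
  have hDε : 2 * ((D0 + 2 : ℕ) : ℝ) * ε = δ / 5 := by rw [hε]; field_simp; ring
  rw [← hDε]
  calc 1 - 2 * ((D0 + 2 : ℕ) : ℝ) * ε = 1 + ((D0 + 2 : ℕ) : ℝ) * (-(2 * ε)) := by ring
    _ ≤ (1 + -(2 * ε)) ^ (D0 + 2) := one_add_mul_le_pow (by linarith) _
    _ ≤ _ := pow_le_pow_left₀ (by linarith) (le_trans (le_trans (by nlinarith [sq_nonneg ε])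
        (pow_le_pow_left₀ (show 0 ≤ 1 - ε by linarith) (by linarith) 2)) hE) _

/-- **The waveform.** -/
theorem wave : WaveSpec := by
  intro δ hδ
  obtain ⟨D, L, H, hD, hL, hLH, hdvd, hτ, hE⟩ := params (lt_min hδ one_pos) (min_le_right δ 1)
  set τ := ∑ d ∈ Icc 2 L, (1 / (d : ℝ)) ^ D
  have hτ0 : 0 ≤ τ := sum_nonneg fun d _ => by positivity
  have hneg : ∀ n : Fin D → ℤ, cf L (2 * H) (-n) = conj (cf L (2 * H) n) := fun n => by
    simp [cf, co_neg, map_prod]
  refine ⟨D, supp L (2 * H) D, fun n => cf L (2 * H) n / ((1 + τ : ℝ) : ℂ),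
    fun i => (L : ℤ) ^ (i : ℕ), hD, fun n hn => ?_, fun n hn => exists_dot n (mem_filter.1 hn).2.1,
    fun n hn => dot_ne n (abs_lt_of_mem (mem_filter.1 hn).1)
      ⟨⟨0, by omega⟩, coord_ne (mem_filter.1 hn).2.2 _⟩,
    fun n hn => ⟨div_ne_zero (mem_filter.1 hn).2.2
      (Complex.ofReal_ne_zero.2 (by positivity)), ?_⟩, fun θ => ?_, ?_⟩
  · obtain ⟨ha, hg, hc⟩ := mem_filter.1 hn
    refine mem_filter.2 ⟨Fintype.mem_piFinset.2 fun i => ?_, by rw [gd_neg, hg], by
      rw [hneg]; simpa using hc⟩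
    have := abs_lt.1 (abs_lt_of_mem ha i)
    simp [box]
    omega
  · simp only [hneg, map_div₀, Complex.conj_ofReal]
  · simp only [div_mul_eq_mul_div, ← sum_div, norm_div, Complex.norm_real, norm_eq_abs]
    rw [abs_of_pos (show 0 < 1 + τ by positivity), div_le_one (by positivity)]
    exact norm_wave_le hL hLH hdvd (by omega) θ
  · have h := energy_supp hL hLH hdvd (show 0 < D by omega)
    simp only [norm_div, Complex.norm_real, norm_eq_abs, div_pow, sq_abs, ← sum_div]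
    rw [le_div_iff₀ (by positivity)]
    refine le_trans ?_ (le_trans (show 1 - 3 * min δ 1 / 10 ≤ _ by linarith) h)
    have h5 : min δ 1 ≤ δ := min_le_left _ _
    have h4 : min δ 1 ≤ 1 := min_le_right _ _
    calc (1 - δ) * (1 + τ) ^ 2 ≤ (1 - min δ 1) * (1 + τ) ^ 2 :=
          mul_le_mul_of_nonneg_right (by linarith) (sq_nonneg _)
      _ ≤ (1 - min δ 1) * (1 + min δ 1 / 10) ^ 2 :=
          mul_le_mul_of_nonneg_left (pow_le_pow_left₀ (by positivity) (by linarith) 2) (by linarith)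
      _ ≤ 1 - 3 * min δ 1 / 10 := by
          have hm : 0 ≤ min δ 1 := (lt_min hδ one_pos).le
          nlinarith [pow_nonneg hm 3, sq_nonneg (min δ 1)]

end Vale.Agent.P110.Exist.Wave
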